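import Crest.Agent.R20.L

/-!
# Row 20: bad numbers have bounded mass (`BadStmt`)
-/

set_option autoImplicit false

noncomputable section

namespace Crest.Agent.R20

open Crest.NumberTheoryR.TotientScale Finset Filter Topology MeasureTheory
open scoped ENNReal ArithmeticFunction.Omega

namespace BadAux

open LAux

/-- totients of the numbers whose largest prime is repeated. -/
def Rep : Set ℕ := ⋃ q : ℕ, Set.image2 (· * ·) (F2 ({q} ∩ {q | q.Prime})) (Sm (ys q))

theorem H_Rep (hM : MertensStmt) : ∃ K : ℝ, 0 ≤ K ∧ H Rep ≤ ENNReal.ofReal K := by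
  obtain ⟨C, hC0, hC⟩ := hM
  have hs : Summable fun q : ℕ => 8 * Real.exp C * (q : ℝ) ^ (-(3 / 2) : ℝ) :=
    (Real.summable_nat_rpow.2 (by norm_num)).mul_left _
  refine ⟨∑' q : ℕ, 8 * Real.exp C * (q : ℝ) ^ (-(3 / 2) : ℝ), tsum_nonneg fun q => by positivity, ?_⟩
  rw [ENNReal.ofReal_tsum_of_nonneg (fun q => by positivity) hs]
  refine (Mass_iUnion_le _).trans (ENNReal.tsum_le_tsum fun q => ?_)
  by_cases hq : q.Prime
  swap
  · have : F2 ({q} ∩ {q | q.Prime}) = ∅ := by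
      ext v
      simp only [F2, Set.mem_ofPred_eq, Set.mem_empty_iff_false, iff_false]
      rintro ⟨q', ⟨rfl, h⟩, -⟩
      exact hq h
    rw [this]
    simp
  have hq2 : (2 : ℝ) ≤ q := by exact_mod_cast hq.two_le
  have h1 : Mass (fun q => q * (q - 1)) ({q} ∩ {q | q.Prime}) ≤
      ENNReal.ofReal (1 / ((q : ℝ) * (q - 1))) := by
    refine (Mass_mono (S' := (({q} : Finset ℕ) : Set ℕ)) (by simp)).trans ?_
    rw [Mass_coe _ (by
      intro a ha
      rw [mem_singleton] at ha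
      subst ha
      exact Nat.mul_pos hq.pos (by have := hq.two_le; omega))]
    simp [Nat.cast_sub hq.one_le]
  refine (H_mul_le _ _).trans ((mul_le_mul' ((H_F2_le _).trans (mul_le_mul_right h1 _))
    (H_Sm_le _)).trans ?_)
  have hq1 : (0 : ℝ) < q - 1 := by linarith
  rw [← ENNReal.ofReal_ofNat 2, ← ENNReal.ofReal_mul (by norm_num),
    ← ENNReal.ofReal_mul (by positivity)]
  refine ENNReal.ofReal_le_ofReal ?_
  have hlq : 0 < Real.log q := Real.log_pos (by linarith)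
  have h2 : Real.exp (ys q) ≤ Real.exp C * Real.log q := by
    have := (abs_le.1 (hC q hq.two_le)).2
    calc Real.exp (ys q) ≤ Real.exp (C + Real.log (Real.log q)) := Real.exp_le_exp.2 (by linarith)
      _ = _ := by rw [Real.exp_add, Real.exp_log hlq]
  have h3 : Real.log q ≤ 2 * (q : ℝ) ^ (1 / 2 : ℝ) := by
    have := Real.log_le_rpow_div (x := (q : ℝ)) (ε := 1 / 2) (by linarith) (by norm_num)
    linarith
  have h4 : 1 / ((q : ℝ) * (q - 1)) ≤ 2 * (q : ℝ) ^ (-2 : ℝ) := by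
    rw [Real.rpow_neg (by linarith), Real.rpow_two, ← div_eq_mul_inv,
      div_le_div_iff₀ (by positivity) (by positivity)]
    nlinarith
  have h5 : (q : ℝ) ^ (-(3 / 2) : ℝ) = (q : ℝ) ^ (-2 : ℝ) * (q : ℝ) ^ (1 / 2 : ℝ) := by
    rw [← Real.rpow_add (by linarith)]
    norm_num
  rw [h5]
  calc 2 * (1 / ((q : ℝ) * (q - 1))) * Real.exp (ys q)
      ≤ 2 * (2 * (q : ℝ) ^ (-2 : ℝ)) * (Real.exp C * (2 * (q : ℝ) ^ (1 / 2 : ℝ))) := by
        refine mul_le_mul (by linarith) (h2.trans ?_) (by positivity) (by positivity)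
        exact mul_le_mul_of_nonneg_left h3 (by positivity)
    _ = _ := by ring

theorem part1 (hM : MertensStmt) (hVi : ViStmt) (hL : LStmt) :
    ∃ C : ℝ, 1 ≤ C ∧ ∀ᶠ h : ℝ in atTop, ∀ j : ℕ, ((j : ℝ) + 1) ^ 2 ≤ h →
    H {v | ∃ n : ℕ, 0 < n ∧ (ys (P n) : ℝ) ≤ h ^ 21 ∧ ¬ Good h j n ∧ n.totient = v} ≤
      ENNReal.ofReal C := by
  obtain ⟨K, hK0, hK⟩ := H_Rep hM
  refine ⟨1 + (1 + (1 + (1 + K))), by linarith, ?_⟩
  filter_upwards [hL.2, hVi, eventually_ge_atTop 0] with h hS hV h0 j hj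
  set T := ⌊h ^ 21⌋₊ with hT
  have hsub : {v | ∃ n : ℕ, 0 < n ∧ (ys (P n) : ℝ) ≤ h ^ 21 ∧ ¬ Good h j n ∧ n.totient = v} ⊆
      Sp h ∪ (Vi h j ∪ ({n | n ∈ Sm T ∧ 10 * h ^ 21 ≤ Ω n} ∪ ({1} ∪ Rep))) := by
    rintro v ⟨n, hn, hle, hg, rfl⟩
    by_cases hu : Unsp h n
    swap
    · exact Or.inl ⟨n, hn, hle, hu, rfl⟩
    right
    by_cases hc : h ^ 19 < ∑ s ∈ range (j + 1), aCoef s * ys (pr n s)
    · exact Or.inl ⟨n, 1, hn, hle, hu, hc, Or.inl rfl, mul_one _⟩
    right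
    by_cases ho : 10 * h ^ 21 ≤ Ω n.totient
    · exact Or.inl ⟨Vs_subset T ⟨n, ⟨hn, Nat.le_floor hle⟩, rfl⟩, ho⟩
    right
    rcases Nat.lt_or_ge n 2 with h2 | h2
    · have : n = 1 := by omega
      subst this
      exact Or.inl (by simp)
    right
    have hq := P_prime h2
    have hlt : ¬ P (D n) < P n := fun hlt =>
      hg ⟨hlt, hle, (hu _ hq (P_dvd n)).1, (not_le.1 ho).le, not_lt.1 hc⟩
    have hsq : P n ^ 2 ∣ n := sq_dvd_of_pr_eq (s := 0) hn hlt
    have hm : (n / P n / P n).totient ∈ Sm (ys (P n)) :=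
      Vs_subset _ ⟨_, div_div_mem_Sm ⟨hn, le_rfl⟩ hsq, rfl⟩
    refine Set.mem_iUnion.2 ⟨P n, ?_⟩
    rcases totient_sq hq hsq with e | e
    · exact ⟨_, ⟨P n, ⟨rfl, hq⟩, Or.inl rfl⟩, _, hm, e.symm⟩
    · exact ⟨_, ⟨P n, ⟨rfl, hq⟩, Or.inr rfl⟩, _, hm, e.symm⟩
  refine (Mass_mono hsub).trans ((Mass_union_le _ _).trans ?_)
  rw [ENNReal.ofReal_add (by positivity) (by positivity),
    ENNReal.ofReal_add (by positivity) (by positivity),
    ENNReal.ofReal_add (by positivity) (by positivity),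
    ENNReal.ofReal_add (by positivity) (by positivity)]
  refine add_le_add (hS.trans (ENNReal.ofReal_le_ofReal ?_)) ((Mass_union_le _ _).trans
    (add_le_add ((hV j hj).trans (ENNReal.ofReal_le_ofReal ?_)) ((Mass_union_le _ _).trans
      (add_le_add ((H_Omega_le T _).trans (ENNReal.ofReal_le_ofReal ?_))
        ((Mass_union_le _ _).trans (add_le_add (H_one.trans ENNReal.ofReal_one.ge) hK))))))
  · exact Real.exp_le_one_iff.2 (by nlinarith)
  · exact Real.exp_le_one_iff.2 (by nlinarith)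
  · refine Real.exp_le_one_iff.2 ?_
    have h1 : (0 : ℝ) ≤ h ^ 21 := by positivity
    have h2 : (T : ℝ) ≤ h ^ 21 := Nat.floor_le h1
    linarith

theorem part2 (hL : LStmt) (c : ℝ) (hc : 0 < c) : ∀ᶠ h : ℝ in atTop, ∀ J : ℕ, (J : ℝ) ^ 2 ≤ h →
    ∑' t : ℕ, (if h ^ 21 < t then
      ENNReal.ofReal (Real.exp (-(c * t / h ^ 20)) * (t : ℝ) ^ J) * H (Vs t) else 0) ≤ 1 := by
  obtain ⟨C, hC1, hC⟩ := hL.1
  have hs : Summable fun t : ℕ => 1 / (t : ℝ) ^ 2 := Real.summable_one_div_nat_pow.2 (by norm_num)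
  set S := ∑' t : ℕ, 1 / (t : ℝ) ^ 2 with hS
  have hS0 : 0 ≤ S := tsum_nonneg fun t => by positivity
  obtain ⟨t₀, ht₀⟩ := eventually_atTop.1
    ((ev_log (α := 1 / 42) (δ := c / 2) (by norm_num) (by linarith) 1 1).and
      (ev_log (α := 1 / 42) (δ := c / 2) (by norm_num) (by linarith) (Real.log (C * (S + 1))) 2))
  filter_upwards [eventually_ge_atTop 1, eventually_ge_atTop t₀] with h h1 h0 J hJ
  have key : ∀ t : ℕ, (if h ^ 21 < t then
      ENNReal.ofReal (Real.exp (-(c * t / h ^ 20)) * (t : ℝ) ^ J) * H (Vs t) else 0) ≤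
      ENNReal.ofReal (1 / (S + 1) * (1 / (t : ℝ) ^ 2)) := by
    intro t
    split_ifs with ht
    swap
    · exact zero_le
    refine (mul_le_mul_right (hC t) _).trans ?_
    rw [← ENNReal.ofReal_mul (by positivity)]
    refine ENNReal.ofReal_le_ofReal ?_
    have hh : h ≤ h ^ 21 := le_self_pow₀ h1 (by norm_num)
    have ht1 : (1 : ℝ) ≤ t := by linarith
    obtain ⟨e1, e2⟩ := ht₀ t (by linarith)
    set u := (t : ℝ) ^ (1 / 42 : ℝ) with hu
    have hu1 : 1 ≤ u := Real.one_le_rpow ht1 (by norm_num)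
    have hut : u ^ 42 = t := by
      rw [hu, one_div]
      exact_mod_cast Real.rpow_inv_natCast_pow (n := 42) (x := (t : ℝ)) (by positivity) (by norm_num)
    have hhu : h ≤ u ^ 2 := by
      refine le_of_lt (lt_of_pow_lt_pow_left₀ 21 (by positivity) ?_)
      rw [← pow_mul]
      norm_num
      rwa [hut]
    have hJu : (J : ℝ) ≤ u := by
      exact le_of_sq_le_sq (hJ.trans hhu) (by linarith)
    have h20 : u ^ 2 ≤ t / h ^ 20 := by
      rw [le_div_iff₀ (by positivity), ← hut]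
      calc u ^ 2 * h ^ 20 ≤ u ^ 2 * (u ^ 2) ^ 20 := by gcongr
        _ = u ^ 42 := by ring
    have hlog : 0 ≤ Real.log t := Real.log_nonneg ht1
    have hpow : (t : ℝ) ^ J = Real.exp (J * Real.log t) := by
      rw [Real.exp_nat_mul, Real.exp_log (by linarith)]
    have hR : 1 / (S + 1) * (1 / (t : ℝ) ^ 2) =
        C * Real.exp (-(Real.log (C * (S + 1)) + 2 * Real.log t)) := by
      rw [Real.exp_neg, Real.exp_add, Real.exp_log (by positivity), two_mul, Real.exp_add,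
        Real.exp_log (by linarith)]
      field_simp
    rw [hR, hpow, mul_left_comm, ← Real.exp_add, ← Real.exp_add]
    refine mul_le_mul_of_nonneg_left (Real.exp_le_exp.2 ?_) (by linarith)
    have a1 : c * u ^ 2 ≤ c * t / h ^ 20 := by
      rw [mul_div_assoc]
      exact mul_le_mul_of_nonneg_left h20 hc.le
    have a2 : J * Real.log t ≤ u * Real.log t := mul_le_mul_of_nonneg_right hJu hlog
    have a3 : u * (1 + 1 * Real.log t) ≤ u * (c / 2 * u) :=
      mul_le_mul_of_nonneg_left e1 (by linarith)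
    have a4 : c / 2 * u ≤ c / 2 * u ^ 2 :=
      mul_le_mul_of_nonneg_left (by nlinarith) (by linarith)
    nlinarith
  refine (ENNReal.tsum_le_tsum key).trans ?_
  rw [← ENNReal.ofReal_tsum_of_nonneg (fun t => by positivity) (hs.mul_left _), tsum_mul_left,
    ← hS, ← ENNReal.ofReal_one]
  refine ENNReal.ofReal_le_ofReal ?_
  rw [one_div_mul_eq_div, div_le_one (by linarith)]
  linarith

theorem part3 (hL : LStmt) : ∀ᶠ h : ℝ in atTop, ∀ (J t : ℕ), (J : ℝ) ^ 2 ≤ h → (t : ℝ) ≤ h ^ 21 →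
    ENNReal.ofReal (Real.exp (-(h ^ 2 / 2)) * ((t : ℝ) + 1) ^ J) * H (Vs t) ≤ 1 := by
  obtain ⟨C, hC1, hC⟩ := hL.1
  filter_upwards [eventually_ge_atTop 100, eventually_ge_atTop (Real.log C)] with h h1 h2 J t hJ ht
  refine (mul_le_mul_right (hC t) _).trans ?_
  rw [← ENNReal.ofReal_mul (by positivity), ← ENNReal.ofReal_one]
  refine ENNReal.ofReal_le_ofReal ?_
  have hu : (t : ℝ) ^ (1 / 42 : ℝ) ≤ h := rpow_le (by positivity) (by linarith) ht
  have h3 : (t : ℝ) + 1 ≤ h ^ 22 := by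
    have h4 : (1 : ℝ) ≤ h ^ 21 := one_le_pow₀ (by linarith)
    have h5 : h ^ 22 = h * h ^ 21 := by ring
    nlinarith
  have hs0 : 0 < √h := Real.sqrt_pos.2 (by linarith)
  have hss : √h * √h = h := Real.mul_self_sqrt (by linarith)
  have hJs : (J : ℝ) ≤ √h := Real.le_sqrt_of_sq_le hJ
  have hlog : Real.log h ≤ 2 * √h := by
    have a1 := Real.log_sqrt (x := h) (by linarith)
    have a2 := Real.log_le_sub_one_of_pos hs0
    linarith
  have hl0 : 0 ≤ Real.log h := Real.log_nonneg (by linarith)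
  have h6 : ((t : ℝ) + 1) ^ J ≤ Real.exp (44 * h) := by
    calc ((t : ℝ) + 1) ^ J ≤ (h ^ 22) ^ J := by gcongr
      _ = Real.exp ((22 * J : ℕ) * Real.log h) := by
          rw [Real.exp_nat_mul, Real.exp_log (by linarith), pow_mul]
      _ ≤ _ := by
          refine Real.exp_le_exp.2 ?_
          push_cast
          have : J * Real.log h ≤ √h * (2 * √h) := mul_le_mul hJs hlog hl0 hs0.le
          nlinarith
  calc Real.exp (-(h ^ 2 / 2)) * ((t : ℝ) + 1) ^ J * (C * Real.exp ((t : ℝ) ^ (1 / 42 : ℝ)))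
      ≤ Real.exp (-(h ^ 2 / 2)) * Real.exp (44 * h) * (Real.exp (Real.log C) * Real.exp h) := by
        rw [Real.exp_log (by linarith)]
        gcongr
    _ = Real.exp (-(h ^ 2 / 2) + 44 * h + (Real.log C + h)) := by
        rw [Real.exp_add, Real.exp_add, Real.exp_add]
    _ ≤ 1 := Real.exp_le_one_iff.2 (by nlinarith)

end BadAux

open BadAux in
theorem bad (hM : MertensStmt) (hVi : ViStmt) (hL : LStmt) : BadStmt :=
  ⟨part1 hM hVi hL, part2 hL, part3 hL⟩

end Crest.Agent.R20
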