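import Crest.Agent.R20.Basic

/-!
# Row 20: the exceptional totients at level `0` (`Bad0Stmt`)
-/

set_option autoImplicit false

noncomputable section

namespace Crest.Agent.R20

open Crest.NumberTheoryR.TotientScale Finset Filter Topology MeasureTheory
open scoped ENNReal ArithmeticFunction.Omega

namespace Bad0Aux

/-! ## counting lemmas -/

theorem fibre (val : ℕ → ℕ) (S : Finset ℕ) (W : Set ℕ) (R : ℕ → ℕ → Prop) {K m : ℝ}
    (hK : 0 ≤ K) (hm : 0 ≤ m) (hW : Mass val W ≤ ENNReal.ofReal m)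
    (h1 : ∀ v ∈ S, ∃ w ∈ W, R v w)
    (h2 : ∀ w ∈ W, ∀ A : Finset ℕ, (∀ v ∈ A, v ∈ S ∧ R v w) →
      (A.card : ℝ) ≤ K * (1 / (val w : ℝ))) :
    (S.card : ℝ) ≤ K * m := by
  classical
  choose! f hf using h1
  have hc : S.card = ∑ w ∈ S.image f, (S.filter fun v => f v = w).card :=
    Finset.card_eq_sum_card_fiberwise fun v hv => Finset.mem_image_of_mem f hv
  have hmem : ∀ w ∈ S.image f, w ∈ W := by
    intro w hw
    obtain ⟨v, hv, rfl⟩ := Finset.mem_image.1 hw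
    exact (hf v hv).1
  have hs := sum_le_of_Mass_le hm hW (S.image f) hmem
  rw [hc]
  push_cast
  calc ∑ w ∈ S.image f, ((S.filter fun v => f v = w).card : ℝ)
      ≤ ∑ w ∈ S.image f, K * (1 / (val w : ℝ)) := by
        refine Finset.sum_le_sum fun w hw => h2 w (hmem w hw) _ fun v hv => ?_
        obtain ⟨hv1, hv2⟩ := Finset.mem_filter.1 hv
        exact ⟨hv1, hv2 ▸ (hf v hv1).2⟩
    _ = K * ∑ w ∈ S.image f, (1 / (val w : ℝ)) := by rw [Finset.mul_sum]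
    _ ≤ K * m := mul_le_mul_of_nonneg_left hs hK

theorem exists_pre (A : Finset ℕ) (g : ℕ → ℕ) (Q : ℕ → Prop) (h : ∀ v ∈ A, ∃ q, Q q ∧ g q = v) :
    ∃ A' : Finset ℕ, A'.card = A.card ∧ ∀ q ∈ A', Q q ∧ g q ∈ A := by
  classical
  choose! f hf using h
  refine ⟨A.image f, Finset.card_image_of_injOn fun a ha b hb hab => ?_, fun q hq => ?_⟩
  · rw [← (hf a ha).2, ← (hf b hb).2, hab]
  · obtain ⟨v, hv, rfl⟩ := Finset.mem_image.1 hq
    exact ⟨(hf v hv).1, by rw [(hf v hv).2]; exact hv⟩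

theorem card_multiples (A : Finset ℕ) {m : ℕ} (hm : 0 < m) {x : ℝ} (hx : 0 ≤ x)
    (h : ∀ v ∈ A, 0 < v ∧ (v : ℝ) ≤ x ∧ m ∣ v) : (A.card : ℝ) ≤ x / m := by
  obtain ⟨A', hc, hA'⟩ := exists_pre A (fun k => m * k) (fun _ => True) fun v hv => by
    obtain ⟨k, hk⟩ := (h v hv).2.2
    exact ⟨k, trivial, hk.symm⟩
  have hm' : (0 : ℝ) < m := by exact_mod_cast hm
  have hsub : A' ⊆ Finset.Icc 1 ⌊x / m⌋₊ := by
    intro k hk
    obtain ⟨h1, h2, -⟩ := h _ (hA' k hk).2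
    refine Finset.mem_Icc.2 ⟨Nat.pos_of_mul_pos_left h1, Nat.le_floor ?_⟩
    rw [le_div_iff₀ hm']
    push_cast at h2
    linarith
  have h1 := Finset.card_le_card hsub
  rw [Nat.card_Icc, hc] at h1
  have h2 : (A.card : ℝ) ≤ ⌊x / m⌋₊ := by exact_mod_cast (by omega : A.card ≤ ⌊x / m⌋₊)
  exact h2.trans (Nat.floor_le (by positivity))

theorem card_or {p q : ℕ → Prop} {a b : ℝ}
    (ha : ∀ A : Finset ℕ, (∀ v ∈ A, p v) → (A.card : ℝ) ≤ a)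
    (hb : ∀ A : Finset ℕ, (∀ v ∈ A, q v) → (A.card : ℝ) ≤ b) :
    ∀ A : Finset ℕ, (∀ v ∈ A, p v ∨ q v) → (A.card : ℝ) ≤ a + b := by
  classical
  intro A hA
  have h1 := ha (A.filter p) fun v hv => (Finset.mem_filter.1 hv).2
  have h2 := hb (A.filter fun v => ¬ p v) fun v hv =>
    (hA v (Finset.mem_filter.1 hv).1).resolve_left (Finset.mem_filter.1 hv).2
  have h3 := Finset.card_filter_add_card_filter_not (s := A) p
  have h4 : (A.card : ℝ) = (A.filter p).card + (A.filter fun v => ¬ p v).card := by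
    exact_mod_cast h3.symm
  linarith

/-! ## sizes -/

section sizes
variable {CM : ℝ} (hM : ∀ n : ℕ, 2 ≤ n → |(ys n : ℝ) - Real.log (Real.log n)| ≤ CM)
include hM

theorem ys_upper (hC : 0 ≤ CM) {x : ℝ} (hx : 3 ≤ x) (hB : 0 ≤ bigB x) {n : ℕ}
    (hn : (n : ℝ) ≤ x + 1) : (ys n : ℝ) ≤ bigB x + 1 + CM := by
  by_cases h2 : 2 ≤ n
  · have h1 := (abs_le.1 (hM n h2)).2
    have hn2 : (2 : ℝ) ≤ n := by exact_mod_cast h2
    have hl : 0 < Real.log n := Real.log_pos (by linarith)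
    have hlx : 0 < Real.log x := Real.log_pos (by linarith)
    have h3 : Real.log n ≤ 2 * Real.log x := by
      calc Real.log n ≤ Real.log (x ^ 2) := Real.log_le_log (by linarith) (by nlinarith)
        _ = 2 * Real.log x := by rw [Real.log_pow]; norm_num
    have h4 : Real.log (Real.log n) ≤ Real.log 2 + bigB x := by
      rw [bigB, ← Real.log_mul (by norm_num) hlx.ne']
      exact Real.log_le_log hl h3
    have h5 : Real.log 2 ≤ 1 := by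
      have := Real.log_le_sub_one_of_pos (show (0 : ℝ) < 2 by norm_num)
      linarith
    linarith
  · have : ys n = 0 := by
      interval_cases n <;> simp
    rw [this]
    push_cast
    linarith

theorem ys_lower {x : ℝ} (hx : 3 ≤ x) : bigB x - 1 - CM ≤ ys ⌊x⌋₊ := by
  have h3 : 3 ≤ ⌊x⌋₊ := Nat.le_floor (by exact_mod_cast hx)
  have h1 := (abs_le.1 (hM ⌊x⌋₊ (by omega))).1
  have hn2 : (3 : ℝ) ≤ ⌊x⌋₊ := by exact_mod_cast h3
  have hlt := Nat.lt_floor_add_one x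
  have hl : 0 < Real.log ⌊x⌋₊ := Real.log_pos (by linarith)
  have hlx : 0 < Real.log x := Real.log_pos (by linarith)
  have h3 : Real.log x ≤ 2 * Real.log ⌊x⌋₊ := by
    calc Real.log x ≤ Real.log ((⌊x⌋₊ : ℝ) ^ 2) := Real.log_le_log (by linarith) (by nlinarith)
      _ = 2 * Real.log ⌊x⌋₊ := by rw [Real.log_pow]; norm_num
  have h4 : bigB x ≤ Real.log 2 + Real.log (Real.log ⌊x⌋₊) := by
    rw [bigB, ← Real.log_mul (by norm_num) hl.ne']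
    exact Real.log_le_log hlx h3
  have h5 : Real.log 2 ≤ 1 := by
    have := Real.log_le_sub_one_of_pos (show (0 : ℝ) < 2 by norm_num)
    linarith
  linarith

theorem exp_exp_le {q c : ℕ} (hq : 2 ≤ q) (hc : c ≤ ys q) :
    Real.exp (Real.exp (c - CM)) ≤ q := by
  have h1 := (abs_le.1 (hM q hq)).2
  have hn2 : (2 : ℝ) ≤ q := by exact_mod_cast hq
  have hl : 0 < Real.log q := Real.log_pos (by linarith)
  have hc' : (c : ℝ) ≤ ys q := by exact_mod_cast hc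
  have h2 : Real.exp (c - CM) ≤ Real.log q := by
    rw [← Real.exp_log hl]
    exact Real.exp_le_exp.2 (by linarith)
  calc Real.exp (Real.exp (c - CM)) ≤ Real.exp (Real.log q) := Real.exp_le_exp.2 h2
    _ = q := Real.exp_log (by linarith)

end sizes

theorem exp_neg_bigB {x : ℝ} (hx : 3 ≤ x) : Real.exp (-bigB x) = 1 / Real.log x := by
  rw [Real.exp_neg, bigB, Real.exp_log (Real.log_pos (by linarith)), one_div]

/-! ## the six exceptional sets -/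

theorem part1 {c₀ x : ℝ} {d : ℕ}
    (hS : ∀ (X d : ℕ) (S : Finset ℕ), (∀ n ∈ S, 0 < n ∧ n ≤ X ∧ ys (P n) + d ≤ ys X) →
      (S.card : ℝ) ≤ Real.sqrt X + X * Real.exp (3 * ys X - c₀ * Real.exp d))
    (hx : 3 ≤ x) (hnum : 3 * (ys ⌊x⌋₊ : ℝ) - c₀ * Real.exp d ≤ -bigB x)
    (S : Finset ℕ) (h : ∀ v ∈ S, 0 < v ∧ (v : ℝ) ≤ x ∧ ys (P v) + d ≤ ys ⌊x⌋₊) :
    (S.card : ℝ) ≤ 3 * (x * Real.exp (-bigB x)) := by
  have h1 := hS ⌊x⌋₊ d S fun v hv => ⟨(h v hv).1, Nat.le_floor (h v hv).2.1, (h v hv).2.2⟩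
  have hX : (⌊x⌋₊ : ℝ) ≤ x := Nat.floor_le (by linarith)
  have h2 : (⌊x⌋₊ : ℝ) * Real.exp (3 * ys ⌊x⌋₊ - c₀ * Real.exp d) ≤ x * Real.exp (-bigB x) :=
    mul_le_mul hX (Real.exp_le_exp.2 hnum) (Real.exp_pos _).le (by linarith)
  have h3 : Real.sqrt ⌊x⌋₊ ≤ 2 * (x * Real.exp (-bigB x)) := by
    have hlx : 0 < Real.log x := Real.log_pos (by linarith)
    have hs : 0 < Real.sqrt x := Real.sqrt_pos.2 (by linarith)
    have h4 : Real.log x ≤ 2 * Real.sqrt x := by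
      have h5 := Real.log_le_sub_one_of_pos hs
      rw [Real.log_sqrt (by linarith)] at h5
      linarith
    have h6 : Real.sqrt x * Real.sqrt x = x := Real.mul_self_sqrt (by linarith)
    refine (Real.sqrt_le_sqrt hX).trans ?_
    rw [exp_neg_bigB hx, mul_one_div, ← mul_div_assoc, le_div_iff₀ hlx]
    nlinarith
  linarith

theorem part2 {CM x E : ℝ} {c T : ℕ}
    (hM : ∀ n : ℕ, 2 ≤ n → |(ys n : ℝ) - Real.log (Real.log n)| ≤ CM) (hx : 0 ≤ x)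
    (hnum : Real.exp (-Real.exp (c - CM)) * T ≤ E) (S : Finset ℕ)
    (h : ∀ v ∈ S, 0 < v ∧ (v : ℝ) ≤ x ∧
      ∃ q : ℕ, q.Prime ∧ ys q ≤ T ∧ c ≤ ys q ∧ q * (q - 1) ∣ v) :
    (S.card : ℝ) ≤ x * E := by
  have hW : Mass (fun q => q - 1) {q : ℕ | q.Prime ∧ ys q ≤ T} ≤ ENNReal.ofReal (T : ℝ) := by
    rw [ENNReal.ofReal_natCast]
    exact Mass_primes T
  have h1 := fibre (fun q => q - 1) S {q : ℕ | q.Prime ∧ ys q ≤ T}
    (fun v q => c ≤ ys q ∧ q * (q - 1) ∣ v) (K := x * Real.exp (-Real.exp (c - CM)))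
    (by positivity) (Nat.cast_nonneg T) hW
    (fun v hv => by
      obtain ⟨q, h1, h2, h3, h4⟩ := (h v hv).2.2
      exact ⟨q, ⟨h1, h2⟩, h3, h4⟩)
    (fun q hq A hA => by
      rcases A.eq_empty_or_nonempty with rfl | ⟨v, hv⟩
      · simp only [Finset.card_empty, Nat.cast_zero]
        positivity
      have h2 := hq.1.two_le
      have h3 := exp_exp_le hM h2 (hA v hv).2.1
      have hq1 : 0 < q - 1 := by omega
      have h4 := card_multiples A (m := q * (q - 1)) (Nat.mul_pos (by omega) hq1) hx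
        fun v hv => ⟨(h v (hA v hv).1).1, (h v (hA v hv).1).2.1, (hA v hv).2.2⟩
      refine h4.trans ?_
      have hq1' : (0 : ℝ) < ((q - 1 : ℕ) : ℝ) := by exact_mod_cast hq1
      have hq' : (0 : ℝ) < q := by exact_mod_cast (by omega : 0 < q)
      rw [Nat.cast_mul, Real.exp_neg, ← div_div, mul_one_div, ← div_eq_mul_inv]
      exact div_le_div_of_nonneg_right
        (div_le_div_of_nonneg_left hx (Real.exp_pos _) h3) hq1'.le)
  calc (S.card : ℝ) ≤ x * Real.exp (-Real.exp (c - CM)) * T := h1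
    _ = x * (Real.exp (-Real.exp (c - CM)) * T) := by ring
    _ ≤ x * E := mul_le_mul_of_nonneg_left hnum hx

theorem part3 {h x m : ℝ} {c : ℕ} {W : Set ℕ}
    (hNN : ∀ (X : ℕ) (S : Finset ℕ), (ys X : ℝ) ≤ 2 * h ^ 21 →
      (∀ q ∈ S, q.Prime ∧ q ≤ X ∧ ¬ Normal (h ^ 12) q) →
      (S.card : ℝ) ≤ X * Real.exp (-(ys X : ℝ) - h ^ 2))
    (hW : H W ≤ ENNReal.ofReal m) (hm : 0 ≤ m) (hpos : ∀ w ∈ W, 0 < w) (hx : 0 ≤ x)
    (hup : ∀ n : ℕ, (n : ℝ) ≤ x + 1 → (ys n : ℝ) ≤ 2 * h ^ 21) (S : Finset ℕ)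
    (hS : ∀ v ∈ S, (v : ℝ) ≤ x ∧ ∃ w ∈ W, ∃ q : ℕ,
      (q.Prime ∧ c ≤ ys q ∧ ¬ Normal (h ^ 12) q) ∧ (q - 1) * w = v) :
    (S.card : ℝ) ≤ 2 * x * Real.exp (-(c : ℝ) - h ^ 2) * m := by
  refine fibre id S W (fun v w => ∃ q : ℕ,
      (q.Prime ∧ c ≤ ys q ∧ ¬ Normal (h ^ 12) q) ∧ (q - 1) * w = v) (by positivity) hm hW
    (fun v hv => (hS v hv).2) fun w hw A hA => ?_
  obtain ⟨A', hc, hA'⟩ := exists_pre A (fun q => (q - 1) * w) _ fun v hv => (hA v hv).2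
  rw [← hc]
  rcases A'.eq_empty_or_nonempty with rfl | ⟨q₀, hq₀⟩
  · simp only [Finset.card_empty, Nat.cast_zero]
    positivity
  have hw0 : (1 : ℝ) ≤ w := by exact_mod_cast hpos w hw
  have hle : ∀ q ∈ A', ((q - 1 : ℕ) : ℝ) ≤ x / w := by
    intro q hq
    have h1 := (hS _ (hA _ (hA' q hq).2).1).1
    rw [le_div_iff₀ (by linarith)]
    exact_mod_cast h1
  have hle' : ∀ q ∈ A', q ≤ ⌊x / w⌋₊ + 1 := by
    intro q hq
    have := Nat.le_floor (hle q hq)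
    omega
  have hfl : (⌊x / w⌋₊ : ℝ) ≤ x / w := Nat.floor_le (by positivity)
  have hxw : x / w ≤ x := div_le_self hx hw0
  have h1 := hNN (⌊x / w⌋₊ + 1) A' (hup _ (by push_cast; linarith))
    fun q hq => ⟨(hA' q hq).1.1, hle' q hq, (hA' q hq).1.2.2⟩
  have h2 : c ≤ ys (⌊x / w⌋₊ + 1) := (hA' q₀ hq₀).1.2.1.trans (ys_mono (hle' q₀ hq₀))
  have h2' : (c : ℝ) ≤ ys (⌊x / w⌋₊ + 1) := by exact_mod_cast h2
  have h3 : 1 ≤ x / w := by
    have h4 := (hA' q₀ hq₀).1.1.two_le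
    have h5 : (1 : ℝ) ≤ ((q₀ - 1 : ℕ) : ℝ) := by exact_mod_cast (by omega : 1 ≤ q₀ - 1)
    exact h5.trans (hle q₀ hq₀)
  refine h1.trans ?_
  calc ((⌊x / w⌋₊ + 1 : ℕ) : ℝ) * Real.exp (-(ys (⌊x / w⌋₊ + 1) : ℝ) - h ^ 2)
      ≤ (2 * (x / w)) * Real.exp (-(c : ℝ) - h ^ 2) :=
        mul_le_mul (by push_cast; linarith) (Real.exp_le_exp.2 (by linarith))
          (Real.exp_pos _).le (by positivity)
    _ = 2 * x * Real.exp (-(c : ℝ) - h ^ 2) * (1 / ((id w : ℕ) : ℝ)) := by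
        simp only [id]
        ring

theorem part4 {CS x m : ℝ} {c : ℕ} {W : Set ℕ} (g : ℕ → ℕ) (hg : ∀ q : ℕ, q.Prime → q ≤ 2 * g q)
    (hCS : 0 ≤ CS)
    (hC : ∀ (c : ℕ) (S : Finset ℕ) (X : ℝ), 0 ≤ X →
      (∀ l ∈ S, l.Prime ∧ c ≤ ys l ∧ (l : ℝ) ≤ X) → (S.card : ℝ) ≤ CS * X * Real.exp (-(c : ℝ)))
    (hW : H W ≤ ENNReal.ofReal m) (hm : 0 ≤ m) (hpos : ∀ w ∈ W, 0 < w) (hx : 0 ≤ x)
    (S : Finset ℕ)
    (hS : ∀ v ∈ S, (v : ℝ) ≤ x ∧ ∃ w ∈ W, ∃ q : ℕ, (q.Prime ∧ c ≤ ys q) ∧ g q * w = v) :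
    (S.card : ℝ) ≤ 2 * CS * x * Real.exp (-(c : ℝ)) * m := by
  refine fibre id S W (fun v w => ∃ q : ℕ, (q.Prime ∧ c ≤ ys q) ∧ g q * w = v)
    (by positivity) hm hW (fun v hv => (hS v hv).2) fun w hw A hA => ?_
  obtain ⟨A', hc, hA'⟩ := exists_pre A (fun q => g q * w) _ fun v hv => (hA v hv).2
  rw [← hc]
  have hw0 : (0 : ℝ) < w := by exact_mod_cast hpos w hw
  have h1 := hC c A' (2 * (x / w)) (by positivity) fun q hq => by
    refine ⟨(hA' q hq).1.1, (hA' q hq).1.2, ?_⟩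
    have h1 := (hS _ (hA _ (hA' q hq).2).1).1
    have h2 : (g q : ℝ) ≤ x / w := by
      rw [le_div_iff₀ hw0]
      exact_mod_cast h1
    have h3 : (q : ℝ) ≤ 2 * g q := by exact_mod_cast hg q (hA' q hq).1.1
    linarith
  refine h1.trans (le_of_eq ?_)
  simp only [id]
  ring

theorem part6 {x m : ℝ} {U : Set ℕ} (hU : H U ≤ ENNReal.ofReal m) (hm : 0 ≤ m)
    (hpos : ∀ u ∈ U, 0 < u) (hx : 0 ≤ x) (S : Finset ℕ)
    (hS : ∀ v ∈ S, 0 < v ∧ (v : ℝ) ≤ x ∧ ∃ u ∈ U, u ∣ v) : (S.card : ℝ) ≤ x * m := by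
  refine fibre id S U (fun v u => u ∣ v) hx hm hU (fun v hv => (hS v hv).2.2) fun u hu A hA => ?_
  have h1 := card_multiples A (hpos u hu) hx
    fun v hv => ⟨(hS v (hA v hv).1).1, (hS v (hA v hv).1).2.1, (hA v hv).2⟩
  simpa [div_eq_mul_inv] using h1

/-! ## the covering -/

theorem unsp_of {h : ℝ} {n : ℕ} (hn : 0 < n) (hp : (P n).Prime) (hlt : P (D n) < P n)
    (h0 : Normal (h ^ 12) (P n)) (h1 : Unsp h (D n)) : Unsp h n := by
  intro q hq hqn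
  by_cases he : q = P n
  · refine ⟨he ▸ h0, fun h2 => ?_⟩
    exfalso
    have h3 : P n * P n ∣ P n * D n := by
      rw [P_mul_D, ← pow_two, ← he]
      exact h2
    have h4 := le_P hp (D_pos hn) (Nat.dvd_of_mul_dvd_mul_left hp.pos h3)
    omega
  · have hc : Nat.Coprime q (P n) := (Nat.coprime_primes hq hp).2 he
    have h2 : q ∣ D n := hc.dvd_of_dvd_mul_left (by rw [P_mul_D]; exact hqn)
    refine ⟨(h1 q hq h2).1, fun h3 => (h1 q hq h2).2 ?_⟩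
    exact (Nat.Coprime.pow_left 2 hc).dvd_of_dvd_mul_left (by rw [P_mul_D]; exact h3)

theorem ys_two_le {j n : ℕ} {τ : ℝ} (hn : 0 < n) (hj : 2 ≤ j)
    (h : ∑ s ∈ range (j + 1), aCoef s * ys (pr n s) ≤ τ) :
    1.295 * (ys (pr n 2) : ℝ) ≤ ys (P n) + τ := by
  have h1 : ∑ s ∈ range 3, aCoef s * ys (pr n s) ≤ ∑ s ∈ range (j + 1), aCoef s * ys (pr n s) := by
    refine Finset.sum_le_sum_of_subset_of_nonneg (Finset.range_mono (by omega)) fun s _ hs => ?_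
    have : 1 ≤ s := by
      rw [Finset.mem_range] at hs
      omega
    exact mul_nonneg (aCoef_pos this).le (Nat.cast_nonneg _)
  rw [Finset.sum_range_succ, Finset.sum_range_succ, Finset.sum_range_one, aCoef_zero,
    pr_zero] at h1
  have h2 : (ys (pr n 2) : ℝ) ≤ ys (pr n 1) := by
    exact_mod_cast ys_mono (pr_antitone hn (by norm_num : 1 ≤ 2))
  have h3 : (0 : ℝ) ≤ ys (pr n 2) := Nat.cast_nonneg _
  have h4 := aCoef_one.1
  have h5 := aCoef_two.1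
  have h6 : 0.386 * (ys (pr n 2) : ℝ) ≤ aCoef 1 * ys (pr n 1) :=
    mul_le_mul h4 h2 h3 (by linarith)
  have h7 : 0.909 * (ys (pr n 2) : ℝ) ≤ aCoef 2 * ys (pr n 2) :=
    mul_le_mul_of_nonneg_right h5 h3
  linarith

theorem large_cofactor {x : ℝ} {n : ℕ} (hx : 3 ≤ x) (hn : 0 < n) (hlt : P (D n) < P n)
    (hv : (n.totient : ℝ) ≤ x) (hw : x ^ (4 / 5 : ℝ) < ((D n).totient : ℝ)) :
    x ^ (3 / 5 : ℝ) ≤ ((D (D n)).totient : ℝ) := by
  have hx0 : 0 < x := by linarith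
  have h45 : 1 ≤ x ^ (4 / 5 : ℝ) := Real.one_le_rpow (by linarith) (by norm_num)
  have hD : 2 ≤ D n := by
    have h1 := D_pos hn
    by_contra h2
    have h3 : D n = 1 := by omega
    rw [h3] at hw
    simp at hw
    linarith
  have hp := P_prime hD
  have h1 : (D n).totient ≤ P (D n) * (D (D n)).totient := by
    rcases totient_cases hp (P_dvd (D n)) with h | h
    · rw [h]
      exact Nat.mul_le_mul_right _ (Nat.sub_le _ _)
    · exact h.le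
  have h2 : P (D n) * (D n).totient ≤ n.totient := by
    rw [totient_eq hlt]
    exact Nat.mul_le_mul_right _ (by omega)
  have h1' : ((D n).totient : ℝ) ≤ P (D n) * (D (D n)).totient := by exact_mod_cast h1
  have h2' : (P (D n) : ℝ) * (D n).totient ≤ n.totient := by exact_mod_cast h2
  have ha : 0 < x ^ (1 / 5 : ℝ) := Real.rpow_pos_of_pos hx0 _
  have e1 : x ^ (1 / 5 : ℝ) * x ^ (4 / 5 : ℝ) = x := by
    rw [← Real.rpow_add hx0]
    norm_num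
  have e2 : x ^ (1 / 5 : ℝ) * x ^ (3 / 5 : ℝ) = x ^ (4 / 5 : ℝ) := by
    rw [← Real.rpow_add hx0]
    norm_num
  have h3 : (P (D n) : ℝ) ≤ x ^ (1 / 5 : ℝ) := by
    have h4 : (P (D n) : ℝ) * x ^ (4 / 5 : ℝ) ≤ x ^ (1 / 5 : ℝ) * x ^ (4 / 5 : ℝ) := by
      rw [e1]
      exact (mul_le_mul_of_nonneg_left hw.le (Nat.cast_nonneg _)).trans (h2'.trans hv)
    exact le_of_mul_le_mul_right h4 (by linarith)
  have h5 : x ^ (1 / 5 : ℝ) * x ^ (3 / 5 : ℝ) ≤ x ^ (1 / 5 : ℝ) * (D (D n)).totient := by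
    rw [e2]
    exact hw.le.trans (h1'.trans (mul_le_mul_of_nonneg_right h3 (Nat.cast_nonneg _)))
  exact le_of_mul_le_mul_left h5 ha

theorem cover {h x b : ℝ} {j d c T c₆ y : ℕ} (hx : 3 ≤ x) (hj : 2 ≤ j) (hc : c + d = y)
    (hc1 : 1 ≤ c) (hup : ∀ n : ℕ, (n : ℝ) ≤ x + 1 → (ys n : ℝ) ≤ b) (hb : b ≤ h ^ 21)
    (hT : ∀ t : ℕ, (t : ℝ) ≤ h ^ 21 → t ≤ T)
    (h6 : ∀ t : ℕ, 1.295 * (t : ℝ) ≤ b + h ^ 19 → t ≤ c₆) {v : ℕ} (hv : (v : ℝ) ≤ x)
    (hn : ∃ n : ℕ, 0 < n ∧ n.totient = v ∧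
      ¬ (P (D n) < P n ∧ ∑ s ∈ range (j + 1), aCoef s * ys (pr n s) ≤ h ^ 19 ∧
        ((D n).totient : ℝ) ≤ x ^ (4 / 5 : ℝ))) :
    (0 < v ∧ (v : ℝ) ≤ x ∧ ys (P v) + d ≤ y) ∨
    (0 < v ∧ (v : ℝ) ≤ x ∧ ∃ q : ℕ, q.Prime ∧ ys q ≤ T ∧ c ≤ ys q ∧ q * (q - 1) ∣ v) ∨
    ((v : ℝ) ≤ x ∧ ∃ w ∈ Vs T, ∃ q : ℕ,
      (q.Prime ∧ c ≤ ys q ∧ ¬ Normal (h ^ 12) q) ∧ (q - 1) * w = v) ∨
    ((v : ℝ) ≤ x ∧ ∃ w ∈ Sp h, ∃ q : ℕ, (q.Prime ∧ c ≤ ys q) ∧ (q - 1) * w = v) ∨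
    ((v : ℝ) ≤ x ∧ ∃ w ∈ Vi h j, ∃ q : ℕ, (q.Prime ∧ c ≤ ys q) ∧ q * w = v) ∨
    (0 < v ∧ (v : ℝ) ≤ x ∧ ∃ u ∈ {u | u ∈ Sm c₆ ∧ x ^ (3 / 5 : ℝ) ≤ (u : ℝ)}, u ∣ v) := by
  obtain ⟨n, hn, rfl, hbad⟩ := hn
  have hv0 : 0 < n.totient := Nat.totient_pos.2 hn
  by_cases h1 : ys (P n.totient) + d ≤ y
  · exact Or.inl ⟨hv0, hv, h1⟩
  right
  have hcv : c ≤ ys (P n.totient) := by omega
  have hPv : 1 < P n.totient := lt_of_ys_lt (by rw [ys_one]; omega)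
  have hpv := (P_prime_of_one_lt hPv).1
  have hle := P_totient_le hn
  have hp := (P_prime_of_one_lt (by omega : 1 < P n)).1
  have hcq : c ≤ ys (P n) := hcv.trans (ys_mono hle)
  have hq1 : P n - 1 ≤ n.totient := by
    refine Nat.le_of_dvd hv0 ?_
    rw [← Nat.totient_prime hp]
    exact Nat.totient_dvd_of_dvd (P_dvd n)
  have hqb : (ys (P n) : ℝ) ≤ b := by
    refine hup _ ?_
    have : (P n : ℝ) ≤ n.totient + 1 := by exact_mod_cast (by omega : P n ≤ n.totient + 1)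
    linarith
  have hqh : (ys (P n) : ℝ) ≤ h ^ 21 := hqb.trans hb
  have hqT : ys (P n) ≤ T := hT _ hqh
  by_cases h2 : P (D n) < P n
  swap
  · refine Or.inl ⟨hv0, hv, P n, hp, hqT, hcq, ?_⟩
    have h3 : P n ^ 2 ∣ n := sq_dvd_of_pr_eq (s := 0) hn h2
    have h4 := Nat.totient_dvd_of_dvd h3
    rw [Nat.totient_prime_pow hp (by norm_num)] at h4
    simpa using h4
  right
  have hD := D_pos hn
  have hDle : ys (P (D n)) ≤ ys (P n) := ys_mono h2.le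
  have he := (totient_eq h2).symm
  by_cases h3 : Normal (h ^ 12) (P n)
  swap
  · exact Or.inl ⟨hv, _, ⟨D n, ⟨hD, hDle.trans hqT⟩, rfl⟩, P n, ⟨hp, hcq, h3⟩, he⟩
  right
  by_cases h4 : Unsp h (D n)
  swap
  · refine Or.inl ⟨hv, _, ⟨D n, hD, ?_, h4, rfl⟩, P n, ⟨hp, hcq⟩, he⟩
    exact le_trans (by exact_mod_cast hDle) hqh
  right
  have hU := unsp_of hn hp h2 h3 h4
  by_cases h5 : ∑ s ∈ range (j + 1), aCoef s * ys (pr n s) ≤ h ^ 19
  swap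
  · refine Or.inl ⟨hv, D n.totient, ⟨n, P n.totient, hn, hqh, hU, not_le.1 h5, Or.inr hpv, ?_⟩,
      P n.totient, ⟨hpv, hcv⟩, P_mul_D _⟩
    rw [mul_comm, P_mul_D]
  right
  have h7 : x ^ (4 / 5 : ℝ) < ((D n).totient : ℝ) := not_le.1 fun h => hbad ⟨h2, h5, h⟩
  have hDD := D_pos hD
  refine ⟨hv0, hv, (D (D n)).totient, ⟨⟨Nat.totient_pos.2 hDD, ?_⟩,
    large_cofactor hx hn h2 hv h7⟩, Nat.totient_dvd_of_dvd ((D_dvd _).trans (D_dvd _))⟩
  have h8 := ys_two_le hn hj h5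
  have h9 : ys (pr n 2) ≤ c₆ := h6 _ (by linarith)
  exact (ys_mono (P_totient_le hDD)).trans h9

/-! ## numerics -/

theorem numerics {CM c₀ h B : ℝ} (_hC : 0 ≤ CM) (hc₀ : 0 < c₀) (h1 : 100 ≤ h) (h2 : 1 + CM ≤ h / 10)
    (h3 : 600 / c₀ ≤ h) (h4 : 3 / c₀ ≤ Real.exp h / h ^ 21) (hB1 : 100 * h ^ 19 ≤ B)
    (hB2 : 2 * B ≤ h ^ 21) :
    100 * h ≤ B ∧ B + 1 + CM ≤ h ^ 21 ∧
    3 * (B + 1 + CM) - c₀ * Real.exp h ≤ -B ∧
    (∀ c : ℝ, B - 2 - CM - h ≤ c → Real.exp (-Real.exp (c - CM)) * h ^ 21 ≤ Real.exp (-B)) ∧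
    (∀ c : ℝ, B - 2 - CM - h ≤ c → -c - h ^ 2 + h ≤ -B ∧ -c - h ^ 2 / 4 ≤ -B) ∧
    (∀ t : ℝ, 1.295 * t ≤ B + 1 + CM + h ^ 19 → t ≤ 4 / 5 * B) ∧
    (∀ c : ℝ, c ≤ 4 / 5 * B → 3 * c - c₀ * (3 / 5 * Real.exp B) * Real.exp (-c) ≤ -B) := by
  have h0 : 0 < h := by linarith
  have h19 : h ≤ h ^ 19 := le_self_pow₀ (by linarith) (by norm_num)
  have hB : 100 * h ≤ B := by linarith
  have h21 : 0 < h ^ 21 := by positivity
  have hb : B + 1 + CM ≤ h ^ 21 := by linarith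
  refine ⟨hB, hb, ?_, fun c hc => ?_, fun c hc => ⟨by nlinarith, by nlinarith⟩,
    fun t ht => by linarith, fun c hc => ?_⟩
  · rw [div_le_div_iff₀ hc₀ h21] at h4
    linarith
  · have e1 : h ^ 21 ≤ Real.exp B := by
      have e2 : h ≤ Real.exp h := by linarith [Real.add_one_le_exp h]
      calc h ^ 21 ≤ Real.exp h ^ 21 := pow_le_pow_left₀ h0.le e2 21
        _ = Real.exp (21 * h) := by rw [← Real.exp_nat_mul]; norm_num
        _ ≤ Real.exp B := Real.exp_le_exp.2 (by linarith)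
    have e3 : 2 * B ≤ Real.exp (c - CM) := by
      have e4 : B / 4 ≤ Real.exp (B / 4) := by linarith [Real.add_one_le_exp (B / 4)]
      have e5 : B / 4 * (B / 4) ≤ Real.exp (B / 4) * Real.exp (B / 4) :=
        mul_le_mul e4 e4 (by linarith) (Real.exp_pos _).le
      rw [← Real.exp_add] at e5
      have e6 : Real.exp (B / 4 + B / 4) ≤ Real.exp (c - CM) := Real.exp_le_exp.2 (by linarith)
      nlinarith
    calc Real.exp (-Real.exp (c - CM)) * h ^ 21 ≤ Real.exp (-(2 * B)) * Real.exp B :=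
          mul_le_mul (Real.exp_le_exp.2 (by linarith)) e1 h21.le (Real.exp_pos _).le
      _ = Real.exp (-B) := by rw [← Real.exp_add]; congr 1; ring
  · have e1 : Real.exp (B / 10) * Real.exp (B / 10) ≤ Real.exp B * Real.exp (-c) := by
      rw [← Real.exp_add, ← Real.exp_add]
      exact Real.exp_le_exp.2 (by linarith)
    have e4 : B / 10 ≤ Real.exp (B / 10) := by linarith [Real.add_one_le_exp (B / 10)]
    have e5 : B / 10 * (B / 10) ≤ Real.exp (B / 10) * Real.exp (B / 10) :=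
      mul_le_mul e4 e4 (by linarith) (Real.exp_pos _).le
    have e6 : 600 ≤ c₀ * B := by
      rw [div_le_iff₀ hc₀] at h3
      nlinarith
    have e7 : c₀ * (B / 10 * (B / 10)) ≤ c₀ * (Real.exp B * Real.exp (-c)) :=
      mul_le_mul_of_nonneg_left (e5.trans e1) hc₀.le
    have e8 : 600 * B ≤ c₀ * B * B := mul_le_mul_of_nonneg_right e6 (by linarith)
    nlinarith

end Bad0Aux

open Bad0Aux in
theorem bad0 (hM : MertensStmt) (hS : SieveStmt) (hSm : SmoothStmt) (hNN : NNStmt) (hVi : ViStmt)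
    (hL : LStmt) : Bad0Stmt := by
  obtain ⟨CM, hC, hM⟩ := hM
  obtain ⟨CS, hCS, -, hS⟩ := hS
  obtain ⟨c₀, hc₀, hSm1, hSm2⟩ := hSm
  obtain ⟨⟨CL, hCL, hL1⟩, hL2⟩ := hL
  refine ⟨3 + (1 + (2 * CL + (2 * CS + (2 * CS + 1)))), by linarith, ?_⟩
  filter_upwards [hNN, hVi, hL2, eventually_ge_atTop (100 : ℝ),
    eventually_ge_atTop (10 * (1 + CM)), eventually_ge_atTop (600 / c₀),
    (Real.tendsto_exp_div_pow_atTop 21).eventually_ge_atTop (3 / c₀)]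
    with h hNN hVi hL2 h1 h2 h3 h4 j x S hj hjh hx hB1 hB2 hbad
  obtain ⟨n1, n2, n3, n4, n5, n6, n7⟩ := numerics hC hc₀ h1 (by linarith) h3 h4 hB1 hB2
  have h0 : 0 < h := by linarith
  have hx0 : 0 ≤ x := by linarith
  have h21 : 0 < h ^ 21 := by positivity
  have hB0 : 0 ≤ bigB x := by linarith
  have hup : ∀ n : ℕ, (n : ℝ) ≤ x + 1 → (ys n : ℝ) ≤ bigB x + 1 + CM :=
    fun n hn => ys_upper hM hC hx hB0 hn
  have hlow := ys_lower hM hx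
  have hyup := hup ⌊x⌋₊ (by linarith [Nat.floor_le hx0])
  have hd1 : h ≤ (⌈h⌉₊ : ℝ) := Nat.le_ceil h
  have hd2 : (⌈h⌉₊ : ℝ) < h + 1 := Nat.ceil_lt_add_one h0.le
  have hdy : ⌈h⌉₊ + 1 ≤ ys ⌊x⌋₊ := by
    have : ((⌈h⌉₊ + 1 : ℕ) : ℝ) ≤ ys ⌊x⌋₊ := by
      push_cast
      linarith
    exact_mod_cast this
  obtain ⟨c, hc⟩ : ∃ c, c + ⌈h⌉₊ = ys ⌊x⌋₊ := ⟨ys ⌊x⌋₊ - ⌈h⌉₊, by omega⟩
  have hc' : (c : ℝ) + ⌈h⌉₊ = ys ⌊x⌋₊ := by exact_mod_cast hc
  have hcl : bigB x - 2 - CM - h ≤ c := by linarith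
  have hT : (⌊h ^ 21⌋₊ : ℝ) ≤ h ^ 21 := Nat.floor_le h21.le
  have hc6 : (⌊4 / 5 * bigB x⌋₊ : ℝ) ≤ 4 / 5 * bigB x := Nat.floor_le (by linarith)
  set E := x * Real.exp (-bigB x) with hE
  have p1 := part1 (d := ⌈h⌉₊) hSm2 hx (by
    have : c₀ * Real.exp h ≤ c₀ * Real.exp ⌈h⌉₊ :=
      mul_le_mul_of_nonneg_left (Real.exp_le_exp.2 hd1) hc₀.le
    linarith)
  have p2 := part2 (c := c) (T := ⌊h ^ 21⌋₊) (E := Real.exp (-bigB x)) hM hx0
    ((mul_le_mul_of_nonneg_left hT (Real.exp_pos _).le).trans (n4 c hcl))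
  have hL3 : H (Vs ⌊h ^ 21⌋₊) ≤ ENNReal.ofReal (CL * Real.exp h) := by
    refine (hL1 _).trans (ENNReal.ofReal_le_ofReal (mul_le_mul_of_nonneg_left
      (Real.exp_le_exp.2 ?_) (by linarith)))
    calc (⌊h ^ 21⌋₊ : ℝ) ^ (1 / 42 : ℝ) ≤ (h ^ 42) ^ (1 / 42 : ℝ) :=
          Real.rpow_le_rpow (Nat.cast_nonneg _)
            (hT.trans (pow_le_pow_right₀ (by linarith) (by norm_num))) (by norm_num)
      _ = h := by
          rw [one_div]
          exact_mod_cast Real.pow_rpow_inv_natCast h0.le (by norm_num : 42 ≠ 0)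
  have p3 := part3 (c := c) hNN.1 hL3 (by positivity) (fun w hw => (Vs_subset _ hw).1) hx0
    fun n hn => by linarith [hup n hn]
  have p4 := part4 (c := c) (fun q => q - 1) (fun q hq => by have := hq.two_le; omega)
    (by linarith) hS hL2 (Real.exp_pos _).le
    (fun w hw => by
      obtain ⟨n, hn, -, -, rfl⟩ := hw
      exact Nat.totient_pos.2 hn) hx0
  have p5 := part4 (c := c) (fun q => q) (fun q _ => by omega)
    (by linarith) hS (hVi j hjh) (Real.exp_pos _).le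
    (fun w hw => by
      obtain ⟨n, l, hn, -, -, -, -, he⟩ := hw
      exact Nat.pos_of_mul_pos_right (he ▸ Nat.totient_pos.2 hn)) hx0
  have p6 := part6 (hSm1 ⌊4 / 5 * bigB x⌋₊ (x ^ (3 / 5 : ℝ))
    (Real.one_le_rpow (by linarith) (by norm_num))) (Real.exp_pos _).le (fun u hu => hu.1.1) hx0
  have hall := card_or p1 (card_or p2 (card_or p3 (card_or p4 (card_or p5 p6)))) S fun v hv =>
    cover hx hj hc (by omega) hup n2 (fun t ht => Nat.le_floor ht)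
      (fun t ht => Nat.le_floor (n6 t ht)) (hbad v hv).1 (hbad v hv).2
  have b3 : 2 * x * Real.exp (-(c : ℝ) - h ^ 2) * (CL * Real.exp h) ≤ 2 * CL * E := by
    have : Real.exp (-(c : ℝ) - h ^ 2) * Real.exp h ≤ Real.exp (-bigB x) := by
      rw [← Real.exp_add]
      exact Real.exp_le_exp.2 (n5 c hcl).1
    calc _ = 2 * CL * x * (Real.exp (-(c : ℝ) - h ^ 2) * Real.exp h) := by ring
      _ ≤ 2 * CL * x * Real.exp (-bigB x) := mul_le_mul_of_nonneg_left this (by positivity)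
      _ = _ := by rw [hE]; ring
  have b4 : ∀ a : ℝ, h ^ 2 / 4 ≤ a →
      2 * CS * x * Real.exp (-(c : ℝ)) * Real.exp (-a) ≤ 2 * CS * E := by
    intro a ha
    have : Real.exp (-(c : ℝ)) * Real.exp (-a) ≤ Real.exp (-bigB x) := by
      rw [← Real.exp_add]
      exact Real.exp_le_exp.2 (by linarith [(n5 c hcl).2])
    calc _ = 2 * CS * x * (Real.exp (-(c : ℝ)) * Real.exp (-a)) := by ring
      _ ≤ 2 * CS * x * Real.exp (-bigB x) := mul_le_mul_of_nonneg_left this (by positivity)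
      _ = _ := by rw [hE]; ring
  have b5 := b4 (h ^ 2) (by linarith [sq_nonneg h])
  have b4' := b4 (h ^ 2 / 4) le_rfl
  have b6 : x * Real.exp (3 * (⌊4 / 5 * bigB x⌋₊ : ℝ) - c₀ * Real.log (x ^ (3 / 5 : ℝ)) *
      Real.exp (-(⌊4 / 5 * bigB x⌋₊ : ℝ))) ≤ E := by
    refine mul_le_mul_of_nonneg_left (Real.exp_le_exp.2 ?_) hx0
    have := n7 _ hc6
    rw [Real.log_rpow (by linarith)]
    rwa [bigB, Real.exp_log (Real.log_pos (by linarith)), ← bigB] at this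
  have hE' : E = x / Real.log x := by rw [hE, exp_neg_bigB hx, mul_one_div]
  rw [mul_div_assoc, ← hE']
  linarith

end Crest.Agent.R20
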