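import Crest.Agent.R20.Basic
import Crest.Agent.R5.Mertens
import Crest.Agent.R16.Sieve

/-!
# Row 20: Brun's pure sieve for one, two or three linear forms
-/

set_option autoImplicit false

noncomputable section

namespace Crest.Agent.R20

open Crest.NumberTheoryR.TotientScale Finset Filter Topology MeasureTheory
open scoped ENNReal ArithmeticFunction.Omega

namespace BrunAux

open Crest.Agent.R16 (avg Rep ind)

/-- indicator of the removed residue classes modulo `p`. -/
def xi (R : ℕ → Finset ℕ) (p y : ℕ) : ℝ := if y % p ∈ R p then 1 else 0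

/-- number of sieving primes that remove `y`. -/
def om (R : ℕ → Finset ℕ) (B : Finset ℕ) (y : ℕ) : ℕ := (B.filter fun p => y % p ∈ R p).card

variable {R : ℕ → Finset ℕ}

theorem xi_eq {p : ℕ} (hR : ∀ r ∈ R p, r < p) (y : ℕ) : xi R p y = ∑ r ∈ R p, ind r p y := by
  have h : ∀ r ∈ R p, ind r p y = if y % p = r then 1 else 0 := by
    intro r hr
    simp [ind, Nat.ModEq, Nat.mod_eq_of_lt (hR r hr)]
  rw [sum_congr rfl h, sum_ite_eq]
  rfl

theorem rep_sum {ι : Type*} {M : ℕ} (s : Finset ι) {f : ι → ℕ → ℝ} (h : ∀ i ∈ s, Rep M (f i) 1) :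
    Rep M (fun y => ∑ i ∈ s, f i y) s.card := by
  classical
  induction s using Finset.induction_on with
  | empty => simpa using Rep.zero
  | insert a s ha ih =>
    have h1 := (h a (mem_insert_self _ _)).add (ih fun i hi => h i (mem_insert_of_mem hi))
    refine (h1.congr fun y => ?_).mono ?_
    · rw [sum_insert ha]
    · rw [card_insert_of_notMem ha]; push_cast; linarith

theorem rep_xi {M p : ℕ} (hp : p ∣ M) (hR : ∀ r ∈ R p, r < p) (hc : (R p).card ≤ 3) :
    Rep M (xi R p) 3 := by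
  refine ((rep_sum (R p) fun r _ => R16.Rep.ind r p hp).congr fun y => (xi_eq hR y).symm).mono ?_
  exact_mod_cast hc

theorem om_insert {B : Finset ℕ} {p : ℕ} (hp : p ∉ B) (ψ : ℕ → ℝ) (y : ℕ) :
    ψ (om R (insert p B) y) = ψ (om R B y) + xi R p y * (ψ (om R B y + 1) - ψ (om R B y)) := by
  unfold om xi
  rw [filter_insert]
  split_ifs with h
  · rw [card_insert_of_notMem fun h' => hp (mem_filter.1 h').1]; ring
  · ring

theorem rep_F {M : ℕ} (B : Finset ℕ) (hB : ∀ p ∈ B, p ∣ M) (hR : ∀ p ∈ B, ∀ r ∈ R p, r < p)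
    (hc : ∀ p ∈ B, (R p).card ≤ 3) (k : ℕ) :
    Rep M (fun y => R16.F k (om R B y)) ((3 * (B.card : ℝ) + 1) ^ k) := by
  induction B using Finset.induction_on generalizing k with
  | empty =>
    refine ((Rep.one M).congr fun y => ?_).mono (by simp)
    simp [om, R16.F_zero_right]
  | insert p B hpB ih =>
    have ih' := ih (fun q hq => hB q (mem_insert_of_mem hq))
      (fun q hq => hR q (mem_insert_of_mem hq)) (fun q hq => hc q (mem_insert_of_mem hq))
    rcases k with _ | k
    · refine ((Rep.one M).congr fun y => ?_).mono (by simp)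
      simp [R16.F_zero_left]
    · have h1 := (ih' (k + 1)).sub ((ih' k).mul (rep_xi (hB p (mem_insert_self _ _))
        (hR p (mem_insert_self _ _)) (hc p (mem_insert_self _ _))))
      refine (h1.congr fun y => ?_).mono ?_
      · rw [om_insert hpB (R16.F (k + 1)), R16.F_succ]; ring
      · rw [card_insert_of_notMem hpB]
        push_cast
        have h3 : (0 : ℝ) ≤ B.card := by positivity
        have h2 : (3 * (B.card : ℝ) + 1) ^ k ≤ (3 * ((B.card : ℝ) + 1) + 1) ^ k := by
          gcongr; linarith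
        have h4 : 0 ≤ (3 * (B.card : ℝ) + 1) ^ k := by positivity
        rw [pow_succ, pow_succ]
        nlinarith

theorem pow_om (c : ℝ) (B : Finset ℕ) (y : ℕ) :
    c ^ om R B y = ∏ p ∈ B, (1 + (c - 1) * xi R p y) := by
  induction B using Finset.induction_on with
  | empty => simp [om]
  | insert p B hpB ih =>
    rw [om_insert hpB (fun n => c ^ n), prod_insert hpB, ← ih]; ring

theorem avg_pow_om (c : ℝ) {B : Finset ℕ} (hB : ∀ p ∈ B, p.Prime)
    (hR : ∀ p ∈ B, ∀ r ∈ R p, r < p) :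
    avg (∏ p ∈ B, p) (fun y => c ^ om R B y) = ∏ p ∈ B, (1 + (c - 1) * (R p).card / p) := by
  simp only [pow_om]
  rw [R16.avg_prod_indep B (fun p => p) (fun p y => 1 + (c - 1) * xi R p y)
    (fun p hp => (hB p hp).pos)
    (fun p hp q hq hpq => (Nat.coprime_primes (hB p hp) (hB q hq)).2 hpq)
    (fun p _ y => by simp [xi])]
  refine prod_congr rfl fun p hp => ?_
  have h0 := (hB p hp).pos
  rw [R16.avg_add, R16.avg_const h0, R16.avg_const_mul]
  rw [funext (xi_eq (hR p hp)), R16.avg_sum, sum_congr rfl fun r _ => R16.avg_ind h0 dvd_rfl r, sum_const, nsmul_eq_mul]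
  ring

theorem F_le (k n : ℕ) : R16.F k n ≤ (0 : ℝ) ^ n + (1 / 2 ^ k) * 4 ^ n := by
  have hpos : (0 : ℝ) ≤ (1 / 2 ^ k) * 4 ^ n := by positivity
  rcases Nat.eq_zero_or_pos n with rfl | hn
  · simp only [pow_zero, R16.F_zero_right] at hpos ⊢; linarith
  · rw [zero_pow hn.ne', zero_add]
    rcases le_or_gt n k with hk | hk
    · rw [R16.F_eq_zero hn hk]; exact hpos
    · refine (le_abs_self _).trans ((R16.abs_F_le k n).trans ?_)
      have e : (4 : ℝ) ^ n = 2 ^ n * 2 ^ n := by rw [← mul_pow]; norm_num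
      have h2 : (2 : ℝ) ^ k ≤ 2 ^ n := pow_le_pow_right₀ (by norm_num) hk.le
      rw [e, one_div, mul_comm, mul_assoc]
      refine le_mul_of_one_le_right (by positivity) ?_
      rw [← div_eq_mul_inv, le_div_iff₀ (by positivity)]; linarith

/-- the pure sieve. -/
theorem sieve {B : Finset ℕ} (hB : ∀ p ∈ B, p.Prime) (hR : ∀ p ∈ B, ∀ r ∈ R p, r < p) {j : ℕ}
    (hj : j ≤ 3) (hc : ∀ p ∈ B, (R p).card = j) {k : ℕ} (hk : Even k) (N : ℕ) {σ τ : ℝ}
    (hσ : σ ≤ ∑ p ∈ B, (1 : ℝ) / p) (hτ : ∑ p ∈ B, (1 : ℝ) / p ≤ τ) :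
    (((range N).filter fun y => ∀ p ∈ B, y % p ∉ R p).card : ℝ) ≤
      N * (Real.exp (-(j * σ)) + Real.exp (9 * τ) / 2 ^ k) + (3 * (B.card : ℝ) + 1) ^ k := by
  have hM : 0 < ∏ p ∈ B, p := prod_pos fun p hp => (hB p hp).pos
  have h1 := (rep_F (R := R) B (fun p hp => dvd_prod_of_mem (fun p => p) hp) hR
    (fun p hp => (hc p hp).le.trans hj) k).transfer hM (Nat.coprime_one_left _) 0 N
  simp only [one_mul, zero_add] at h1
  have h2 : (((range N).filter fun y => ∀ p ∈ B, y % p ∉ R p).card : ℝ) ≤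
      ∑ t ∈ range N, R16.F k (om R B t) := by
    rw [card_eq_sum_ones, Nat.cast_sum, sum_filter]
    refine sum_le_sum fun y _ => ?_
    split_ifs with h
    · have : om R B y = 0 := by
        unfold om
        rw [card_eq_zero, filter_eq_empty_iff]
        exact h
      rw [this, R16.F_zero_right]; simp
    · exact R16.F_nonneg hk _
  have h3 : avg (∏ p ∈ B, p) (fun y => R16.F k (om R B y)) ≤
      Real.exp (-(j * σ)) + Real.exp (9 * τ) / 2 ^ k := by
    refine (R16.avg_mono fun y _ => F_le k (om R B y)).trans ?_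
    rw [R16.avg_add, R16.avg_const_mul, avg_pow_om _ hB hR, avg_pow_om _ hB hR]
    refine add_le_add ?_ ?_
    · calc ∏ p ∈ B, (1 + ((0 : ℝ) - 1) * (R p).card / p) ≤ ∏ p ∈ B, Real.exp (-(j * (1 / p))) := by
            refine prod_le_prod (fun p hp => ?_) fun p hp => ?_
            · have h0 : (0 : ℝ) < p := by exact_mod_cast (hB p hp).pos
              have h4 : (R p).card ≤ p := by
                simpa using card_le_card (fun r hr => mem_range.2 (hR p hp r hr) : R p ⊆ range p)
              have h5 : ((R p).card : ℝ) / p ≤ 1 := by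
                rw [div_le_one h0]; exact_mod_cast h4
              rw [zero_sub, neg_one_mul, neg_div]; linarith
            · have := Real.add_one_le_exp (-((j : ℝ) * (1 / p)))
              rw [hc p hp]
              refine le_trans (le_of_eq ?_) this
              ring
        _ = Real.exp (-(j * ∑ p ∈ B, (1 : ℝ) / p)) := by
            rw [← Real.exp_sum, mul_sum, sum_neg_distrib]
        _ ≤ _ := by gcongr
    · rw [one_div, mul_comm, ← div_eq_mul_inv]
      gcongr
      refine le_trans (prod_le_prod (fun p _ => by positivity) fun p hp => ?_)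
        (R16.prod_one_add_div_le_exp B (c := 9) (by norm_num) hτ)
      have h0 : (0 : ℝ) < p := by exact_mod_cast (hB p hp).pos
      have h4 : ((R p).card : ℝ) ≤ 3 := by exact_mod_cast (hc p hp).le.trans hj
      gcongr
      linarith
  have h4 := (abs_le.1 h1).2
  have h5 := mul_le_mul_of_nonneg_left h3 (Nat.cast_nonneg (α := ℝ) N)
  linarith

/-- the root of `a r + 1` modulo `p`. -/
def root (p a : ℕ) : ℕ := (-(a : ZMod p)⁻¹).val

theorem root_lt {p : ℕ} (hp : p.Prime) (a : ℕ) : root p a < p := by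
  have : NeZero p := ⟨hp.ne_zero⟩
  exact ZMod.val_lt _

theorem dvd_root {p a : ℕ} (hp : p.Prime) (ha : ¬ p ∣ a) : p ∣ a * root p a + 1 := by
  have : NeZero p := ⟨hp.ne_zero⟩
  have h := ZMod.coe_mul_inv_eq_one a ((Nat.Prime.coprime_iff_not_dvd hp).2 ha).symm
  rw [← ZMod.natCast_eq_zero_iff]
  push_cast
  rw [root, ZMod.natCast_zmod_val, mul_neg, h]; ring

/-- the removed classes. -/
def rts (A : Finset ℕ) (p : ℕ) : Finset ℕ := insert 0 (A.image (root p))

/-- the discriminant. -/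
def disc (A : Finset ℕ) : ℕ := ∏ a ∈ A, ∏ b ∈ insert 0 A, if b < a then a - b else 1

theorem disc_pos (A : Finset ℕ) : 0 < disc A :=
  prod_pos fun a _ => prod_pos fun b _ => by split_ifs <;> omega

theorem dvd_disc {A : Finset ℕ} {a b : ℕ} (ha : a ∈ A) (hb : b ∈ insert 0 A) (h : b < a) :
    a - b ∣ disc A := by
  refine dvd_trans ?_ (dvd_prod_of_mem _ ha)
  have := dvd_prod_of_mem (fun b => if b < a then a - b else 1) hb
  simpa [h] using this

theorem rts_lt {A : Finset ℕ} {p : ℕ} (hp : p.Prime) : ∀ r ∈ rts A p, r < p := by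
  intro r hr
  rcases mem_insert.1 hr with rfl | hr
  · exact hp.pos
  · obtain ⟨a, -, rfl⟩ := mem_image.1 hr
    exact root_lt hp a

theorem not_dvd {A : Finset ℕ} (hA : ∀ a ∈ A, 0 < a) {p : ℕ} (h : ¬ p ∣ disc A) {a : ℕ}
    (ha : a ∈ A) : ¬ p ∣ a := fun h' =>
  h (h'.trans (dvd_disc ha (mem_insert_self _ _) (hA a ha)))

theorem card_rts {A : Finset ℕ} (hA : ∀ a ∈ A, 0 < a) {p : ℕ} (hp : p.Prime)
    (h : ¬ p ∣ disc A) : (rts A p).card = A.card + 1 := by
  have h0 : ∀ a ∈ A, ¬ p ∣ root p a := by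
    intro a ha h1
    have h2 := dvd_root hp (not_dvd hA h ha)
    exact hp.one_lt.ne' (Nat.dvd_one.1 ((Nat.dvd_add_right (h1.mul_left a)).1 h2))
  have key : ∀ a ∈ A, ∀ b ∈ A, b < a → root p a ≠ root p b := by
    intro a ha b hb hlt he
    have h1 := dvd_root hp (not_dvd hA h ha)
    have h2 := dvd_root hp (not_dvd hA h hb)
    rw [← he] at h2
    have h3 : p ∣ (a - b) * root p a := by
      have := Nat.dvd_sub h1 h2
      rwa [Nat.add_sub_add_right, ← Nat.sub_mul] at this
    rcases (Nat.Prime.dvd_mul hp).1 h3 with h4 | h4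
    · exact h (h4.trans (dvd_disc ha (mem_insert_of_mem hb) hlt))
    · exact h0 a ha h4
  rw [rts, card_insert_of_notMem, card_image_of_injOn]
  · intro a ha b hb he
    rcases lt_trichotomy a b with h1 | h1 | h1
    · exact absurd he.symm (key b hb a ha h1)
    · exact h1
    · exact absurd he (key a ha b hb h1)
  · intro h1
    obtain ⟨a, ha, he⟩ := mem_image.1 h1
    exact h0 a ha (he ▸ dvd_zero p)

theorem not_mem_rts {A : Finset ℕ} (hA : ∀ a ∈ A, 0 < a) {p l : ℕ} (hp : p.Prime)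
    (h : ¬ p ∣ disc A) (hl : l.Prime) (hl' : ∀ a ∈ A, (a * l + 1).Prime) (hpl : p < l) :
    l % p ∉ rts A p := by
  intro h1
  rcases mem_insert.1 h1 with h1 | h1
  · exact hpl.ne ((Nat.prime_dvd_prime_iff_eq hp hl).1 (Nat.dvd_of_mod_eq_zero h1))
  · obtain ⟨a, ha, he⟩ := mem_image.1 h1
    have h2 := dvd_root hp (not_dvd hA h ha)
    rw [he] at h2
    have h3 : p ∣ a * l + 1 := by
      rw [← Nat.modEq_zero_iff_dvd] at h2 ⊢
      exact (((Nat.mod_modEq l p).mul_left a).add_right 1).symm.trans h2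
    have h4 := (Nat.prime_dvd_prime_iff_eq hp (hl' a ha)).1 h3
    have h5 : l ≤ a * l := Nat.le_mul_of_pos_left l (hA a ha)
    omega

theorem log_disc_le {A : Finset ℕ} {T : ℝ} (hc : A.card ≤ 2)
    (hA : ∀ a ∈ A, 0 < a ∧ Real.log (Real.log a) ≤ T) : Real.log (disc A) ≤ 6 * Real.exp T := by
  have h1 : ∀ a ∈ A, (a : ℝ) ≤ Real.exp (Real.exp T) := by
    intro a ha
    have h0 : (1 : ℝ) ≤ a := by exact_mod_cast (hA a ha).1
    rw [← Real.log_le_iff_le_exp (by linarith)]
    rcases (Real.log_nonneg h0).eq_or_lt with h | h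
    · rw [← h]; positivity
    · exact (Real.log_le_iff_le_exp h).1 (hA a ha).2
  have h2 : (1 : ℝ) ≤ Real.exp (Real.exp T) := Real.one_le_exp (by positivity)
  have h3 : (disc A : ℝ) ≤ Real.exp (Real.exp T) ^ 6 := by
    rw [disc]
    push_cast
    have h4 : ∀ a ∈ A, ∏ b ∈ insert 0 A, (if b < a then ((a - b : ℕ) : ℝ) else 1) ≤
        Real.exp (Real.exp T) ^ 3 := by
      intro a ha
      refine (prod_le_prod (g := fun _ => Real.exp (Real.exp T))
        (fun b _ => by split_ifs <;> positivity) fun b _ => ?_).trans ?_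
      · split_ifs
        · exact le_trans (by exact_mod_cast Nat.sub_le a b) (h1 a ha)
        · exact h2
      · rw [prod_const]
        exact pow_le_pow_right₀ h2 ((card_insert_le _ _).trans (by omega))
    refine (prod_le_prod (fun a _ => prod_nonneg fun b _ => by split_ifs <;> positivity)
      h4).trans ?_
    rw [prod_const, ← pow_mul]
    exact pow_le_pow_right₀ h2 (by omega)
  have h0 : (0 : ℝ) < disc A := by exact_mod_cast disc_pos A
  refine (Real.log_le_log h0 h3).trans (le_of_eq ?_)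
  rw [Real.log_pow, Real.log_exp]; norm_num

theorem card_dvd_le {B : Finset ℕ} (hB : ∀ p ∈ B, p.Prime) {m : ℕ} (hm : 0 < m) :
    ((B.filter (· ∣ m)).card : ℝ) ≤ 2 * Real.log m := by
  have h1 : ∏ p ∈ B.filter (· ∣ m), p ∣ m :=
    Finset.prod_primes_dvd m (fun p hp => (hB p (mem_filter.1 hp).1).prime)
      (fun p hp => (mem_filter.1 hp).2)
  have h2 : 2 ^ (B.filter (· ∣ m)).card ≤ ∏ p ∈ B.filter (· ∣ m), p :=
    Finset.pow_card_le_prod _ _ _ fun p hp => (hB p (mem_filter.1 hp).1).two_le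
  have h3 : (2 : ℝ) ^ (B.filter (· ∣ m)).card ≤ m := by
    exact_mod_cast h2.trans (Nat.le_of_dvd hm h1)
  have h4 := Real.log_le_log (by positivity) h3
  rw [Real.log_pow] at h4
  have h5 := Real.log_two_gt_d9
  have h6 : (0 : ℝ) ≤ (B.filter (· ∣ m)).card := by positivity
  nlinarith

theorem mem_pr {a b : ℝ} {p : ℕ} (h : p ∈ R5.pr a b) : p.Prime ∧ a < p ∧ p ≤ ⌊b⌋₊ := by
  classical
  simp only [R5.pr, mem_filter, mem_Icc] at h
  exact ⟨h.2.1, h.2.2, h.1.2⟩

/-- the reciprocal sum of the sieving primes. -/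
theorem sum_bounds : ∃ C : ℝ, 1 ≤ C ∧ ∀ (T w : ℝ) (A : Finset ℕ), 1 ≤ T → T ≤ w → A.card ≤ 2 →
    (∀ a ∈ A, 0 < a ∧ Real.log (Real.log a) ≤ T) →
    Real.log w - Real.log T - C ≤
      ∑ p ∈ (R5.pr (Real.exp T) (Real.exp w)).filter (fun p => ¬ p ∣ disc A), (1 : ℝ) / p ∧
    ∑ p ∈ (R5.pr (Real.exp T) (Real.exp w)).filter (fun p => ¬ p ∣ disc A), (1 : ℝ) / p ≤
      Real.log w + C := by
  obtain ⟨C, hC, hM, -⟩ := R5.mertens
  refine ⟨C + 12, by linarith, fun T w A hT hw hc hA => ?_⟩
  have h1 := hM (Real.exp T) (Real.exp w) (by linarith [Real.add_one_le_exp T])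
    (Real.exp_le_exp.2 hw)
  simp only [Real.log_exp] at h1
  have h2 : C / T ≤ C := div_le_self (by linarith) hT
  have h3 := sum_filter_add_sum_filter_not (R5.pr (Real.exp T) (Real.exp w)) (· ∣ disc A)
    fun p => (1 : ℝ) / p
  have h4 : 0 ≤ ∑ p ∈ (R5.pr (Real.exp T) (Real.exp w)).filter (· ∣ disc A), (1 : ℝ) / p :=
    sum_nonneg fun _ _ => by positivity
  have h5 : ∑ p ∈ (R5.pr (Real.exp T) (Real.exp w)).filter (· ∣ disc A), (1 : ℝ) / p ≤ 12 := by
    have he := Real.exp_pos T
    refine (sum_le_sum (g := fun _ => 1 / Real.exp T) fun p hp =>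
      one_div_le_one_div_of_le he (mem_pr (mem_filter.1 hp).1).2.1.le).trans ?_
    rw [sum_const, nsmul_eq_mul, mul_one_div, div_le_iff₀ he]
    have h6 := card_dvd_le (B := R5.pr (Real.exp T) (Real.exp w)) (fun p hp => (mem_pr hp).1)
      (disc_pos A)
    have h7 := log_disc_le hc hA
    linarith
  have h6 := Real.log_nonneg hT
  obtain ⟨h7, h8⟩ := abs_le.1 h1
  constructor <;> linarith

end BrunAux

open BrunAux in
theorem brun (_hM : MertensStmt) : BrunStmt := by
  obtain ⟨C, hC, hS⟩ := sum_bounds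
  refine ⟨2 * 160 ^ 3 + 144 + 2 * (80 * Real.exp C) ^ 3 + 2 * Real.exp (9 * C), by positivity,
    fun T X A hT hX hL hc hA => ?_⟩
  have hX2 : (2 : ℝ) ≤ X := by exact_mod_cast hX
  have hXL : Real.exp (Real.log X) = X := Real.exp_log (by linarith)
  have hL0 : 0 < Real.log X := Real.log_pos (by linarith)
  generalize Real.log X = L at hL hXL hL0 ⊢
  have hLT : L ≤ Real.exp T := (Real.log_le_iff_le_exp hL0).1 hL
  have hj : A.card + 1 ≤ 3 := by omega
  have hT2 : 1 ≤ T ^ 2 := one_le_pow₀ hT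
  have hT6 : 1 ≤ T ^ 6 := one_le_pow₀ hT
  have hpow : ∀ c : ℝ, 1 ≤ c → (c * T ^ 2) ^ (A.card + 1) ≤ c ^ 3 * T ^ 6 := by
    intro c hc1
    refine (pow_le_pow_right₀ (one_le_mul_of_one_le_of_one_le hc1 hT2) hj).trans (le_of_eq ?_)
    ring
  have hLj : 0 < L ^ (A.card + 1) := by positivity
  have hE1 : 0 < (80 * Real.exp C) ^ 3 := by positivity
  have hE2 : 0 < Real.exp (9 * C) := by positivity
  have hTX : 0 < T ^ 6 * X := by positivity
  rw [le_div_iff₀ hLj]
  rcases lt_or_ge L (160 * T ^ 2) with hs | hs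
  · have h1 : (((range (X + 1)).filter
        fun l => l.Prime ∧ ∀ a ∈ A, (a * l + 1).Prime).card : ℝ) ≤ 2 * X := by
      have : (((range (X + 1)).filter
          fun l => l.Prime ∧ ∀ a ∈ A, (a * l + 1).Prime).card : ℝ) ≤ (X + 1 : ℕ) := by
        exact_mod_cast (card_filter_le _ _).trans (card_range _).le
      push_cast at this; linarith
    have h2 : L ^ (A.card + 1) ≤ 160 ^ 3 * T ^ 6 :=
      (pow_le_pow_left₀ hL0.le hs.le _).trans (hpow 160 (by norm_num))
    refine (mul_le_mul h1 h2 hLj.le (by positivity)).trans ?_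
    nlinarith
  · obtain ⟨w, hw⟩ : ∃ w : ℝ, w = L / (80 * T) := ⟨_, rfl⟩
    have hwL : w * (80 * T) = L := by rw [hw]; field_simp
    have hw2 : 2 * T ≤ w := by rw [hw, le_div_iff₀ (by positivity)]; nlinarith
    have hw0 : 0 < w := by linarith
    have hwL' : 2 * w ≤ L := by nlinarith
    have hL1 : 1 ≤ L := by linarith
    obtain ⟨hσ, hτ⟩ := hS T w A hT (by linarith) hc hA
    have hBc : (((R5.pr (Real.exp T) (Real.exp w)).filter fun p => ¬ p ∣ disc A).card : ℝ) ≤
        Real.exp w := by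
      refine le_trans ?_ (Nat.floor_le (Real.exp_pos w).le)
      have : (R5.pr (Real.exp T) (Real.exp w)).filter (fun p => ¬ p ∣ disc A) ⊆
          Icc 1 ⌊Real.exp w⌋₊ := fun p hp =>
        mem_Icc.2 ⟨(mem_pr (mem_filter.1 hp).1).1.pos, (mem_pr (mem_filter.1 hp).1).2.2⟩
      exact_mod_cast (card_le_card this).trans (by simp)
    have hB : ∀ p ∈ (R5.pr (Real.exp T) (Real.exp w)).filter (fun p => ¬ p ∣ disc A),
        p.Prime ∧ ¬ p ∣ disc A ∧ p ≤ ⌊Real.exp w⌋₊ := fun p hp =>
      ⟨(mem_pr (mem_filter.1 hp).1).1, (mem_filter.1 hp).2, (mem_pr (mem_filter.1 hp).1).2.2⟩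
    generalize (R5.pr (Real.exp T) (Real.exp w)).filter (fun p => ¬ p ∣ disc A) = B
      at hσ hτ hBc hB
    obtain ⟨s, hse, hs1, hs2⟩ : ∃ s : ℕ, Even s ∧ 18 * T ≤ s ∧ s ≤ 20 * T := by
      refine ⟨2 * ⌈9 * T⌉₊, even_two_mul _, ?_, ?_⟩
      · have := Nat.le_ceil (9 * T); push_cast; linarith
      · have := Nat.ceil_lt_add_one (show 0 ≤ 9 * T by linarith); push_cast; linarith
    have hA0 : ∀ a ∈ A, 0 < a := fun a ha => (hA a ha).1
    have h1 := sieve (R := rts A) (fun p hp => (hB p hp).1) (fun p hp => rts_lt (hB p hp).1) hj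
      (fun p hp => card_rts hA0 (hB p hp).1 (hB p hp).2.1) hse (X + 1) hσ hτ
    have h2 : ((range (X + 1)).filter fun l => l.Prime ∧ ∀ a ∈ A, (a * l + 1).Prime) ⊆
        range (⌊Real.exp w⌋₊ + 1) ∪ (range (X + 1)).filter fun y => ∀ p ∈ B, y % p ∉ rts A p := by
      intro l hl
      obtain ⟨hl1, hl2, hl3⟩ := mem_filter.1 hl
      rcases le_or_gt l ⌊Real.exp w⌋₊ with h | h
      · exact mem_union_left _ (mem_range.2 (by omega))
      · exact mem_union_right _ (mem_filter.2 ⟨hl1, fun p hp =>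
          not_mem_rts hA0 (hB p hp).1 (hB p hp).2.1 hl2 hl3 ((hB p hp).2.2.trans_lt h)⟩)
    have h3 : (((range (X + 1)).filter
        fun l => l.Prime ∧ ∀ a ∈ A, (a * l + 1).Prime).card : ℝ) ≤ (⌊Real.exp w⌋₊ + 1) +
        (((range (X + 1)).filter fun y => ∀ p ∈ B, y % p ∉ rts A p).card : ℝ) := by
      have := (card_le_card h2).trans (card_union_le _ _)
      rw [card_range] at this
      exact_mod_cast this
    have hew : 4 ≤ Real.exp w := by
      have h4 : Real.exp 1 * Real.exp 1 ≤ Real.exp w := by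
        rw [← Real.exp_add]; exact Real.exp_le_exp.2 (by linarith)
      nlinarith [Real.add_one_le_exp 1]
    have h4 : (⌊Real.exp w⌋₊ + 1 : ℝ) ≤ 2 * Real.exp (L / 2) := by
      have h5 := Nat.floor_le (Real.exp_pos w).le
      have h6 : Real.exp w ≤ Real.exp (L / 2) := Real.exp_le_exp.2 (by linarith)
      linarith
    have h5 : (3 * (B.card : ℝ) + 1) ^ s ≤ Real.exp (L / 2) := by
      have h6 : 3 * (B.card : ℝ) + 1 ≤ Real.exp (w + w) := by rw [Real.exp_add]; nlinarith
      refine (pow_le_pow_left₀ (by positivity) h6 s).trans ?_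
      rw [← Real.exp_nat_mul]
      exact Real.exp_le_exp.2 (by nlinarith)
    have h6 : Real.exp (L / 2) * L ^ (A.card + 1) ≤ 48 * X := by
      have h7 := Real.pow_div_factorial_le_exp (L / 2) (by linarith) 3
      have h8 : L ^ (A.card + 1) ≤ 48 * Real.exp (L / 2) := by
        refine (pow_le_pow_right₀ hL1 hj).trans ?_
        norm_num [Nat.factorial] at h7
        linarith
      have h9 : Real.exp (L / 2) * Real.exp (L / 2) = X := by
        rw [← Real.exp_add, ← hXL]; congr 1; ring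
      nlinarith [Real.exp_pos (L / 2)]
    have h7 : Real.exp (-((A.card + 1 : ℕ) * (Real.log w - Real.log T - C))) * L ^ (A.card + 1) ≤
        (80 * Real.exp C) ^ 3 * T ^ 6 := by
      refine le_trans (le_of_eq ?_)
        (hpow _ (by linarith [Real.add_one_le_exp C]))
      rw [← mul_neg, Real.exp_nat_mul, ← mul_pow, ← hwL]
      congr 1
      rw [show -(Real.log w - Real.log T - C) = C + Real.log T - Real.log w by ring, Real.exp_sub,
        Real.exp_add, Real.exp_log hw0, Real.exp_log (by linarith)]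
      field_simp
    have h8 : Real.exp (9 * (Real.log w + C)) / 2 ^ s * L ^ (A.card + 1) ≤ Real.exp (9 * C) := by
      have h9 : Real.log w ≤ T := (Real.log_le_log hw0 (by linarith)).trans hL
      have h10 : L ^ (A.card + 1) ≤ Real.exp (3 * T) := by
        refine (pow_le_pow_right₀ hL1 hj).trans ((pow_le_pow_left₀ hL0.le hLT 3).trans ?_)
        rw [← Real.exp_nat_mul]; norm_num
      have h11 : Real.exp (12 * T) ≤ 2 ^ s := by
        rw [← Real.exp_log (show (0 : ℝ) < 2 by norm_num), ← Real.exp_nat_mul]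
        exact Real.exp_le_exp.2 (by nlinarith [Real.log_two_gt_d9])
      rw [div_mul_eq_mul_div, div_le_iff₀ (by positivity)]
      calc _ ≤ Real.exp (9 * (T + C)) * Real.exp (3 * T) := by gcongr
        _ = Real.exp (9 * C) * Real.exp (12 * T) := by
          rw [← Real.exp_add, ← Real.exp_add]; congr 1; ring
        _ ≤ _ := by gcongr
    have h9 : ((X + 1 : ℕ) : ℝ) ≤ 2 * X := by push_cast; linarith
    have hu := Real.exp_pos (-((A.card + 1 : ℕ) * (Real.log w - Real.log T - C)))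
    generalize Real.exp (-((A.card + 1 : ℕ) * (Real.log w - Real.log T - C))) = u at h1 h7 hu
    have hv : 0 ≤ Real.exp (9 * (Real.log w + C)) / 2 ^ s := by positivity
    generalize Real.exp (9 * (Real.log w + C)) / 2 ^ s = v at h1 h8 hv
    have h10 : (u + v) * L ^ (A.card + 1) ≤ ((80 * Real.exp C) ^ 3 + Real.exp (9 * C)) * T ^ 6 := by
      nlinarith
    have h11 := mul_le_mul h9 h10 (by positivity) (by positivity)
    have h12 := mul_le_mul_of_nonneg_right ((h3.trans (add_le_add h4 h1)).trans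
      (add_le_add le_rfl (add_le_add le_rfl h5))) hLj.le
    refine h12.trans ?_
    nlinarith

end Crest.Agent.R20
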