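import Crest.Agent.R20.Basic

/-!
# Row 20: removal of abnormal tuples and of colliding tuples (`CleanStmt`)
-/

set_option autoImplicit false

noncomputable section

namespace Crest.Agent.R20

open Crest.NumberTheoryR.TotientScale Finset Filter Topology MeasureTheory
open scoped ENNReal ArithmeticFunction.Omega

namespace CleanAux

/-- the set of `TopStmt` for `k = L`. -/
def Top (p : Par) (h₀ : ℝ) (m L : ℕ) (B : ℝ) (t : ℕ) : Set (Fin L → ℕ) :=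
  {q | (∀ i, (q i).Prime) ∧ ∃ Y : ℕ → ℝ, (∀ i, 0 ≤ Y i) ∧
    (∀ i : Fin L, Y i = ys (q i)) ∧ Y L = t ∧ Con m L B (p.tp h₀) Y ∧ (L < L → Fl m L Y)}

theorem h_nonneg (p : Par) {h₀ : ℝ} (h : 1 ≤ h₀) (j : ℕ) : 0 ≤ p.h h₀ j :=
  le_trans (by linarith) (p.le_h (by linarith) j)

theorem head_mem (p : Par) {h₀ : ℝ} (h : 1 ≤ h₀) {m M L : ℕ} {B : ℝ} {q : Fin M → ℕ} {r : ℕ}
    (hq : ∀ i, (q i).Prime) (hc : Con m M B (p.tm h₀) (sq q r)) (hL : L ≤ M) :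
    blk (zq q r) 0 L ∈ Top p h₀ m L B (ys (zq q r L)) ∧ blk (zq q r) 0 L ∈ Top p h₀ m L B 0 := by
  have h1 : ∀ i : Fin L, (blk (zq q r) 0 L i).Prime := fun i => by
    rw [blk, zero_add, zq_lt q r (lt_of_lt_of_le i.2 hL)]
    exact hq _
  have h2 : Con m L B (p.tp h₀) (sq q r) := hc.mono hL fun j => by
    have := pow_nonneg (h_nonneg p h j) 19
    rw [Par.tm, Par.tp]
    linarith
  have h3 : ∀ i : Fin L, sq q r i = ys (blk (zq q r) 0 L i) := fun i => by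
    rw [blk, zero_add, sq_eq_zq]
  refine ⟨⟨h1, sq q r, sq_nonneg' q r, h3, sq_eq_zq q r L, h2, fun h => absurd h (lt_irrefl _)⟩,
    h1, fun i => if i < L then sq q r i else 0, fun i => ?_, fun i => ?_, by simp,
    (Con.trunc (k := L) (sq_nonneg' q r) h2 fun h => absurd h (lt_irrefl _)).1,
    fun h => absurd h (lt_irrefl _)⟩
  · beta_reduce
    split_ifs
    · exact sq_nonneg' q r i
    · exact le_rfl
  · beta_reduce
    rw [if_pos i.2, h3]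

theorem tail_prime {M L t : ℕ} {q : Fin M → ℕ} (r : ℕ) (hq : ∀ i, (q i).Prime) (ha : StrictAnti q)
    (hL : L < M) (ht : ys (q ⟨L, hL⟩) ≤ t) {i : ℕ} (hi : L ≤ i) (hi' : i < M) :
    (zq q r i).Prime ∧ ys (zq q r i) ≤ t := by
  rw [zq_lt q r hi']
  exact ⟨hq _, (ys_mono (ha.antitone (show (⟨L, hL⟩ : Fin M) ≤ ⟨i, hi'⟩ from hi))).trans ht⟩

theorem pv_pos {L : ℕ} {q : Fin L → ℕ} (hq : ∀ i, (q i).Prime) : 0 < pv q :=
  prod_pos fun i _ => by have := (hq i).two_le; omega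

section
variable (p : Par) {h₀ : ℝ} {m K κ : ℕ} {B : ℝ} {R : Set ℕ}

/-- (a1): the level is too large. -/
theorem massA1 (h : 1 ≤ h₀) (hR : ∀ r ∈ R, Adm (p.h h₀ K) κ r) (i : Fin (m - K)) {H₁ c A : ℝ}
    (hA : 0 ≤ A)
    (hT : ∀ t : ℕ, H₁ ^ 21 < t → Mass pv (Top p h₀ m i B t) ≤
      ENNReal.ofReal (A * Real.exp (-(c * t / H₁ ^ 20))))
    (hS : ∑' t : ℕ, (if H₁ ^ 21 < t then ENNReal.ofReal (Real.exp (-(c * t / H₁ ^ 20)) *
      (t : ℝ) ^ (m - K - i)) * H (Vs t) else 0) ≤ 1) :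
    Mass tv {τ | τ ∈ To R m K B (p.tm h₀) ∧ H₁ ^ 21 < ys (τ.1 i)} ≤ ENNReal.ofReal A := by
  have hi := i.2
  have cov : {τ | τ ∈ To R m K B (p.tm h₀) ∧ H₁ ^ 21 < ys (τ.1 i)} ⊆
      ⋃ t : ℕ, {τ | τ ∈ To R m K B (p.tm h₀) ∧ H₁ ^ 21 < t ∧ ys (τ.1 i) = t} :=
    fun τ hτ => Set.mem_iUnion.2 ⟨_, hτ.1, hτ.2, rfl⟩
  refine (Mass_mono cov).trans ((Mass_iUnion_le _).trans ?_)
  refine le_trans ?_ ((mul_le_mul_right hS (ENNReal.ofReal A)).trans_eq (mul_one _))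
  rw [← ENNReal.tsum_mul_left]
  refine ENNReal.tsum_le_tsum fun t => ?_
  split_ifs with ht
  · refine (Mass_split (L := i) (n := m - K - i) (κ := 0) hi.le (by omega)
      (S₁ := Top p h₀ m i B t)
      (S₂ := {q : Fin (m - K - i) → ℕ | ∀ s, (q s).Prime ∧ ys (q s) ≤ t} ×ˢ Vs t) ?_).trans ?_
    · rintro τ ⟨⟨hq, ha, -, r, hr, hw, hP, hc⟩, -, he⟩
      refine ⟨r, hw, fun _ h => absurd h (Nat.not_lt_zero _), ?_, fun s => ?_, r,
        ⟨(hR r hr).pos, (ys_mono (hP i).le).trans he.le⟩, rfl⟩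
      · have := (head_mem p h hq hc hi.le).1
        rwa [zq_fin, he] at this
      · have := s.2
        exact tail_prime r hq ha hi he.le (Nat.le_add_right _ _) (by omega)
    · refine (mul_le_mul' (hT t ht) ((Mass_tv_prod _ _).trans
        (mul_le_mul_left (Mass_pv_primes _ _) _))).trans_eq ?_
      rw [ENNReal.ofReal_mul hA, ENNReal.ofReal_mul (Real.exp_pos _).le,
        ENNReal.ofReal_pow (Nat.cast_nonneg _), ENNReal.ofReal_natCast]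
      ring
  · refine (Mass_mono (S' := ∅) fun τ hτ => absurd hτ.2.1 ht).trans ?_
    simp

/-- (a2): the level is not normal. -/
theorem massA2 (h : 1 ≤ h₀) (hR : ∀ r ∈ R, Adm (p.h h₀ K) κ r) (i : Fin (m - K)) {H₁ A : ℝ}
    (hT : Mass pv (Top p h₀ m i B 0) ≤ ENNReal.ofReal A)
    (hN : Mass (fun q => q - 1) {q | q.Prime ∧ (ys q : ℝ) ≤ H₁ ^ 21 ∧ ¬ Normal (H₁ ^ 12) q} ≤
      ENNReal.ofReal (Real.exp (-(H₁ ^ 2 / 2))))
    (hS : ENNReal.ofReal (Real.exp (-(H₁ ^ 2 / 2)) * ((⌊H₁ ^ 21⌋₊ : ℝ) + 1) ^ (m - K - i - 1)) *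
      H (Vs ⌊H₁ ^ 21⌋₊) ≤ 1) :
    Mass tv {τ | τ ∈ To R m K B (p.tm h₀) ∧ (ys (τ.1 i) : ℝ) ≤ H₁ ^ 21 ∧
      ¬ Normal (H₁ ^ 12) (τ.1 i)} ≤ ENNReal.ofReal A := by
  have hi := i.2
  set T := ⌊H₁ ^ 21⌋₊ with hTdef
  refine (Mass_split (L := i) (n := m - K - i - 1 + 1) (κ := 0) hi.le (by omega)
    (S₁ := Top p h₀ m i B 0)
    (S₂ := {q : Fin (m - K - i - 1 + 1) → ℕ |
      q 0 ∈ {q : ℕ | q.Prime ∧ (ys q : ℝ) ≤ H₁ ^ 21 ∧ ¬ Normal (H₁ ^ 12) q} ∧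
      Fin.tail q ∈ {q : Fin (m - K - i - 1) → ℕ | ∀ s, (q s).Prime ∧ ys (q s) ≤ T}} ×ˢ Vs T)
    ?_).trans ?_
  · rintro τ ⟨⟨hq, ha, -, r, hr, hw, hP, hc⟩, h1, h2⟩
    have he : ys (τ.1 i) ≤ T := Nat.le_floor h1
    refine ⟨r, hw, fun _ h => absurd h (Nat.not_lt_zero _), (head_mem p h hq hc hi.le).2,
      ⟨?_, fun s => ?_⟩, r, ⟨(hR r hr).pos, (ys_mono (hP i).le).trans he⟩, rfl⟩
    · have e : blk (zq τ.1 r) i (m - K - i - 1 + 1) 0 = τ.1 i := zq_fin τ.1 r i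
      exact Set.mem_of_eq_of_mem e ⟨hq i, h1, h2⟩
    · have := s.2
      exact tail_prime r hq ha hi he (Nat.le_add_right _ _) (by
        show (i : ℕ) + (s + 1) < m - K
        omega)
  · refine (mul_le_mul' hT ((Mass_tv_prod _ _).trans (le_trans (mul_le_mul_left ?_ _) hS))).trans_eq
      (mul_one _)
    refine (Mass_pv_cons _ _).trans ((mul_le_mul' hN (Mass_pv_primes _ _)).trans ?_)
    rw [ENNReal.ofReal_mul (Real.exp_pos _).le, ENNReal.ofReal_pow (by positivity)]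
    gcongr
    rw [← ENNReal.ofReal_natCast]
    exact ENNReal.ofReal_le_ofReal (by linarith)

/-- the tail of a normal tuple is an object of the collision lemma. -/
theorem obj_tail (h : 1 ≤ h₀) (hκ : κ ≤ K) (hK : K ≤ m) (i : Fin (m - K)) {q : Fin (m - K) → ℕ}
    {r : ℕ} (hq : ∀ i, (q i).Prime) (ha : StrictAnti q) (hr : Adm (p.h h₀ K) κ r)
    (hP : ∀ i, P r < q i) (hc : Con m (m - K) B (p.tm h₀) (sq q r))
    (hn : ∀ i : Fin (m - K), Normal (p.h h₀ (m - 1 - i) ^ 12) (q i) ∧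
      (ys (q i) : ℝ) ≤ p.h h₀ (m - 1 - i) ^ 21) :
    Obj (p.h h₀ (m - 1 - i)) (blk (zq q r) i (m - K - i - 1 + κ + 1), (D^[κ] r).totient) := by
  have hi := i.2
  have mono : ∀ {a : ℕ}, a ≤ m - 1 - i → p.h h₀ a ^ 12 ≤ p.h h₀ (m - 1 - i) ^ 12 := fun ha =>
    pow_le_pow_left₀ (h_nonneg p h _) (p.h_mono (by linarith) ha) 12
  have hKi : K ≤ m - 1 - i := by omega
  have hD := iterate_D_pos hr.pos κ
  refine obj_blk (fun s hs => ?_) (fun s hs => zq_succ_lt q r ha hP hr.lt (by omega)) ?_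
    (Nat.totient_pos.2 hD) ?_ (hr.om.trans (by linarith [mono hKi])) ?_
  · by_cases h1 : i + s < m - K
    · rw [zq_lt q r h1]
      exact ⟨hq _, (hn ⟨_, h1⟩).1.mono (mono (by show m - 1 - (i + s) ≤ _; omega))⟩
    · obtain ⟨u, hu⟩ : ∃ u, i + s = m - K + u := ⟨i + s - (m - K), by omega⟩
      have hu' : u < κ := by omega
      rw [hu, zq_add]
      exact ⟨(P_prime_of_one_lt (lt_of_le_of_lt (one_le_P _) (hr.lt u hu'))).1,
        (hr.nor u hu').mono (mono hKi)⟩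
  · rw [zq_fin]
    exact (hn i).2
  · exact le_trans (by exact_mod_cast ys_mono (P_totient_le hD)) (hr.sm.trans (mono hKi))
  · have h1 := hc.2 i hi
    have h2 : ∑ s ∈ range (m - K - i - 1 + κ), aCoef (s + 1) * (ys (zq q r (i + (s + 1))) : ℝ) ≤
        ∑ s ∈ Ioo (i : ℕ) m, aCoef (s - i) * sq q r s := by
      have e : ∑ s ∈ range (m - K - i - 1 + κ), aCoef (s + 1) * (ys (zq q r (i + (s + 1))) : ℝ) =
          ∑ s ∈ (range (m - K - i - 1 + κ)).image (fun s : ℕ => (i : ℕ) + (s + 1)),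
            aCoef (s - i) * sq q r s := by
        rw [sum_image fun a _ b _ hab => by omega]
        refine sum_congr rfl fun s _ => ?_
        rw [Nat.add_sub_cancel_left, sq_eq_zq]
      rw [e]
      refine sum_le_sum_of_subset_of_nonneg (fun s hs => ?_) fun s hs _ => ?_
      · obtain ⟨u, hu, rfl⟩ := mem_image.1 hs
        rw [mem_range] at hu
        rw [mem_Ioo]
        omega
      · rw [mem_Ioo] at hs
        exact mul_nonneg (aCoef_pos (by omega)).le (sq_nonneg' _ _ _)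
    have h3 := pow_nonneg (h_nonneg p h (m - 1 - i)) 19
    rw [sum_range_succ', aCoef_zero, add_zero, ← sq_eq_zq q r i]
    rw [Par.tm] at h1
    linarith

/-- (b): first collision at the level `i`. -/
theorem massB (h : 1 ≤ h₀) (hκ : κ ≤ K) (hK : K ≤ m) (hR : ∀ r ∈ R, Adm (p.h h₀ K) κ r)
    (i : Fin (m - K)) {A : ℝ} (hT : Mass pv (Top p h₀ m i B 0) ≤ ENNReal.ofReal A)
    (hC : Mass tv {τ : (Fin (m - K - i - 1 + κ + 1) → ℕ) × ℕ | Obj (p.h h₀ (m - 1 - i)) τ ∧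
      ∃ τ' : (Fin (m - K - i - 1 + κ + 1) → ℕ) × ℕ, Obj (p.h h₀ (m - 1 - i)) τ' ∧ tv τ' = tv τ ∧
        τ'.1 0 ≠ τ.1 0} ≤ 1) :
    Mass tv {τ | τ ∈ p.Tn h₀ R m K B ∧ ∃ τ' ∈ p.Tn h₀ R m K B, tv τ' = tv τ ∧
      (∀ s < i, τ'.1 s = τ.1 s) ∧ τ'.1 i ≠ τ.1 i} ≤ ENNReal.ofReal A := by
  have hi := i.2
  have hn : i + (m - K - i - 1 + κ + 1) = m - K + κ := by omega
  refine (Mass_split (L := i) hi.le hn (S₁ := Top p h₀ m i B 0) ?_).trans
    ((mul_le_mul' hT hC).trans_eq (mul_one _))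
  rintro ⟨q, w⟩ ⟨⟨⟨hq, ha, -, r, hr, hw, hP, hc⟩, hno⟩, ⟨q', w'⟩,
    ⟨⟨hq', ha', -, r', hr', hw', hP', hc'⟩, hno'⟩, hv, he, hne⟩
  simp only at hq ha hw hP hc hno hq' ha' hw' hP' hc' hno' he hne
  have hh := (head_mem p h hq hc hi.le).2
  refine ⟨r, hw, (hR r hr).lt, hh, obj_tail p h hκ hK i hq ha (hR r hr) hP hc hno, _,
    obj_tail p h hκ hK i hq' ha' (hR r' hr') hP' hc' hno', ?_, ?_⟩
  · have e : blk (zq q' r') 0 i = blk (zq q r) 0 i := funext fun s => by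
      have hs : (s : ℕ) < m - K := lt_trans s.2 hi
      rw [blk, blk, zero_add, zq_lt q r hs, zq_lt q' r' hs]
      exact he _ s.2
    rw [← hw, ← hw', tv_split q r hi.le hn (hR r hr).lt, tv_split q' r' hi.le hn (hR r' hr').lt,
      e] at hv
    exact Nat.eq_of_mul_eq_mul_left (pv_pos hh.1) hv
  · have e : blk (zq q r) i (m - K - i - 1 + κ + 1) 0 = q i := zq_fin q r i
    have e' : blk (zq q' r') i (m - K - i - 1 + κ + 1) 0 = q' i := zq_fin q' r' i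
    exact fun h0 => hne (e'.symm.trans (h0.trans e))

end

end CleanAux

open CleanAux in
theorem clean (hNN : NNStmt) (hB : BadStmt) (hColl : CollStmt) (hT : TopStmt) : CleanStmt := by
  intro p
  obtain ⟨c, hc, hT⟩ := hT p
  filter_upwards [p.eventually_h (hNN.and ((hB.2.1 c hc).and (hB.2.2.and hColl)))] with h₀ ⟨h, hQ⟩
  obtain ⟨C, hC, hT⟩ := hT h₀ h
  refine ⟨3 * C, by linarith, ?_⟩
  filter_upwards [hT] with m hT B hSc K κ R hK1 hK hκ hR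
  have key : ∀ i : Fin (m - K),
      Mass tv ({τ | τ ∈ To R m K B (p.tm h₀) ∧ p.h h₀ (m - 1 - i) ^ 21 < ys (τ.1 i)} ∪
        {τ | τ ∈ To R m K B (p.tm h₀) ∧ (ys (τ.1 i) : ℝ) ≤ p.h h₀ (m - 1 - i) ^ 21 ∧
          ¬ Normal (p.h h₀ (m - 1 - i) ^ 12) (τ.1 i)} ∪
        {τ | τ ∈ p.Tn h₀ R m K B ∧ ∃ τ' ∈ p.Tn h₀ R m K B, tv τ' = tv τ ∧
          (∀ s < i, τ'.1 s = τ.1 s) ∧ τ'.1 i ≠ τ.1 i}) ≤ ENNReal.ofReal (3 * C * G i B) := by
    intro i
    have hi := i.2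
    have hi' : (i : ℕ) < m := by omega
    obtain ⟨⟨q1, q2, q3, q4⟩, hj⟩ := hQ (m - 1 - i)
    have h0 := h_nonneg p h (m - 1 - i)
    have hA : 0 ≤ C * G i B := mul_nonneg (by linarith) (G_pos _ hSc.1).le
    have hsq : ∀ J : ℕ, J ≤ m - 1 - i + 1 → (J : ℝ) ^ 2 ≤ p.h h₀ (m - 1 - i) := fun J hJ =>
      le_trans (pow_le_pow_left₀ (Nat.cast_nonneg _) (by exact_mod_cast hJ) 2) hj
    have t0 : Mass pv (Top p h₀ m i B 0) ≤ ENNReal.ofReal (C * G i B) := by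
      have := hT B hSc i hi' i 0
      rw [if_pos (by rw [Nat.cast_zero]; positivity), show (i : ℕ) - 1 - i = 0 by omega, pow_zero,
        div_one, mul_one] at this
      exact this
    have a1 := massA1 p (B := B) h hR i (c := c) hA (fun t ht => by
      have := hT B hSc i hi' i t
      rw [if_neg (not_le.2 ht), show (i : ℕ) - 1 - i = 0 by omega, pow_zero, div_one] at this
      exact this) (q2 _ (hsq _ (by omega)))
    have a2 := massA2 p h hR i t0 q1.2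
      (q3 _ _ (hsq _ (by omega)) (Nat.floor_le (by positivity)))
    have a3 := massB p h hκ hK hR i t0 (q4 _ (by
      have := hsq (m - K - i - 1 + κ + 1) (by omega)
      rwa [Nat.cast_add_one] at this)).1
    refine (Mass_union_le _ _).trans ((add_le_add ((Mass_union_le _ _).trans (add_le_add a1 a2))
      a3).trans_eq ?_)
    rw [← ENNReal.ofReal_add hA hA, ← ENNReal.ofReal_add (by linarith) hA]
    congr 1
    ring
  refine (Mass_mono ?_).trans ((Mass_biUnion_le univ _).trans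
    ((sum_le_sum fun i _ => key i).trans_eq ?_))
  · rintro τ ⟨hτ, hn⟩
    simp only [Set.mem_iUnion, mem_univ, exists_const]
    by_cases h1 : τ ∈ p.Tn h₀ R m K B
    · have : ∃ τ' ∈ p.Tn h₀ R m K B, tv τ' = tv τ ∧ τ' ≠ τ := by
        by_contra hh
        exact hn ⟨h1, fun τ' h2 h3 => by_contra fun h4 => hh ⟨τ', h2, h3, h4⟩⟩
      obtain ⟨τ', h2, h3, h4⟩ := this
      have h5 : {i | τ'.1 i ≠ τ.1 i}.Nonempty := by
        by_contra hh
        have e : τ'.1 = τ.1 := funext fun i => by_contra fun h6 => hh ⟨i, h6⟩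
        rw [tv, tv, e] at h3
        exact h4 (Prod.ext e (Nat.eq_of_mul_eq_mul_left (pv_pos hτ.1) h3))
      obtain ⟨i, hi, hmin⟩ := wellFounded_lt.has_min _ h5
      exact ⟨i, Or.inr ⟨h1, τ', h2, h3, fun s hs => by_contra fun h6 => hmin s h6 hs, hi⟩⟩
    · have : ∃ i : Fin (m - K), ¬ (Normal (p.h h₀ (m - 1 - i) ^ 12) (τ.1 i) ∧
          (ys (τ.1 i) : ℝ) ≤ p.h h₀ (m - 1 - i) ^ 21) := by
        by_contra hh
        exact h1 ⟨hτ, fun i => by_contra fun h2 => hh ⟨i, h2⟩⟩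
      obtain ⟨i, hi⟩ := this
      rcases le_or_gt (ys (τ.1 i) : ℝ) (p.h h₀ (m - 1 - i) ^ 21) with h2 | h2
      · exact ⟨i, Or.inl (Or.inr ⟨hτ, h2, fun h3 => hi ⟨h3, h2⟩⟩)⟩
      · exact ⟨i, Or.inl (Or.inl ⟨hτ, h2⟩)⟩
  · rw [← ENNReal.ofReal_sum_of_nonneg fun i _ =>
      mul_nonneg (by linarith) (G_pos _ hSc.1).le, ← mul_sum,
      Fin.sum_univ_eq_sum_range (fun L => G L B)]

end Crest.Agent.R20
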