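import Crest.Agent.R20.CollAux

/-!
# Row 20: the collision lemma
-/

set_option autoImplicit false

noncomputable section

namespace Crest.Agent.R20

open Crest.NumberTheoryR.TotientScale Finset Filter Topology MeasureTheory
open scoped ENNReal ArithmeticFunction.Omega

namespace CollAux

open Classical

variable {κ : ℕ}

/-- lines. -/
abbrev L (κ : ℕ) := Option (Fin (κ + 1))

/-- the matrices of a pattern. -/
def SS (h : ℝ) (θ θ' : L κ → ℕ) : Set (L κ → L κ → ℕ) :=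
  {d | Mat (TT h) (dd h) θ θ' (II h θ) (II h θ') d ∧
    Ad (fun l => Real.log (Nc θ' (ys l))) (∏ i, ∏ i', d i i') ≤
      ∑ o ∈ II h θ', (θ' o : ℝ) - 3 / 4 * h ^ 19}

/-- the tuples of common primes. -/
def EE (h : ℝ) (κ : ℕ) : Set (Fin (κ + 1) → ℕ) := {q | ∀ i, (q i).Prime ∧ ys (q i) ≤ TT h}

/-- the patterns. -/
def Pat (h : ℝ) (κ : ℕ) : Finset (Bool × (L κ → ℕ) × (L κ → ℕ)) :=
  univ ×ˢ (Fintype.piFinset fun _ => range (TT h + 1)) ×ˢ
    (Fintype.piFinset fun _ => range (TT h + 1))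

/-- decoding by rows or by columns. -/
def dc (t : Bool) (w : (Fin (κ + 1) → ℕ) × (L κ → L κ → ℕ)) : (Fin (κ + 1) → ℕ) × ℕ :=
  if t then dec w.1 fun o => ∏ o', w.2 o o' else dec w.1 fun o' => ∏ o, w.2 o o'

/-- value of a code. -/
def vv (w : (Fin (κ + 1) → ℕ) × (L κ → L κ → ℕ)) : ℕ := pv w.1 * ∏ i, ∏ i', w.2 i i'

theorem card_Pat (h : ℝ) (κ : ℕ) : (Pat h κ).card = 2 * (TT h + 1) ^ (2 * κ + 4) := by
  simp only [Pat, card_product, card_univ, Fintype.card_bool, Fintype.card_piFinset, card_range,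
    prod_const, Fintype.card_option, Fintype.card_fin]
  ring

variable {h : ℝ}

theorem dd_lt (h3 : 3 ≤ h) {A : (Fin (κ + 1) → ℕ) × ℕ} (hA : Obj h A) : dd h < ys (A.1 0) := by
  have h1 := le_ys_zero hA
  have h2 := dd_le (h := h) (by linarith)
  have h4 : 3 ^ 7 * h ^ 12 ≤ h ^ 19 := by
    rw [show h ^ 19 = h ^ 7 * h ^ 12 by ring]
    gcongr
  have h5 : (0 : ℝ) < h ^ 12 := by positivity
  have h6 : (dd h : ℝ) < ys (A.1 0) := by linarith
  exact_mod_cast h6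

theorem encode (h3 : 3 ≤ h) (hκ : ((κ : ℝ) + 1) ^ 2 ≤ h) {A B : (Fin (κ + 1) → ℕ) × ℕ}
    (hA : Obj h A) (hB : Obj h B) (e : tv B = tv A) (hne : B.1 0 ≠ A.1 0) :
    ∃ p ∈ Pat h κ, ∃ w ∈ EE h κ ×ˢ SS h p.2.1 p.2.2, dc p.1 w = A ∧ vv w = tv A ∧
      some 0 ∈ II h p.2.2 ∧ min (ys (A.1 0)) (ys (B.1 0)) ≤ p.2.2 (some 0) := by
  have h1 : (1 : ℝ) ≤ h := by linarith
  have pat : ∀ t : Bool, ∀ A B : (Fin (κ + 1) → ℕ) × ℕ, Obj h A → Obj h B →
      (t, th h A B, th h B A) ∈ Pat h κ := fun t A B hA hB => by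
    simp only [Pat, mem_product, mem_univ, Fintype.mem_piFinset, mem_range, true_and]
    exact ⟨fun o => Nat.lt_succ_of_le (th_le h1 hA o), fun o => Nat.lt_succ_of_le (th_le h1 hB o)⟩
  have key : ∀ A B : (Fin (κ + 1) → ℕ) × ℕ, Obj h A → Obj h B → tv A = tv B → A.1 0 < B.1 0 →
      ∃ d ∈ SS h (th h A B) (th h B A), (∀ o, ∏ o', d o o' = rr A B o) ∧
        (∀ o', ∏ o, d o o' = rr B A o') ∧ some 0 ∈ II h (th h B A) := fun A B hA hB e hlt => by
    obtain ⟨d, d1, d2, d3⟩ := exists_mat hA hB e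
    refine ⟨d, ⟨d3, ?_⟩, d1, d2, mem_filter.2 ⟨mem_univ _, ?_⟩⟩
    · rw [Finset.prod_comm]
      simp_rw [d2]
      exact weight h3 hκ hB hA hlt
    · rw [th_zero hA hlt]
      exact dd_lt h3 hB
  rcases lt_or_gt_of_ne hne with hlt | hlt
  · obtain ⟨d, hd, -, d2, d3⟩ := key B A hB hA e hlt
    refine ⟨_, pat false B A hB hA, (ee A B, d), ⟨ee_mem hA, hd⟩, ?_, ?_, d3, ?_⟩
    · simp only [dc, d2]
      exact dec_eq hA
    · rw [vv, Finset.prod_comm]
      simp only [d2]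
      exact tv_eq
    · exact (min_le_left _ _).trans (th_zero hB hlt).ge
  · obtain ⟨d, hd, d1, -, d3⟩ := key A B hA hB e.symm hlt
    refine ⟨_, pat true A B hA hB, (ee A B, d), ⟨ee_mem hA, hd⟩, ?_, ?_, d3, ?_⟩
    · simp only [dc, d1]
      exact dec_eq hA
    · rw [vv]
      simp only [d1]
      exact tv_eq
    · exact (min_le_right _ _).trans (th_zero hA hlt).ge

/-! ## numerical bounds -/

theorem TT_le (h3 : 3 ≤ h) : (TT h : ℝ) + 1 ≤ Real.exp (22 * h) := by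
  have h1 : (TT h : ℝ) ≤ h ^ 21 := Nat.floor_le (by positivity)
  have h2 : h ≤ Real.exp h := by linarith [Real.add_one_le_exp h]
  have h4 : (1 : ℝ) ≤ h ^ 21 := one_le_pow₀ (by linarith)
  have h5 : h ^ 22 ≤ Real.exp h ^ 22 := by gcongr
  rw [show (22 : ℝ) * h = (22 : ℕ) * h by norm_num, Real.exp_nat_mul]
  have h6 : h ^ 22 = h * h ^ 21 := by ring
  nlinarith

theorem one_le_TT (h3 : 3 ≤ h) : 1 ≤ TT h :=
  Nat.le_floor (by rw [Nat.cast_one]; exact one_le_pow₀ (by linarith))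

theorem beta_le (h3 : 3 ≤ h) (hκ : ((κ : ℝ) + 1) ^ 2 ≤ h) {C : ℝ} (hC : 1 ≤ C) (hCh : C ≤ h)
    (θ θ' : L κ → ℕ) :
    Real.exp ((∑ o ∈ II h θ', (θ' o : ℝ) - 3 / 4 * h ^ 19) + ∑ i, (θ i : ℝ) -
        ∑ i ∈ II h θ, (θ i : ℝ) - ∑ i' ∈ II h θ', (θ' i' : ℝ)) *
      (C * (TT h : ℝ) ^ 6 * (Fintype.card (L κ) * Fintype.card (L κ)) * Real.exp (dd h)) ^
        ((II h θ).card + (II h θ').card) ≤ Real.exp (-(h ^ 19 / 2)) := by
  have hk0 : (0 : ℝ) ≤ κ := κ.cast_nonneg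
  have hnh : (κ : ℝ) + 1 ≤ h := by nlinarith
  have hd := dd_le (h := h) (by linarith)
  have hc : (Fintype.card (L κ) : ℝ) = κ + 2 := by
    simp only [Fintype.card_option, Fintype.card_fin]
    push_cast
    ring
  have hT1 : (1 : ℝ) ≤ TT h := by exact_mod_cast one_le_TT h3
  have e1 : C ≤ Real.exp h := by linarith [Real.add_one_le_exp h]
  have e2 : (TT h : ℝ) ^ 6 ≤ Real.exp (22 * h) ^ 6 := by
    gcongr
    linarith [TT_le h3]
  have e3 : (κ : ℝ) + 2 ≤ Real.exp h := by linarith [Real.add_one_le_exp h]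
  have e4 : 3 ^ 11 * h ≤ h ^ 12 := by
    rw [show h ^ 12 = h ^ 11 * h by ring]
    gcongr
  set E := C * (TT h : ℝ) ^ 6 * (Fintype.card (L κ) * Fintype.card (L κ)) * Real.exp (dd h)
    with hE
  have hE1 : 1 ≤ E := by
    rw [hE, hc]
    refine one_le_mul_of_one_le_of_one_le (one_le_mul_of_one_le_of_one_le
      (one_le_mul_of_one_le_of_one_le hC (one_le_pow₀ hT1)) (by nlinarith)) ?_
    exact Real.one_le_exp (Nat.cast_nonneg _)
  have hE2 : E ≤ Real.exp (4 * h ^ 12) := by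
    rw [hE, hc]
    calc _ ≤ Real.exp h * Real.exp (22 * h) ^ 6 * (Real.exp h * Real.exp h) * Real.exp (dd h) := by
          gcongr
      _ = Real.exp (h + (6 : ℕ) * (22 * h) + (h + h) + dd h) := by
          rw [Real.exp_add, Real.exp_add, Real.exp_add, Real.exp_add, Real.exp_nat_mul]
      _ ≤ _ := Real.exp_le_exp.2 (by push_cast; linarith)
  have hI : (II h θ).card + (II h θ').card ≤ 2 * κ + 4 := by
    have a1 := card_le_univ (II h θ)
    have a2 := card_le_univ (II h θ')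
    simp only [Fintype.card_option, Fintype.card_fin] at a1 a2
    omega
  have hE3 : E ^ ((II h θ).card + (II h θ').card) ≤ Real.exp (16 * h ^ 13) := by
    calc _ ≤ E ^ (2 * κ + 4) := pow_le_pow_right₀ hE1 hI
      _ ≤ Real.exp (4 * h ^ 12) ^ (2 * κ + 4) := by gcongr
      _ = Real.exp ((2 * κ + 4 : ℕ) * (4 * h ^ 12)) := (Real.exp_nat_mul _ _).symm
      _ ≤ _ := by
        refine Real.exp_le_exp.2 ?_
        push_cast
        have : (0 : ℝ) ≤ h ^ 12 := by positivity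
        nlinarith
  have a7 := sum_le_II (h := h) θ
  have c3 : ((κ : ℝ) + 2) * dd h ≤ 2 * h * (3 * h ^ 12) :=
    mul_le_mul (by linarith) hd (Nat.cast_nonneg _) (by linarith)
  have c4 : 3 ^ 6 * h ^ 13 ≤ h ^ 19 := by
    rw [show h ^ 19 = h ^ 6 * h ^ 13 by ring]
    gcongr
  have c5 : (0 : ℝ) ≤ h ^ 13 := by positivity
  refine (mul_le_mul_of_nonneg_left hE3 (Real.exp_pos _).le).trans ?_
  rw [← Real.exp_add, Real.exp_le_exp]
  nlinarith

theorem total_le (h3 : 3 ≤ h) (hκ : ((κ : ℝ) + 1) ^ 2 ≤ h) :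
    ((Pat h κ).card : ℝ) * ((TT h : ℝ) ^ (κ + 1) * (Real.exp (dd h) * Real.exp (-(h ^ 19 / 2)))) ≤
      1 := by
  have hk0 : (0 : ℝ) ≤ κ := κ.cast_nonneg
  have hnh : (κ : ℝ) + 1 ≤ h := by nlinarith
  have hd := dd_le (h := h) (by linarith)
  have hT := TT_le h3
  have e1 : (2 : ℝ) ≤ Real.exp h := by linarith [Real.add_one_le_exp h]
  have e2 : (TT h : ℝ) ≤ Real.exp (22 * h) := by linarith
  have c1 : 3 ^ 7 * h ^ 12 ≤ h ^ 19 := by
    rw [show h ^ 19 = h ^ 7 * h ^ 12 by ring]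
    gcongr
  have c2 : 3 ^ 10 * h ^ 2 ≤ h ^ 12 := by
    rw [show h ^ 12 = h ^ 10 * h ^ 2 by ring]
    gcongr
  rw [card_Pat]
  push_cast
  calc _ ≤ Real.exp h * Real.exp (22 * h) ^ (2 * κ + 4) * (Real.exp (22 * h) ^ (κ + 1) *
        (Real.exp (dd h) * Real.exp (-(h ^ 19 / 2)))) := by gcongr
    _ = Real.exp (h + (2 * κ + 4 : ℕ) * (22 * h) +
        ((κ + 1 : ℕ) * (22 * h) + (dd h + -(h ^ 19 / 2)))) := by
        rw [Real.exp_add, Real.exp_add, Real.exp_add, Real.exp_add, Real.exp_nat_mul,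
          Real.exp_nat_mul]
    _ ≤ _ := by
        rw [Real.exp_le_one_iff]
        push_cast
        nlinarith

/-! ## counting -/

theorem card_le_of_cover {α π γ : Type} (A : Finset α) (Q : Finset π) (f : π → γ → α)
    (W : π → Set γ) {c : ℝ} (hW : ∀ p ∈ Q, ∀ F : Finset γ, ↑F ⊆ W p → (F.card : ℝ) ≤ c)
    (h : ∀ a ∈ A, ∃ p ∈ Q, a ∈ f p '' W p) : (A.card : ℝ) ≤ Q.card * c := by
  have h1 : A ⊆ Q.biUnion fun p => A.filter fun a => a ∈ f p '' W p := fun a ha => by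
    obtain ⟨p, hp, h'⟩ := h a ha
    exact mem_biUnion.2 ⟨p, hp, mem_filter.2 ⟨ha, h'⟩⟩
  have h2 := (card_le_card h1).trans card_biUnion_le
  have h3 : (A.card : ℝ) ≤ ∑ p ∈ Q, ((A.filter fun a => a ∈ f p '' W p).card : ℝ) := by
    exact_mod_cast h2
  refine h3.trans ?_
  rw [← nsmul_eq_mul]
  refine sum_le_card_nsmul _ _ _ fun p hp => ?_
  obtain ⟨F, hF, e⟩ := (subset_set_image_iff (s := W p) (f := f p)
    (t := A.filter fun a => a ∈ f p '' W p)).1 fun a ha => (mem_filter.1 (mem_coe.1 ha)).2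
  rw [← e]
  exact le_trans (by exact_mod_cast card_image_le) (hW p hp F hF)

theorem card_le_of_fibre {α β : Type} {v : α → ℕ} {v' : β → ℕ} {S : Set α} {S' : Set β}
    {M K x : ℝ} (hv : ∀ a ∈ S, 0 < v a) (hM : 0 ≤ M) (hK : 0 ≤ K) (hx : 0 ≤ x)
    (hS : Mass v S ≤ ENNReal.ofReal M)
    (hS' : ∀ (y : ℝ) (F : Finset β), 0 ≤ y → (∀ d ∈ F, d ∈ S' ∧ (v' d : ℝ) ≤ y) →
      (F.card : ℝ) ≤ y * K)
    (F : Finset (α × β)) (hF : ∀ w ∈ F, w ∈ S ×ˢ S' ∧ ((v w.1 * v' w.2 : ℕ) : ℝ) ≤ x) :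
    (F.card : ℝ) ≤ x * (M * K) := by
  have h0 : ∀ a ∈ F.image Prod.fst, a ∈ S := fun a ha => by
    obtain ⟨w, hw, rfl⟩ := mem_image.1 ha
    exact (hF w hw).1.1
  have h1 : ∀ a ∈ F.image Prod.fst, ((F.filter fun w => w.1 = a).card : ℝ) ≤
      x * K * (1 / (v a : ℝ)) := fun a ha => by
    have hp : (0 : ℝ) < v a := by exact_mod_cast hv a (h0 a ha)
    rw [← card_image_of_injOn (f := Prod.snd) fun w hw w' hw' e => Prod.ext
      ((mem_filter.1 (mem_coe.1 hw)).2.trans (mem_filter.1 (mem_coe.1 hw')).2.symm) e]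
    refine (hS' (x / v a) _ (by positivity) fun d hd => ?_).trans_eq (by ring)
    obtain ⟨w, hw, rfl⟩ := mem_image.1 hd
    obtain ⟨hw', rfl⟩ := mem_filter.1 hw
    refine ⟨(hF w hw').1.2, ?_⟩
    have := (hF w hw').2
    rw [le_div_iff₀ hp]
    push_cast at this
    linarith
  rw [card_eq_sum_card_image Prod.fst F, Nat.cast_sum]
  refine (sum_le_sum h1).trans ?_
  rw [← mul_sum]
  have h2 := sum_le_of_Mass_le hM hS _ h0
  calc _ ≤ x * K * M := by gcongr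
    _ = _ := by ring

end CollAux

open CollAux in
theorem coll (hMat : MatStmt) : CollStmt := by
  obtain ⟨C, hC, hM⟩ := hMat
  filter_upwards [eventually_ge_atTop 3, eventually_ge_atTop C] with h h3 hCh κ hκ
  have hM' := fun θ θ' : L κ → ℕ => hM (L κ) (L κ) (TT h) (dd h) θ θ' (II h θ) (II h θ')
    (∑ o ∈ II h θ', (θ' o : ℝ) - 3 / 4 * h ^ 19) (one_le_TT h3) inferInstance inferInstance
  have hβ := beta_le h3 hκ hC hCh
  have hE : Mass pv (EE h κ) ≤ ENNReal.ofReal ((TT h : ℝ) ^ (κ + 1)) := by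
    rw [ENNReal.ofReal_pow (Nat.cast_nonneg _), ENNReal.ofReal_natCast]
    exact Mass_pv_primes _ _
  have htot := total_le h3 hκ
  constructor
  · have h1 : ∀ p ∈ Pat h κ, Mass tv {τ | ∃ w ∈ EE h κ ×ˢ SS h p.2.1 p.2.2,
        dc p.1 w = τ ∧ vv w ≤ tv τ} ≤ ENNReal.ofReal ((TT h : ℝ) ^ (κ + 1) *
          (Real.exp (dd h) * Real.exp (-(h ^ 19 / 2)))) := fun p _ => by
      refine (Mass_le_of_rel (v' := vv) (dc p.1) fun τ hτ => hτ).trans ?_
      refine (Mass_prod (v := pv) (v' := fun d : L κ → L κ → ℕ => ∏ i, ∏ i', d i i') _ _).trans ?_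
      rw [ENNReal.ofReal_mul (by positivity)]
      refine mul_le_mul' hE ((hM' _ _).1.trans (ENNReal.ofReal_le_ofReal ((hβ _ _).trans ?_)))
      exact le_mul_of_one_le_left (Real.exp_pos _).le (Real.one_le_exp (Nat.cast_nonneg _))
    refine (Mass_mono (S' := ⋃ p ∈ Pat h κ, {τ | ∃ w ∈ EE h κ ×ˢ SS h p.2.1 p.2.2,
      dc p.1 w = τ ∧ vv w ≤ tv τ}) ?_).trans ((Mass_biUnion_le _ _).trans ?_)
    · rintro A ⟨hA, B, hB, e, hne⟩
      obtain ⟨p, hp, w, hw, e1, e2, -⟩ := encode h3 hκ hA hB e hne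
      exact Set.mem_biUnion hp ⟨w, hw, e1, e2.le⟩
    · refine (sum_le_card_nsmul _ _ _ h1).trans ?_
      rw [nsmul_eq_mul, ← ENNReal.ofReal_natCast, ← ENNReal.ofReal_mul (Nat.cast_nonneg _)]
      exact ENNReal.ofReal_le_one.2 htot
  · intro x b A hx hA
    have h1 := card_le_of_cover A (Pat h κ) (fun p => dc p.1)
      (fun p => {w | (w ∈ EE h κ ×ˢ SS h p.2.1 p.2.2 ∧ (vv w : ℝ) ≤ x) ∧
        some 0 ∈ II h p.2.2 ∧ b ≤ p.2.2 (some 0)})
      (c := x * ((TT h : ℝ) ^ (κ + 1) * (Real.exp (dd h - b) * Real.exp (-(h ^ 19 / 2)))))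
      (fun p _ F hF => ?_) fun τ hτ => ?_
    · refine h1.trans ?_
      rw [sub_eq_add_neg, Real.exp_add]
      calc _ = x * Real.exp (-(b : ℝ)) * (((Pat h κ).card : ℝ) * ((TT h : ℝ) ^ (κ + 1) *
            (Real.exp (dd h) * Real.exp (-(h ^ 19 / 2))))) := by ring
        _ ≤ _ := mul_le_of_le_one_right (by positivity) htot
    · rcases F.eq_empty_or_nonempty with rfl | ⟨w, hw⟩
      · rw [card_empty, Nat.cast_zero]
        positivity
      obtain ⟨-, hI, hb⟩ := hF hw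
      refine card_le_of_fibre (v := pv) (v' := fun d : L κ → L κ → ℕ => ∏ i, ∏ i', d i i')
        (fun e he => pv_pos fun i => (he i).1) (by positivity) (by positivity) hx hE
        (fun y F' hy hF' => ?_) F fun w hw => (hF hw).1
      refine ((hM' _ _).2 _ hI y F' hy hF').trans ?_
      rw [mul_assoc]
      refine mul_le_mul_of_nonneg_left (mul_le_mul (Real.exp_le_exp.2 ?_) (hβ _ _) ?_
        (Real.exp_pos _).le) hy
      · have : (b : ℝ) ≤ p.2.2 (some 0) := by exact_mod_cast hb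
        linarith
      · positivity
    · obtain ⟨hτ, hle, hb, B, hB, e, hne, hb'⟩ := hA τ hτ
      obtain ⟨p, hp, w, hw, e1, e2, e3, e4⟩ := encode h3 hκ hτ hB e hne
      exact ⟨p, hp, w, ⟨⟨hw, by rw [e2]; exact hle⟩, e3, (le_min hb hb').trans e4⟩, e1⟩

end Crest.Agent.R20
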