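import Crest.Agent.R20.Basic

/-!
# Row 20: from `MainStmt` to the two statements
-/

set_option autoImplicit false

noncomputable section

namespace Crest.Agent.R20

open Crest.NumberTheoryR.TotientScale Finset Filter Topology MeasureTheory

namespace FinalAux

theorem abstract {f θ : ℝ → ℝ} {I : Set ℝ} {c₁ c₂ : ℝ} (hθ : ∀ᶠ x in atTop, θ x ∈ I)
    (hs : ∀ s ∈ I, ∃ᶠ x in atTop, θ x = s)
    (h : ∀ ε : ℝ, 0 < ε → ∃ A : ℝ → ℝ, ∀ᶠ x in atTop, |f x - A (θ x)| ≤ ε)
    (hb : ∀ᶠ x in atTop, c₁ ≤ f x ∧ f x ≤ c₂) :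
    ∃ A : ℝ → ℝ, (∀ s ∈ I, c₁ ≤ A s ∧ A s ≤ c₂) ∧
      Tendsto (fun x => f x - A (θ x)) atTop (𝓝 0) := by
  have key : ∀ s ∈ I, ∀ a b : ℝ, (∀ᶠ x in atTop, θ x = s → a ≤ f x ∧ f x ≤ b) →
      a ≤ limsup f (atTop ⊓ 𝓟 {x | θ x = s}) ∧ limsup f (atTop ⊓ 𝓟 {x | θ x = s}) ≤ b := by
    intro s hsI a b hab
    have : (atTop ⊓ 𝓟 {x | θ x = s}).NeBot := frequently_mem_iff_neBot.1 (hs s hsI)
    have h1 : ∀ᶠ x in atTop ⊓ 𝓟 {x | θ x = s}, a ≤ f x ∧ f x ≤ b := eventually_inf_principal.2 hab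
    exact ⟨le_limsup_of_frequently_le (h1.mono fun x hx => hx.1).frequently
        (isBoundedUnder_of_eventually_le (h1.mono fun x hx => hx.2)),
      limsup_le_of_le (isCoboundedUnder_le_of_eventually_le _ (h1.mono fun x hx => hx.1))
        (h1.mono fun x hx => hx.2)⟩
  refine ⟨fun s => limsup f (atTop ⊓ 𝓟 {x | θ x = s}),
    fun s hsI => key s hsI _ _ (hb.mono fun x hx _ => hx), ?_⟩
  rw [Metric.tendsto_nhds]
  intro ε hε
  obtain ⟨A, hA⟩ := h (ε / 3) (by positivity)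
  filter_upwards [hA, hθ] with x hx hI
  have := key _ hI (A (θ x) - ε / 3) (A (θ x) + ε / 3) (hA.mono fun y hy e => by
    rw [e] at hy; obtain ⟨a, b⟩ := abs_le.1 hy; constructor <;> linarith)
  obtain ⟨a, b⟩ := abs_le.1 hx
  rw [Real.dist_eq, sub_zero, abs_lt]
  constructor <;> linarith [this.1, this.2]

variable {ρ : ℝ}

theorem lam_pos (h0 : 0 < ρ) (h1 : ρ < 1) : 0 < lam ρ := Real.log_pos (one_lt_one_div h0 h1)

theorem exp_neg_lam (h0 : 0 < ρ) : Real.exp (-lam ρ) = ρ := by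
  rw [lam, one_div, Real.log_inv, neg_neg, Real.exp_log h0]

theorem tendsto_logB : Tendsto (fun x => Real.log (bigB x)) atTop atTop :=
  Real.tendsto_log_atTop.comp tendsto_bigB

theorem tendsto_ratio : Tendsto (fun x => phaseArg ρ x / Real.log (bigB x)) atTop (𝓝 (1 / lam ρ)) := by
  have h1 := (Real.isLittleO_log_id_atTop.tendsto_div_nhds_zero).comp tendsto_logB
  have h2 := ((tendsto_const_nhds (x := (1 : ℝ))).sub h1).div_const (lam ρ)
  rw [sub_zero] at h2
  refine h2.congr' ?_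
  filter_upwards [tendsto_logB.eventually_gt_atTop 0] with x hx
  simp only [Function.comp, id, phaseArg]
  field_simp

theorem tendsto_phaseArg (h0 : 0 < ρ) (h1 : ρ < 1) : Tendsto (phaseArg ρ) atTop atTop := by
  refine (tendsto_ratio.pos_mul_atTop (one_div_pos.2 (lam_pos h0 h1)) tendsto_logB).congr' ?_
  filter_upwards [tendsto_logB.eventually_gt_atTop 0] with x hx
  field_simp

theorem phase_mem (h0 : 0 < ρ) (h1 : ρ < 1) : ∀ᶠ x in atTop, phase ρ x ∈ Set.Ico (0 : ℝ) 1 := by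
  filter_upwards [(tendsto_phaseArg h0 h1).eventually_ge_atTop 0] with x hx
  exact ⟨sub_nonneg.2 (Nat.floor_le hx), by
    have := Nat.lt_floor_add_one (phaseArg ρ x); rw [phase, mIndex]; linarith⟩

theorem phase_surj (h0 : 0 < ρ) (h1 : ρ < 1) :
    ∀ s ∈ Set.Ico (0 : ℝ) 1, ∃ᶠ x in atTop, phase ρ x = s := by
  intro s hs
  rw [frequently_atTop]
  intro a
  obtain ⟨X, hX⟩ := eventually_atTop.1 ((eventually_gt_atTop 1).and
    ((tendsto_bigB.eventually_gt_atTop 0).and (tendsto_logB.eventually_gt_atTop 0)))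
  have hc : ContinuousOn (phaseArg ρ) (Set.Ici (max a X)) := by
    intro x hx
    obtain ⟨b1, b2, b3⟩ := hX x ((le_max_right _ _).trans hx)
    have c1 : ContinuousAt bigB x :=
      (Real.continuousAt_log (by linarith)).log (Real.log_pos b1).ne'
    have c2 := c1.log b2.ne'
    exact ((c2.sub (c2.log b3.ne')).div_const _).continuousWithinAt
  obtain ⟨N, hN⟩ := exists_nat_ge (phaseArg ρ (max a X))
  obtain ⟨x, hx, e⟩ := isPreconnected_Ici.intermediate_value_Ici Set.self_mem_Ici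
    (le_principal_iff.2 (Ici_mem_atTop _)) hc (tendsto_phaseArg h0 h1)
    (show (N : ℝ) + s ∈ Set.Ici _ from hN.trans (le_add_of_nonneg_right hs.1))
  refine ⟨x, (le_max_left _ _).trans hx, ?_⟩
  have : mIndex ρ x = N := by
    rw [mIndex, e, Nat.floor_eq_iff (by linarith [hs.1, Nat.cast_nonneg (α := ℝ) N])]
    constructor <;> linarith [hs.1, hs.2]
  rw [phase, this, e]; ring

theorem tendsto_m (h0 : 0 < ρ) (h1 : ρ < 1) :
    Tendsto (fun x => (mIndex ρ x : ℝ) / Real.log (bigB x)) atTop (𝓝 (1 / lam ρ)) := by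
  have h2 : Tendsto (fun x => phase ρ x / Real.log (bigB x)) atTop (𝓝 0) :=
    tendsto_bdd_div_atTop_nhds_zero ((phase_mem h0 h1).mono fun x hx => hx.1)
      ((phase_mem h0 h1).mono fun x hx => hx.2.le) tendsto_logB
  have h3 := (tendsto_ratio (ρ := ρ)).sub h2
  rw [sub_zero] at h3
  refine h3.congr fun x => ?_
  rw [phase]; ring

theorem kap_eq (h0 : 0 < ρ) (h1 : ρ < 1) : ∀ᶠ x in atTop, kap ρ (mIndex ρ x) (bigB x) =
    mIndex ρ x / Real.log (bigB x) * Real.exp (-lam ρ * phase ρ x) := by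
  filter_upwards [tendsto_bigB.eventually_gt_atTop 0, tendsto_logB.eventually_gt_atTop 0]
    with x b2 b3
  have hl := (lam_pos h0 h1).ne'
  have e0 : ρ ^ mIndex ρ x = Real.exp (mIndex ρ x * -lam ρ) := by
    rw [Real.exp_nat_mul, exp_neg_lam h0]
  have e1 : ρ ^ mIndex ρ x * bigB x * Real.exp (-lam ρ * phase ρ x) = Real.log (bigB x) := by
    have e : mIndex ρ x * -lam ρ + Real.log (bigB x) + -lam ρ * phase ρ x =
        Real.log (Real.log (bigB x)) := by
      rw [phase, phaseArg]; field_simp; ring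
    have e' := congrArg Real.exp e
    rwa [Real.exp_add, Real.exp_add, Real.exp_log b2, Real.exp_log b3, ← e0] at e'
  have := pow_pos h0 (mIndex ρ x)
  rw [kap, div_mul_eq_mul_div, div_eq_div_iff (by positivity) b3.ne', ← e1]
  ring

theorem exp_phase {s : ℝ} (h0 : 0 < ρ) (h1 : ρ < 1) (hs : s ∈ Set.Ico (0 : ℝ) 1) :
    ρ ≤ Real.exp (-lam ρ * s) ∧ Real.exp (-lam ρ * s) ≤ 1 := by
  have hl := lam_pos h0 h1
  refine ⟨?_, Real.exp_le_one_iff.2 (by nlinarith [hs.1])⟩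
  conv_lhs => rw [← exp_neg_lam h0]
  exact Real.exp_le_exp.2 (by nlinarith [hs.2])

theorem kap_sub (h0 : 0 < ρ) (h1 : ρ < 1) : Tendsto (fun x => kap ρ (mIndex ρ x) (bigB x) -
    1 / lam ρ * Real.exp (-lam ρ * phase ρ x)) atTop (𝓝 0) := by
  have h2 := (tendsto_m h0 h1).sub_const (1 / lam ρ)
  rw [sub_self] at h2
  have h3 := h2.zero_mul_isBoundedUnder_le (g := fun x => Real.exp (-lam ρ * phase ρ x))
    (isBoundedUnder_of_eventually_le (a := 1) ((phase_mem h0 h1).mono fun x hx => by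
      simpa [Real.norm_of_nonneg (Real.exp_pos _).le] using (exp_phase h0 h1 hx).2))
  refine h3.congr' ?_
  filter_upwards [kap_eq h0 h1] with x hx
  rw [hx]; ring

theorem kap_mem (h0 : 0 < ρ) (h1 : ρ < 1) : ∀ᶠ x in atTop,
    ρ / (2 * lam ρ) ≤ kap ρ (mIndex ρ x) (bigB x) ∧ kap ρ (mIndex ρ x) (bigB x) ≤ 2 / lam ρ := by
  have hl := lam_pos h0 h1
  filter_upwards [Metric.tendsto_nhds.1 (kap_sub h0 h1) (ρ / (2 * lam ρ)) (by positivity),
    phase_mem h0 h1] with x hx hp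
  obtain ⟨a, b⟩ := exp_phase h0 h1 hp
  rw [Real.dist_eq, sub_zero, abs_lt] at hx
  have c := mul_le_mul_of_nonneg_left a (one_div_pos.2 hl).le
  have d := mul_le_mul_of_nonneg_left b (one_div_pos.2 hl).le
  have e1 : 1 / lam ρ * ρ = 2 * (ρ / (2 * lam ρ)) := by field_simp
  have e2 : 2 / lam ρ = 2 * (1 / lam ρ) := by ring
  have e3 : 0 < ρ / (2 * lam ρ) := by positivity
  constructor <;> linarith [hx.1, hx.2]

/-- the parameters used for the final statements. -/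
def par (h0 : 0 < ρ) (h1 : ρ < 1) (hs : HasSum (fun j : ℕ => aCoef (j + 1) * ρ ^ (j + 1)) 1) :
    Par where
  ρ := ρ
  ϱ := ρ⁻¹ ^ ((20 : ℕ) : ℝ)⁻¹
  κ₁ := ρ / (4 * lam ρ)
  κ₂ := 4 / lam ρ
  ρ_pos := h0
  ρ_lt := h1
  sum := hs
  one_lt := Real.one_lt_rpow ((one_lt_inv₀ h0).2 h1) (by norm_num)
  pow := by rw [Real.rpow_inv_natCast_pow (inv_pos.2 h0).le (by norm_num), inv_mul_cancel₀ h0.ne']
  κ_pos := by have := lam_pos h0 h1; positivity

theorem close {A u v : ℝ → ℝ} (hA : Continuous A) {a b : ℝ}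
    (hu : ∀ᶠ x in atTop, u x ∈ Set.Icc a b) (hv : ∀ᶠ x in atTop, v x ∈ Set.Icc a b)
    (h : Tendsto (fun x => u x - v x) atTop (𝓝 0)) {ε : ℝ} (hε : 0 < ε) :
    ∀ᶠ x in atTop, |A (u x) - A (v x)| ≤ ε := by
  obtain ⟨θ, hθ, hc⟩ := Metric.uniformContinuousOn_iff_le.1
    ((isCompact_Icc (a := a) (b := b)).uniformContinuousOn_of_continuous hA.continuousOn) ε hε
  filter_upwards [hu, hv, Metric.tendsto_nhds.1 h θ hθ] with x a b c
  rw [Real.dist_eq, sub_zero] at c
  exact hc _ a _ b c.le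

theorem par_Sc (h0 : 0 < ρ) (h1 : ρ < 1)
    (hs : HasSum (fun j : ℕ => aCoef (j + 1) * ρ ^ (j + 1)) 1) {m : ℕ} {B t : ℝ} (hB : 0 < B)
    (h : ρ / (2 * lam ρ) ≤ kap ρ m B ∧ kap ρ m B ≤ 2 / lam ρ) (t1 : 1 / 2 ≤ t) (t2 : t ≤ 2) :
    (par h0 h1 hs).Sc m (B * t) := by
  have hl := lam_pos h0 h1
  have ht : 0 < t := by linarith
  have e : kap ρ m (B * t) = kap ρ m B / t := by rw [kap, kap, div_div, mul_assoc]
  have e1 : ρ / (2 * lam ρ) = 2 * (ρ / (4 * lam ρ)) := by field_simp; norm_num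
  have e2 : 4 / lam ρ = 2 * (2 / lam ρ) := by ring
  have e3 : 0 < ρ / (4 * lam ρ) := by positivity
  have e4 : 0 < 2 / lam ρ := by positivity
  refine ⟨mul_pos hB ht, ?_, ?_⟩
  · change ρ / (4 * lam ρ) ≤ kap ρ m (B * t)
    rw [e, le_div_iff₀ ht]; nlinarith [h.1]
  · change kap ρ m (B * t) ≤ 4 / lam ρ
    rw [e, div_le_iff₀ ht]; nlinarith [h.2]

theorem Sc_self (h0 : 0 < ρ) (h1 : ρ < 1)
    (hs : HasSum (fun j : ℕ => aCoef (j + 1) * ρ ^ (j + 1)) 1) :
    ∀ᶠ x in atTop, (par h0 h1 hs).Sc (mIndex ρ x) (bigB x) := by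
  filter_upwards [kap_mem h0 h1, tendsto_bigB.eventually_gt_atTop 0] with x a b
  simpa using par_Sc h0 h1 hs b a (t := 1) (by norm_num) (by norm_num)

theorem log_ratio {c : ℝ} (hc : 0 < c) :
    Tendsto (fun x => Real.log (c * x) / Real.log x) atTop (𝓝 1) := by
  have h := (tendsto_const_nhds (x := Real.log c)).div_atTop Real.tendsto_log_atTop |>.add_const 1
  rw [zero_add] at h
  refine h.congr' ?_
  filter_upwards [eventually_gt_atTop 1] with x hx
  have := (Real.log_pos hx).ne'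
  rw [Real.log_mul hc.ne' (by linarith)]
  field_simp

theorem bigB_sub {c : ℝ} (hc : 0 < c) :
    Tendsto (fun x => bigB (c * x) - bigB x) atTop (𝓝 0) := by
  have h := (log_ratio hc).log one_ne_zero
  rw [Real.log_one] at h
  refine h.congr' ?_
  filter_upwards [eventually_gt_atTop 1,
    (tendsto_id.const_mul_atTop hc).eventually_gt_atTop 1] with x a b
  exact Real.log_div (Real.log_pos b).ne' (Real.log_pos a).ne'

theorem bigB_ratio {c : ℝ} (hc : 0 < c) :
    Tendsto (fun x => bigB (c * x) / bigB x) atTop (𝓝 1) := by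
  have h := ((bigB_sub hc).div_atTop tendsto_bigB).add_const 1
  rw [zero_add] at h
  refine h.congr' ?_
  filter_upwards [tendsto_bigB.eventually_gt_atTop 0] with x a
  field_simp
  ring

theorem bigB_ratio_pow (h0 : 0 < ρ) (h1 : ρ < 1) {c : ℝ} (hc : 0 < c) :
    Tendsto (fun x => (bigB (c * x) / bigB x) ^ mIndex ρ x) atTop (𝓝 1) := by
  have a1 := (Real.isLittleO_log_id_atTop.tendsto_div_nhds_zero).comp tendsto_bigB
  have a2 := ((tendsto_m h0 h1).mul a1).mul (bigB_sub hc)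
  have a3 := a2.div (bigB_ratio hc) one_ne_zero
  simp only [mul_zero, zero_div] at a2 a3
  have hpos := (bigB_ratio hc).eventually_const_lt one_half_lt_one
  have a4 : Tendsto (fun x => mIndex ρ x * Real.log (bigB (c * x) / bigB x)) atTop (𝓝 0) := by
    refine tendsto_of_tendsto_of_tendsto_of_le_of_le' a3 a2 ?_ ?_
    all_goals
      filter_upwards [hpos, tendsto_bigB.eventually_gt_atTop 0,
        tendsto_logB.eventually_gt_atTop 0] with x p1 p2 p3
      have p0 : 0 < bigB (c * x) / bigB x := by linarith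
      have p4 : 0 < bigB (c * x) := (div_pos_iff_of_pos_right p2).1 p0
    · refine le_trans (le_of_eq ?_) (mul_le_mul_of_nonneg_left
        (Real.one_sub_inv_le_log_of_pos p0) (Nat.cast_nonneg _))
      simp only [Function.comp, id, Pi.div_apply]
      field_simp
    · refine le_trans (mul_le_mul_of_nonneg_left (Real.log_le_sub_one_of_pos p0)
        (Nat.cast_nonneg _)) (le_of_eq ?_)
      simp only [Function.comp, id]
      field_simp
  have a5 := a4.rexp
  rw [Real.exp_zero] at a5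
  refine a5.congr' ?_
  filter_upwards [hpos] with x p1
  rw [Real.exp_nat_mul, Real.exp_log (by linarith)]

end FinalAux

open FinalAux in
theorem final27 (hM : MainStmt) (ρ : ℝ) (hρ0 : 0 < ρ) (hρ1 : ρ < 1)
    (hρ : HasSum (fun j : ℕ => aCoef (j + 1) * ρ ^ (j + 1)) 1) :
    ∃ A : ℝ → ℝ, (∃ c₁ c₂ : ℝ, 0 < c₁ ∧ ∀ s ∈ Set.Ico (0 : ℝ) 1, c₁ ≤ A s ∧ A s ≤ c₂) ∧
      Tendsto (fun x : ℝ =>
          (totientCount x : ℝ) / (x / Real.log x * scaleG ρ x * A (phase ρ x)))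
        atTop (𝓝 1) := by
  obtain ⟨⟨c₁, c₂, hc₁, hb⟩, hA⟩ := hM (par hρ0 hρ1 hρ)
  have hS := Sc_self hρ0 hρ1 hρ
  have hl := lam_pos hρ0 hρ1
  obtain ⟨A, hA1, hA2⟩ := abstract (f := fun x => ff x (mIndex ρ x)) (c₁ := c₁) (c₂ := c₂)
    (phase_mem hρ0 hρ1) (phase_surj hρ0 hρ1) (fun ε hε => by
      obtain ⟨A, hc, hA⟩ := hA (ε / 2) (by positivity)
      refine ⟨fun s => A (1 / lam ρ * Real.exp (-lam ρ * s)), ?_⟩
      have hv : ∀ᶠ x in atTop, 1 / lam ρ * Real.exp (-lam ρ * phase ρ x) ∈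
          Set.Icc 0 (2 / lam ρ) := (phase_mem hρ0 hρ1).mono fun x hx => ⟨by positivity, by
        rw [one_div, inv_mul_eq_div]
        exact div_le_div_of_nonneg_right (by linarith [(exp_phase hρ0 hρ1 hx).2]) hl.le⟩
      have hu : ∀ᶠ x in atTop, kap ρ (mIndex ρ x) (bigB x) ∈ Set.Icc 0 (2 / lam ρ) :=
        (kap_mem hρ0 hρ1).mono fun x hx => ⟨le_trans (by positivity) hx.1, hx.2⟩
      filter_upwards [hA, hS, close hc hu hv (kap_sub hρ0 hρ1) (half_pos hε)] with x a b c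
      have := a _ b
      change |_ - A (kap ρ (mIndex ρ x) (bigB x))| ≤ _ at this
      linarith [abs_sub_le (ff x (mIndex ρ x)) (A (kap ρ (mIndex ρ x) (bigB x)))
        (A (1 / lam ρ * Real.exp (-lam ρ * phase ρ x)))])
    (by filter_upwards [hb, hS] with x a b using a _ b)
  refine ⟨A, ⟨c₁, c₂, hc₁, hA1⟩, ?_⟩
  have hA3 : ∀ᶠ x in atTop, c₁ ≤ A (phase ρ x) := (phase_mem hρ0 hρ1).mono fun x hx => (hA1 _ hx).1
  have h3 := (hA2.zero_mul_isBoundedUnder_le (g := fun x => (A (phase ρ x))⁻¹)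
    (isBoundedUnder_of_eventually_le (a := c₁⁻¹) (hA3.mono fun x hx => by
      simpa [abs_of_pos (hc₁.trans_le hx)] using inv_anti₀ hc₁ hx))).add_const 1
  rw [zero_add] at h3
  refine h3.congr' ?_
  filter_upwards [hA3] with x hx
  have := (hc₁.trans_le hx).ne'
  rw [← div_div]
  change _ = ff x (mIndex ρ x) / _
  field_simp
  ring

open FinalAux in
theorem final26 (hR : RenewStmt) (hM : MainStmt) (c : ℝ) (hc : 0 < c) :
    Tendsto (fun x : ℝ => (totientCount (c * x) : ℝ) / totientCount x) atTop (𝓝 c) := by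
  obtain ⟨ρ, hρ0, hρ1, hρ⟩ := hR.1
  obtain ⟨⟨c₁, c₂, hc₁, hb⟩, hA⟩ := hM (par hρ0 hρ1 hρ)
  have hS := Sc_self hρ0 hρ1 hρ
  have hl := lam_pos hρ0 hρ1
  have hcx : Tendsto (fun x : ℝ => c * x) atTop atTop := tendsto_id.const_mul_atTop hc
  have hS' : ∀ᶠ x in atTop, (par hρ0 hρ1 hρ).Sc (mIndex ρ x) (bigB (c * x)) := by
    filter_upwards [kap_mem hρ0 hρ1, tendsto_bigB.eventually_gt_atTop 0,
      (bigB_ratio hc).eventually_const_le one_half_lt_one,
      (bigB_ratio hc).eventually_le_const one_lt_two] with x a b d e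
    have := par_Sc hρ0 hρ1 hρ b a d e
    rwa [mul_div_cancel₀ _ b.ne'] at this
  have hk : Tendsto (fun x => kap ρ (mIndex ρ x) (bigB (c * x)) - kap ρ (mIndex ρ x) (bigB x))
      atTop (𝓝 0) := by
    have h1 := ((bigB_ratio hc).inv₀ one_ne_zero).sub_const 1
    rw [inv_one, sub_self] at h1
    have h2 := h1.zero_mul_isBoundedUnder_le (g := fun x => kap ρ (mIndex ρ x) (bigB x))
      (isBoundedUnder_of_eventually_le (a := 2 / lam ρ) ((kap_mem hρ0 hρ1).mono fun x hx => by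
        have : 0 ≤ kap ρ (mIndex ρ x) (bigB x) := le_trans (by positivity) hx.1
        simpa [abs_of_nonneg this] using hx.2))
    refine h2.congr' ?_
    filter_upwards [hS, hS'] with x a b
    have := a.1.ne'
    have := b.1.ne'
    simp only [kap]
    field_simp
  have hd : Tendsto (fun x => ff (c * x) (mIndex ρ x) - ff x (mIndex ρ x)) atTop (𝓝 0) := by
    rw [Metric.tendsto_nhds]
    intro ε hε
    obtain ⟨A, hAc, hA⟩ := hA (ε / 4) (by positivity)
    filter_upwards [hA, hcx.eventually hA, hS, hS', close hAc (hS'.mono fun x hx => hx.2)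
      (hS.mono fun x hx => hx.2) hk (by positivity : 0 < ε / 4)] with x a b d e f
    obtain ⟨a1, a2⟩ := abs_le.1 (a _ d)
    obtain ⟨b1, b2⟩ := abs_le.1 (b _ e)
    obtain ⟨f1, f2⟩ := abs_le.1 f
    rw [Real.dist_eq, sub_zero, abs_lt]
    constructor <;> linarith
  have hf : ∀ᶠ x in atTop, c₁ ≤ ff x (mIndex ρ x) := by
    filter_upwards [hb, hS] with x a b using (a _ b).1
  have h3 := (hd.zero_mul_isBoundedUnder_le (g := fun x => (ff x (mIndex ρ x))⁻¹)
    (isBoundedUnder_of_eventually_le (a := c₁⁻¹) (hf.mono fun x hx => by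
      simpa [abs_of_pos (hc₁.trans_le hx)] using inv_anti₀ hc₁ hx))).add_const 1
  have h4 := ((h3.mul ((log_ratio hc).inv₀ one_ne_zero)).mul
    (bigB_ratio_pow hρ0 hρ1 hc)).const_mul c
  simp only [zero_add, inv_one, mul_one] at h4
  refine h4.congr' ?_
  filter_upwards [hf, hS, hS', eventually_gt_atTop 1, hcx.eventually_gt_atTop 1] with x a b d e f
  have p1 := (hc₁.trans_le a).ne'
  have p2 := (Real.log_pos e).ne'
  have p3 := (Real.log_pos f).ne'
  have p4 := (G_pos (mIndex ρ x) b.1).ne'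
  have p5 := (G_pos (mIndex ρ x) d.1).ne'
  have p6 : x ≠ 0 := by linarith
  have p7 : (bigB (c * x) / bigB x) ^ mIndex ρ x =
      G (mIndex ρ x) (bigB (c * x)) / G (mIndex ρ x) (bigB x) := by
    rw [G, G, div_pow, div_div_div_cancel_right₀]
    exact (mul_pos (by exact_mod_cast (mIndex ρ x).factorial_pos)
      (prod_pos fun i _ => gSeq_pos _)).ne'
  have p8 : (totientCount x : ℝ) ≠ 0 := fun h => p1 (by rw [ff, h, zero_div])
  rw [p7, sub_mul, mul_inv_cancel₀ p1, sub_add_cancel, ff, ff]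
  field_simp

end Crest.Agent.R20
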