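import Crest.Agent.R20.Basic

/-!
# Row 20: sums of simplex volumes (`GsumStmt`)
-/

set_option autoImplicit false

noncomputable section

namespace Crest.Agent.R20

open Crest.NumberTheoryR.TotientScale Finset Filter Topology MeasureTheory
open scoped ENNReal ArithmeticFunction.Omega

namespace GsumAux

/-- the upper bound for the ratios. -/
def k2 (p : Par) : ℝ := max p.κ₂ 1

theorem k2_pos (p : Par) : 0 < k2 p := lt_of_lt_of_le one_pos (le_max_right _ _)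

/-- `π_j = ∏_{i<j} k₂ ρ^i`. -/
def pi (p : Par) (j : ℕ) : ℝ := ∏ i ∈ range j, (k2 p * p.ρ ^ i)

theorem pi_pos (p : Par) (j : ℕ) : 0 < pi p j :=
  prod_pos fun i _ => mul_pos (k2_pos p) (pow_pos p.ρ_pos i)

theorem pi_succ (p : Par) (j : ℕ) : pi p (j + 1) = pi p j * (k2 p * p.ρ ^ j) := prod_range_succ _ _

theorem G_eq (L : ℕ) {B : ℝ} (hB : 0 < B) :
    G L B = G (L + 1) B * (((L : ℝ) + 1) * gSeq (L + 1) / B) := by
  have h := gSeq_pos (L + 1)
  rw [G_succ]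
  field_simp

theorem tendsto_q (p : Par) (a : ℝ) : Tendsto (fun K : ℕ => a * p.ρ ^ K) atTop (𝓝 0) := by
  simpa using (tendsto_pow_atTop_nhds_zero_of_lt_one p.ρ_pos.le p.ρ_lt).const_mul a

theorem summable_pi (p : Par) {y : ℝ} (hy : 0 < y) : Summable fun j => pi p j * y ^ j := by
  refine summable_of_ratio_norm_eventually_le (r := 1 / 2) (by norm_num) ?_
  filter_upwards [(tendsto_q p (k2 p * y)).eventually (ge_mem_nhds (by norm_num : (0 : ℝ) < 1 / 2))]
    with j hj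
  have h1 := pi_pos p j
  have h2 := pi_pos p (j + 1)
  rw [Real.norm_of_nonneg (by positivity), Real.norm_of_nonneg (by positivity), pi_succ, pow_succ]
  calc pi p j * (k2 p * p.ρ ^ j) * (y ^ j * y) = (k2 p * y * p.ρ ^ j) * (pi p j * y ^ j) := by ring
    _ ≤ 1 / 2 * (pi p j * y ^ j) := mul_le_mul_of_nonneg_right hj (by positivity)

section
variable {p : Par} {m : ℕ} {B : ℝ}

theorem step_up (hg : ∀ k, gSeq k * p.ρ ^ k ≤ 1) (hS : p.Sc m B) {L j : ℕ} (h : L + 1 + j = m) :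
    G L B ≤ k2 p * p.ρ ^ j * G (L + 1) B := by
  obtain ⟨hB, -, h2⟩ := hS
  have hρ := p.ρ_pos
  rw [G_eq L hB, mul_comm]
  refine mul_le_mul_of_nonneg_right ?_ (G_pos _ hB).le
  have h3 : kap p.ρ m B ≤ k2 p := h2.trans (le_max_left _ _)
  have h4 : ((L : ℝ) + 1) ≤ m := by rw [← h]; push_cast; linarith [Nat.cast_nonneg (α := ℝ) j]
  have h5 : gSeq (L + 1) ≤ 1 / p.ρ ^ (L + 1) := by
    rw [le_div_iff₀ (by positivity)]; exact hg _
  have h6 := gSeq_pos (L + 1)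
  calc ((L : ℝ) + 1) * gSeq (L + 1) / B ≤ m * (1 / p.ρ ^ (L + 1)) / B := by gcongr
    _ = kap p.ρ m B * p.ρ ^ j := by
        rw [kap]
        conv_rhs => rw [show p.ρ ^ m = p.ρ ^ (L + 1) * p.ρ ^ j by rw [← pow_add, h]]
        field_simp
    _ ≤ k2 p * p.ρ ^ j := by gcongr

theorem step_down {c : ℝ} (hc : 0 < c) (hg : ∀ k, c ≤ gSeq k * p.ρ ^ k) (hS : p.Sc m B)
    {L j K : ℕ} (h : L + 1 + j = m) (hj : j ≤ K) (hK : 2 * K ≤ m) :
    c * p.κ₁ * p.ρ ^ K / 2 * G (L + 1) B ≤ G L B := by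
  obtain ⟨hB, h2, -⟩ := hS
  have hρ := p.ρ_pos
  have hκ := p.κ_pos
  rw [G_eq L hB, mul_comm]
  refine mul_le_mul_of_nonneg_left ?_ (G_pos _ hB).le
  have h4 : (m : ℝ) / 2 ≤ (L : ℝ) + 1 := by
    have : m ≤ 2 * (L + 1) := by omega
    have : (m : ℝ) ≤ 2 * ((L : ℝ) + 1) := by exact_mod_cast this
    linarith
  have h5 : c / p.ρ ^ (L + 1) ≤ gSeq (L + 1) := by
    rw [div_le_iff₀ (by positivity)]; exact hg _
  have h7 : p.ρ ^ K ≤ p.ρ ^ j := pow_le_pow_of_le_one hρ.le p.ρ_lt.le hj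
  calc c * p.κ₁ * p.ρ ^ K / 2 ≤ c * kap p.ρ m B * p.ρ ^ j / 2 := by
        have : 0 ≤ kap p.ρ m B := hκ.le.trans h2
        gcongr
    _ = (m : ℝ) / 2 * (c / p.ρ ^ (L + 1)) / B := by
        rw [kap]
        conv_lhs => rw [show p.ρ ^ m = p.ρ ^ (L + 1) * p.ρ ^ j by rw [← pow_add, h]]
        field_simp
    _ ≤ ((L : ℝ) + 1) * gSeq (L + 1) / B := by gcongr

theorem G_le (hg : ∀ k, gSeq k * p.ρ ^ k ≤ 1) (hS : p.Sc m B) (j : ℕ) :
    ∀ L, L + j = m → G L B ≤ pi p j * G m B := by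
  induction j with
  | zero => intro L h; simp [pi, ← h]
  | succ j ih =>
    intro L h
    have h1 := step_up hg hS (L := L) (j := j) (by omega)
    have h2 := ih (L + 1) (by omega)
    have h3 : 0 < k2 p * p.ρ ^ j := mul_pos (k2_pos p) (pow_pos p.ρ_pos j)
    calc G L B ≤ k2 p * p.ρ ^ j * G (L + 1) B := h1
      _ ≤ k2 p * p.ρ ^ j * (pi p j * G m B) := by gcongr
      _ = pi p (j + 1) * G m B := by rw [pi_succ]; ring

theorem sum_le (hg : ∀ k, gSeq k * p.ρ ^ k ≤ 1) (hS : p.Sc m B) {K : ℕ}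
    (hq : k2 p * p.ρ ^ K ≤ 1 / 2) (n : ℕ) (hn : n + K ≤ m) :
    ∑ L ∈ range n, G L B ≤ 2 * (k2 p * p.ρ ^ K) * G n B := by
  have hB := hS.1
  have hk := k2_pos p
  have hρ := p.ρ_pos
  induction n with
  | zero => simp only [range_zero, sum_empty, G_zero]; positivity
  | succ n ih =>
    have h1 := ih (by omega)
    have h2 := step_up hg hS (L := n) (j := m - (n + 1)) (by omega)
    have h3 : p.ρ ^ (m - (n + 1)) ≤ p.ρ ^ K := pow_le_pow_of_le_one hρ.le p.ρ_lt.le (by omega)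
    have h4 := G_pos n hB
    have h5 := G_pos (n + 1) hB
    have h6 : G n B ≤ k2 p * p.ρ ^ K * G (n + 1) B := h2.trans (by gcongr)
    have h7 : 2 * (k2 p * p.ρ ^ K) * G n B ≤ 1 * G n B :=
      mul_le_mul_of_nonneg_right (by linarith) h4.le
    rw [sum_range_succ]
    linarith

theorem sum_flip_le {f : ℕ → ℝ} (hf : Summable f) (h0 : ∀ j, 0 ≤ f j) (m : ℕ) {s : Finset ℕ}
    (hs : s ⊆ range (m + 1)) : ∑ L ∈ s, f (m - L) ≤ ∑' j, f j :=
  calc ∑ L ∈ s, f (m - L) ≤ ∑ L ∈ range (m + 1), f (m - L) :=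
        sum_le_sum_of_subset_of_nonneg hs fun _ _ _ => h0 _
    _ = ∑ j ∈ range (m + 1), f j := sum_flip f
    _ ≤ ∑' j, f j := hf.sum_le_tsum _ fun j _ => h0 j

theorem geo_le {c : ℝ} (hc : 0 < c) {M L : ℕ} (h : M ≤ L) :
    ∑ k ∈ range (M + 1), 1 / (1 + c) ^ (L - 1 - k) ≤
      (1 + c) * (1 - (1 + c)⁻¹)⁻¹ * (1 + c)⁻¹ ^ (L - M) := by
  have h1 : (1 : ℝ) < 1 + c := by linarith
  have h0 : (0 : ℝ) < 1 + c := by linarith
  have hr : (1 + c)⁻¹ < 1 := inv_lt_one_of_one_lt₀ h1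
  have hr0 : 0 ≤ (1 + c)⁻¹ := by positivity
  have h2 : ∑ k ∈ range (M + 1), (1 + c)⁻¹ ^ (M - k) ≤ (1 - (1 + c)⁻¹)⁻¹ := by
    rw [← tsum_geometric_of_lt_one hr0 hr]
    exact sum_flip_le (summable_geometric_of_lt_one hr0 hr) (fun j => by positivity) M
      (Subset.refl _)
  calc ∑ k ∈ range (M + 1), 1 / (1 + c) ^ (L - 1 - k)
      ≤ ∑ k ∈ range (M + 1), (1 + c) * (1 + c)⁻¹ ^ (L - M) * (1 + c)⁻¹ ^ (M - k) := by
        refine sum_le_sum fun k hk => ?_
        have hk' : k ≤ M := by simpa [Nat.lt_succ_iff] using hk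
        rw [mul_assoc, ← pow_add, inv_pow, ← div_eq_mul_inv,
          div_le_div_iff₀ (by positivity) (by positivity), one_mul, ← pow_succ']
        exact pow_le_pow_right₀ h1.le (by omega)
    _ = (1 + c) * (1 + c)⁻¹ ^ (L - M) * ∑ k ∈ range (M + 1), (1 + c)⁻¹ ^ (M - k) := by
        rw [mul_sum]
    _ ≤ (1 + c) * (1 + c)⁻¹ ^ (L - M) * (1 - (1 + c)⁻¹)⁻¹ := by gcongr
    _ = _ := by ring

theorem le_G {c : ℝ} (hc : 0 < c) (hg : ∀ k, c ≤ gSeq k * p.ρ ^ k) (hS : p.Sc m B) {K : ℕ}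
    (hK : 2 * K ≤ m) (j : ℕ) (hj : j ≤ K) :
    ∀ L, L + j = m → (c * p.κ₁ * p.ρ ^ K / 2) ^ j * G m B ≤ G L B := by
  have hρ := p.ρ_pos
  have hκ := p.κ_pos
  induction j with
  | zero => intro L h; simp [← h]
  | succ j ih =>
    intro L h
    have h1 := step_down hc hg hS (L := L) (j := j) (K := K) (by omega) (by omega) hK
    have h2 := ih (by omega) (L + 1) (by omega)
    calc (c * p.κ₁ * p.ρ ^ K / 2) ^ (j + 1) * G m B
        = c * p.κ₁ * p.ρ ^ K / 2 * ((c * p.κ₁ * p.ρ ^ K / 2) ^ j * G m B) := by ring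
      _ ≤ c * p.κ₁ * p.ρ ^ K / 2 * G (L + 1) B := by gcongr
      _ ≤ G L B := h1

end

end GsumAux

open GsumAux in
theorem gsum (hR : RenewStmt) : GsumStmt := by
  intro p
  obtain ⟨⟨c₀, hc₀, hg⟩, -⟩ := hR.2 p
  have hu : ∀ k, gSeq k * p.ρ ^ k ≤ 1 := fun k => (hg k).2
  have hl : ∀ k, c₀ ≤ gSeq k * p.ρ ^ k := fun k => (hg k).1
  have hs1 : Summable (pi p) := by simpa using summable_pi p one_pos
  refine ⟨⟨max 1 (∑' j, pi p j), le_max_left _ _, fun m B hS => ?_⟩, fun ε hε => ?_,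
    fun c ε hc hε => ?_, fun K => ?_⟩
  · have hG := G_pos m hS.1
    calc ∑ L ∈ range m, G L B ≤ ∑ L ∈ range m, pi p (m - L) * G m B :=
          sum_le_sum fun L hL => G_le hu hS _ _ (by have := mem_range.1 hL; omega)
      _ = (∑ L ∈ range m, pi p (m - L)) * G m B := by rw [sum_mul]
      _ ≤ max 1 (∑' j, pi p j) * G m B := by
          refine mul_le_mul_of_nonneg_right (le_trans ?_ (le_max_right _ _)) hG.le
          exact sum_flip_le hs1 (fun j => (pi_pos p j).le) m (range_mono (by omega))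
  · filter_upwards [(tendsto_q p (k2 p)).eventually (ge_mem_nhds (by norm_num : (0 : ℝ) < 1 / 2)),
      (tendsto_q p (k2 p)).eventually (ge_mem_nhds (half_pos hε)),
      hs1.tendsto_atTop_zero.eventually (ge_mem_nhds (half_pos hε))] with K h1 h2 h3
    intro m B hS hK
    have h4 := sum_le hu hS h1 (m - K) (by omega)
    have h5 := G_pos (m - K) hS.1
    have h6 := G_pos m hS.1
    have h7 := G_le hu hS K (m - K) (by omega)
    refine ⟨h4.trans (mul_le_mul_of_nonneg_right (by linarith) h5.le), ?_⟩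
    have h8 : 2 * (k2 p * p.ρ ^ K) * G (m - K) B ≤ 1 * G (m - K) B :=
      mul_le_mul_of_nonneg_right (by linarith) h5.le
    have h9 : pi p K * G m B ≤ ε / 2 * G m B := mul_le_mul_of_nonneg_right h3 h6.le
    rw [sum_range_succ]
    linarith
  · have h1 : (1 : ℝ) < 1 + c := by linarith
    have h0 : (0 : ℝ) < 1 + c := by linarith
    have hr : (1 + c)⁻¹ < 1 := inv_lt_one_of_one_lt₀ h1
    have hr0 : 0 ≤ (1 + c)⁻¹ := by positivity
    have hr1 : 0 ≤ (1 - (1 + c)⁻¹)⁻¹ := inv_nonneg.2 (by linarith)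
    have hs := summable_pi p h0
    have ht : Tendsto (fun K : ℕ => (1 + c) * (1 - (1 + c)⁻¹)⁻¹ * (∑' j, pi p j * (1 + c) ^ j) *
        (1 + c)⁻¹ ^ K) atTop (𝓝 0) := by
      simpa using (tendsto_pow_atTop_nhds_zero_of_lt_one hr0 hr).const_mul
        ((1 + c) * (1 - (1 + c)⁻¹)⁻¹ * ∑' j, pi p j * (1 + c) ^ j)
    filter_upwards [ht.eventually (ge_mem_nhds hε)] with K hK
    intro m B hS hKm
    have hG := G_pos m hS.1
    rw [sum_comm]
    calc ∑ L ∈ Ico (m - K) m, ∑ k ∈ range (m - K + 1), G L B / (1 + c) ^ (L - 1 - k)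
        ≤ ∑ L ∈ Ico (m - K) m, (1 + c) * (1 - (1 + c)⁻¹)⁻¹ * (1 + c)⁻¹ ^ K * G m B *
            (pi p (m - L) * (1 + c) ^ (m - L)) := by
          refine sum_le_sum fun L hL => ?_
          obtain ⟨hL1, hL2⟩ := mem_Ico.1 hL
          have h2 := geo_le hc hL1
          have h3 := G_le hu hS (m - L) L (by omega)
          have h4 := G_pos L hS.1
          have h5 : (1 + c)⁻¹ ^ (L - (m - K)) = (1 + c)⁻¹ ^ K * (1 + c) ^ (m - L) := by
            conv_rhs => rw [show K = (L - (m - K)) + (m - L) by omega, pow_add, mul_assoc,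
              ← mul_pow, inv_mul_cancel₀ h0.ne', one_pow, mul_one]
          calc ∑ k ∈ range (m - K + 1), G L B / (1 + c) ^ (L - 1 - k)
              = G L B * ∑ k ∈ range (m - K + 1), 1 / (1 + c) ^ (L - 1 - k) := by
                rw [mul_sum]
                exact sum_congr rfl fun k _ => by ring
            _ ≤ (pi p (m - L) * G m B) *
                ((1 + c) * (1 - (1 + c)⁻¹)⁻¹ * (1 + c)⁻¹ ^ (L - (m - K))) :=
                mul_le_mul h3 h2 (by positivity) (h4.le.trans h3)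
            _ = _ := by rw [h5]; ring
      _ = (1 + c) * (1 - (1 + c)⁻¹)⁻¹ * (1 + c)⁻¹ ^ K * G m B *
            ∑ L ∈ Ico (m - K) m, pi p (m - L) * (1 + c) ^ (m - L) := by rw [mul_sum]
      _ ≤ (1 + c) * (1 - (1 + c)⁻¹)⁻¹ * (1 + c)⁻¹ ^ K * G m B * ∑' j, pi p j * (1 + c) ^ j := by
          refine mul_le_mul_of_nonneg_left ?_ (by positivity)
          refine sum_flip_le (f := fun j => pi p j * (1 + c) ^ j) hs
            (fun j => mul_nonneg (pi_pos p j).le (by positivity)) m fun L hL => ?_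
          have := (mem_Ico.1 hL).2
          exact mem_range.2 (by omega)
      _ = (1 + c) * (1 - (1 + c)⁻¹)⁻¹ * (∑' j, pi p j * (1 + c) ^ j) * (1 + c)⁻¹ ^ K * G m B := by
          ring
      _ ≤ ε * G m B := mul_le_mul_of_nonneg_right hK hG.le
  · have hρ := p.ρ_pos
    have hκ := p.κ_pos
    refine ⟨(c₀ * p.κ₁ * p.ρ ^ K / 2) ^ K, by positivity, ?_⟩
    filter_upwards [eventually_ge_atTop (2 * K)] with m hm B hS
    exact le_G hc₀ hl hS hm K le_rfl _ (by omega)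

end Crest.Agent.R20
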