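import Crest.Agent.R20.Basic

/-!
# Row 20: the a priori bound `LStmt`
-/

set_option autoImplicit false

noncomputable section

namespace Crest.Agent.R20

open Crest.NumberTheoryR.TotientScale Finset Filter Topology MeasureTheory
open scoped ENNReal ArithmeticFunction.Omega

namespace LAux

theorem H_one : H {1} ≤ 1 := by
  unfold H Mass
  rw [tsum_singleton 1 (fun a : ℕ => (((id a : ℕ) : ℝ≥0∞))⁻¹)]
  simp

/-- values `q - 1` or `q`. -/
def F (S : Set ℕ) : Set ℕ := {v | ∃ q ∈ S, v = q - 1 ∨ v = q}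

/-- values `q (q - 1)` or `q q`. -/
def F2 (S : Set ℕ) : Set ℕ := {v | ∃ q ∈ S, v = q * (q - 1) ∨ v = q * q}

theorem H_F_le (S : Set ℕ) : H (F S) ≤ 2 * Mass (fun q => q - 1) S := by
  have h1 : F S ⊆ (fun q => q - 1) '' S ∪ id '' S := by
    rintro v ⟨q, hq, rfl | rfl⟩
    · exact Or.inl ⟨q, hq, rfl⟩
    · exact Or.inr ⟨_, hq, rfl⟩
  refine (Mass_mono h1).trans ((Mass_union_le _ _).trans ?_)
  rw [two_mul]
  refine add_le_add (H_image_le _ _) ((H_image_le _ _).trans ?_)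
  exact Mass_le_of_injOn id (Set.injOn_id _) (Set.mapsTo_id _) fun a _ => Nat.sub_le _ _

theorem H_F2_le (S : Set ℕ) : H (F2 S) ≤ 2 * Mass (fun q => q * (q - 1)) S := by
  have h1 : F2 S ⊆ (fun q => q * (q - 1)) '' S ∪ (fun q => q * q) '' S := by
    rintro v ⟨q, hq, rfl | rfl⟩
    · exact Or.inl ⟨q, hq, rfl⟩
    · exact Or.inr ⟨_, hq, rfl⟩
  refine (Mass_mono h1).trans ((Mass_union_le _ _).trans ?_)
  rw [two_mul]
  refine add_le_add (H_image_le _ _) ((H_image_le _ _).trans ?_)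
  exact Mass_le_of_injOn id (Set.injOn_id _) (Set.mapsTo_id _) fun a _ =>
    Nat.mul_le_mul_left _ (Nat.sub_le _ _)

theorem totient_sq {q n : ℕ} (hq : q.Prime) (h : q ^ 2 ∣ n) :
    n.totient = q * (q - 1) * (n / q / q).totient ∨ n.totient = q * q * (n / q / q).totient := by
  obtain ⟨m, rfl⟩ := h
  have e1 : q ^ 2 * m / q = q * m := by
    rw [pow_two, mul_assoc, Nat.mul_div_cancel_left _ hq.pos]
  have e2 : (q ^ 2 * m).totient = q * (q * m).totient := by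
    rw [pow_two, mul_assoc]
    exact Nat.totient_mul_of_prime_of_dvd hq (dvd_mul_right _ _)
  rw [e1, e2]
  rcases totient_cases hq (dvd_mul_right q m) with h | h
  · left; rw [h]; ring
  · right; rw [h]; ring

theorem div_mem_Sm {n q c : ℕ} (hn : n ∈ Sm c) (hq : q ∣ n) : n / q ∈ Sm c :=
  ⟨Nat.div_pos (Nat.le_of_dvd hn.1 hq) (Nat.pos_of_dvd_of_pos hq hn.1),
    (ys_mono (P_le_of_dvd hn.1 (Nat.div_dvd_of_dvd hq))).trans hn.2⟩

theorem div_div_mem_Sm {n q c : ℕ} (hn : n ∈ Sm c) (hq : q ^ 2 ∣ n) : n / q / q ∈ Sm c := by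
  rw [Nat.div_div_eq_div_mul, ← pow_two]
  exact div_mem_Sm hn hq

theorem ev_log {α δ : ℝ} (hα : 0 < α) (hδ : 0 < δ) (A B : ℝ) :
    ∀ᶠ t : ℝ in atTop, A + B * Real.log t ≤ δ * t ^ α := by
  have h1 := (isLittleO_log_rpow_atTop hα).bound (c := δ / (2 * (|B| + 1))) (by positivity)
  have h2 := (tendsto_rpow_atTop hα).eventually_ge_atTop (2 * A / δ)
  filter_upwards [h1, h2, eventually_ge_atTop 1] with t h1 h2 h3
  have hp : 0 ≤ t ^ α := Real.rpow_nonneg (by linarith) _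
  have hl : 0 ≤ Real.log t := Real.log_nonneg h3
  rw [Real.norm_of_nonneg hl, Real.norm_of_nonneg hp] at h1
  have h4 : B * Real.log t ≤ (|B| + 1) * Real.log t :=
    mul_le_mul_of_nonneg_right (by linarith [le_abs_self B]) hl
  have h5 : (|B| + 1) * Real.log t ≤ (|B| + 1) * (δ / (2 * (|B| + 1)) * t ^ α) :=
    mul_le_mul_of_nonneg_left h1 (by positivity)
  have h6 : (|B| + 1) * (δ / (2 * (|B| + 1)) * t ^ α) = δ / 2 * t ^ α := by
    field_simp
  have h7 : A ≤ δ / 2 * t ^ α := by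
    rw [div_le_iff₀ hδ] at h2
    linarith
  linarith

theorem rpow_le {t h : ℝ} (ht : 0 ≤ t) (h1 : 1 ≤ h) (hth : t ≤ h ^ 21) : t ^ (1 / 42 : ℝ) ≤ h := by
  have h2 : h ^ 21 ≤ h ^ 42 := pow_le_pow_right₀ h1 (by norm_num)
  calc t ^ (1 / 42 : ℝ) ≤ (h ^ 42) ^ (1 / 42 : ℝ) :=
        Real.rpow_le_rpow ht (hth.trans h2) (by norm_num)
    _ = h := by
        rw [one_div]
        exact_mod_cast Real.pow_rpow_inv_natCast (n := 42) (by linarith) (by norm_num)

/-- the spoiled numbers in terms of all smooth ones. -/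
theorem Sp_le (hM : MertensStmt) (hNN : NNStmt) : ∀ᶠ h : ℝ in atTop,
    H (Sp h) ≤ ENNReal.ofReal (4 * Real.exp (-(h ^ 2 / 2))) * H (Vs ⌊h ^ 21⌋₊) := by
  obtain ⟨C, hC0, hC⟩ := hM
  filter_upwards [hNN, eventually_ge_atTop 30, eventually_ge_atTop C] with h hN h30 hCh
  set T := ⌊h ^ 21⌋₊ with hT
  set S1 : Set ℕ := {q | q.Prime ∧ (ys q : ℝ) ≤ h ^ 21 ∧ ¬ Normal (h ^ 12) q} with hS1
  set S2 : Set ℕ := {q | q.Prime ∧ (ys q : ℝ) ≤ h ^ 21 ∧ h ^ 12 < ys q} with hS2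
  have hsub : Sp h ⊆ Set.image2 (· * ·) (F S1 ∪ F2 S2) (Vs T) := by
    rintro v ⟨n, hn, hle, hu, rfl⟩
    have hnS : n ∈ Sm T := ⟨hn, Nat.le_floor hle⟩
    simp only [Unsp, not_forall] at hu
    obtain ⟨q, hq, hqn, hu⟩ := hu
    have hqle : (ys q : ℝ) ≤ h ^ 21 :=
      le_trans (by exact_mod_cast ys_mono (le_P hq hn hqn)) hle
    by_cases hnor : Normal (h ^ 12) q
    · have h2 : q ^ 2 ∣ n ∧ h ^ 12 < ys q := by
        by_contra hc
        exact hu ⟨hnor, fun h2 => le_of_not_gt fun h3 => hc ⟨h2, h3⟩⟩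
      have hm : (n / q / q).totient ∈ Vs T := ⟨_, div_div_mem_Sm hnS h2.1, rfl⟩
      rcases totient_sq hq h2.1 with e | e
      · exact ⟨_, Or.inr ⟨q, ⟨hq, hqle, h2.2⟩, Or.inl rfl⟩, _, hm, e.symm⟩
      · exact ⟨_, Or.inr ⟨q, ⟨hq, hqle, h2.2⟩, Or.inr rfl⟩, _, hm, e.symm⟩
    · have hm : (n / q).totient ∈ Vs T := ⟨_, div_mem_Sm hnS hqn, rfl⟩
      rcases totient_cases hq hqn with e | e
      · exact ⟨_, Or.inl ⟨q, ⟨hq, hqle, hnor⟩, Or.inl rfl⟩, _, hm, e.symm⟩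
      · exact ⟨_, Or.inl ⟨q, ⟨hq, hqle, hnor⟩, Or.inr rfl⟩, _, hm, e.symm⟩
  have h2 : Mass (fun q => q * (q - 1)) S2 ≤ ENNReal.ofReal (Real.exp (-(h ^ 2 / 2))) := by
    refine Mass_le_ofReal (fun q hq => Nat.mul_pos hq.1.pos (by have := hq.1.two_le; omega)) ?_
    intro A hA
    have hQ : ∀ q ∈ A, Real.exp (h ^ 12 - C) ≤ q := by
      intro q hq
      obtain ⟨hp, -, hlt⟩ := hA q hq
      have h1 := (abs_le.1 (hC q hp.two_le)).2
      have hq2 : (2 : ℝ) ≤ q := by exact_mod_cast hp.two_le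
      have hlq : 0 < Real.log q := Real.log_pos (by linarith)
      have h3 := Real.log_le_sub_one_of_pos hlq
      calc Real.exp (h ^ 12 - C) ≤ Real.exp (Real.log q) := Real.exp_le_exp.2 (by linarith)
        _ = q := Real.exp_log (by linarith)
    calc ∑ a ∈ A, 1 / ((a * (a - 1) : ℕ) : ℝ)
        ≤ ∑ a ∈ A, Real.exp (-(h ^ 12 - C)) * (1 / ((a : ℝ) - 1)) := by
          refine sum_le_sum fun q hq => ?_
          have hp := (hA q hq).1
          have hq2 : (2 : ℝ) ≤ q := by exact_mod_cast hp.two_le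
          rw [Nat.cast_mul, Nat.cast_sub hp.one_le, Nat.cast_one, Real.exp_neg, ← one_div,
            div_mul_div_comm, one_mul]
          refine one_div_le_one_div_of_le (mul_pos (Real.exp_pos _) (by linarith)) ?_
          exact mul_le_mul_of_nonneg_right (hQ q hq) (by linarith)
      _ = Real.exp (-(h ^ 12 - C)) * ∑ a ∈ A, 1 / ((a : ℝ) - 1) := by rw [mul_sum]
      _ ≤ Real.exp (-(h ^ 12 - C)) * h ^ 21 := by
          refine mul_le_mul_of_nonneg_left ?_ (Real.exp_pos _).le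
          refine le_trans (sum_le_sum_of_subset_of_nonneg (t := Pr T) (fun q hq => ?_)
            fun q hq _ => ?_) ((sum_Pr_le T).trans (Nat.floor_le (by positivity)))
          · exact mem_Pr.2 ⟨(hA q hq).1, Nat.le_floor (hA q hq).2.1⟩
          · have : (2 : ℝ) ≤ q := by exact_mod_cast (mem_Pr.1 hq).1.two_le
            exact one_div_nonneg.2 (by linarith)
      _ ≤ Real.exp (-(h ^ 12 - C)) * Real.exp h ^ 21 := by
          refine mul_le_mul_of_nonneg_left (pow_le_pow_left₀ (by linarith) ?_ _) (Real.exp_pos _).le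
          linarith [Real.add_one_le_exp h]
      _ = Real.exp (-(h ^ 12 - C) + 21 * h) := by
          rw [← Real.exp_nat_mul, ← Real.exp_add]; norm_num
      _ ≤ Real.exp (-(h ^ 2 / 2)) := by
          refine Real.exp_le_exp.2 ?_
          have h3 : h ^ 3 ≤ h ^ 12 := pow_le_pow_right₀ (by linarith) (by norm_num)
          nlinarith
  refine (Mass_mono hsub).trans ((H_mul_le _ _).trans (mul_le_mul_left ?_ _))
  refine (Mass_union_le _ _).trans ?_
  have e : ENNReal.ofReal (4 * Real.exp (-(h ^ 2 / 2))) =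
      2 * ENNReal.ofReal (Real.exp (-(h ^ 2 / 2))) + 2 * ENNReal.ofReal (Real.exp (-(h ^ 2 / 2))) := by
    rw [ENNReal.ofReal_mul (by norm_num), ← add_mul]
    norm_num
  rw [e]
  exact add_le_add ((H_F_le _).trans (mul_le_mul_right hN.2 _))
    ((H_F2_le _).trans (mul_le_mul_right h2 _))

/-- the factors removed in one peeling step. -/
def F1 (t : ℕ) : Set ℕ := {1} ∪ F {q | q.Prime ∧ ys q ≤ t}

theorem H_F1_le (t : ℕ) : H (F1 t) ≤ ENNReal.ofReal (1 + 2 * t) := by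
  refine (Mass_union_le _ _).trans ?_
  rw [ENNReal.ofReal_add (by norm_num) (by positivity), ENNReal.ofReal_mul (by norm_num)]
  simp only [ENNReal.ofReal_one, ENNReal.ofReal_ofNat, ENNReal.ofReal_natCast]
  exact add_le_add H_one ((H_F_le _).trans (mul_le_mul_right (Mass_primes t) _))

theorem step {t n : ℕ} (hn : n ∈ Sm t) : D n ∈ Sm t ∧ ∃ f ∈ F1 t, f * (D n).totient = n.totient := by
  refine ⟨div_mem_Sm hn (P_dvd n), ?_⟩
  rcases Nat.lt_or_ge n 2 with h | h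
  · have : n = 1 := by have := hn.1; omega
    subst this
    exact ⟨1, Or.inl rfl, by simp⟩
  · rcases totient_cases (P_prime h) (P_dvd n) with e | e
    · exact ⟨_, Or.inr ⟨P n, ⟨P_prime h, hn.2⟩, Or.inl rfl⟩, e.symm⟩
    · exact ⟨_, Or.inr ⟨P n, ⟨P_prime h, hn.2⟩, Or.inr rfl⟩, e.symm⟩

theorem H_Vs_le (t : ℕ) : H (Vs t) ≤ ENNReal.ofReal (Real.exp t) :=
  (Mass_mono (Vs_subset t)).trans (H_Sm_le t)

theorem H_Vs_ne (t : ℕ) : H (Vs t) ≠ ⊤ := ne_top_of_le_ne_top ENNReal.ofReal_ne_top (H_Vs_le t)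

/-- the recursion. -/
theorem recursion (hM : MertensStmt) (hNN : NNStmt) (hVi : ViStmt) : ∀ᶠ t : ℕ in atTop,
    (H (Vs t)).toReal ≤ 2 + 2 * (1 + 2 * t) ^ 2 * (H (Vs ⌊(4 / 5 : ℝ) * t⌋₊)).toReal := by
  have htend : Tendsto (fun t : ℕ => (t : ℝ) ^ ((21 : ℕ) : ℝ)⁻¹) atTop atTop :=
    (tendsto_rpow_atTop (by norm_num)).comp tendsto_natCast_atTop_atTop
  filter_upwards [htend.eventually (Sp_le hM hNN), htend.eventually hVi,
    htend.eventually_ge_atTop 9] with t hS hV h9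
  set h : ℝ := (t : ℝ) ^ ((21 : ℕ) : ℝ)⁻¹ with hh
  have ht : h ^ 21 = t := Real.rpow_inv_natCast_pow (by positivity) (by norm_num)
  rw [ht, Nat.floor_natCast] at hS
  have hV2 := hV 2 (by norm_num; linarith)
  set t' := ⌊(4 / 5 : ℝ) * t⌋₊ with ht'
  have hsub : Vs t ⊆ Sp h ∪ (Vi h 2 ∪
      Set.image2 (· * ·) (F1 t) (Set.image2 (· * ·) (F1 t) (Vs t'))) := by
    rintro v ⟨n, hn, rfl⟩
    have hle : (ys (P n) : ℝ) ≤ h ^ 21 := by rw [ht]; exact_mod_cast hn.2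
    by_cases hu : Unsp h n
    swap
    · exact Or.inl ⟨n, hn.1, hle, hu, rfl⟩
    by_cases hc : h ^ 19 < ∑ s ∈ range (2 + 1), aCoef s * ys (pr n s)
    · exact Or.inr (Or.inl ⟨n, 1, hn.1, hle, hu, hc, Or.inl rfl, mul_one _⟩)
    right; right
    obtain ⟨hD, f, hf, e⟩ := step hn
    obtain ⟨hDD, f', hf', e'⟩ := step hD
    have hm : D (D n) ∈ Sm t' := by
      refine ⟨hDD.1, Nat.le_floor ?_⟩
      have e2 : P (D (D n)) = pr n 2 := rfl
      rw [e2]
      simp only [sum_range_succ, range_zero, sum_empty, aCoef_zero, pr_zero, not_lt] at hc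
      have h21 : (ys (pr n 2) : ℝ) ≤ ys (pr n 1) := by
        exact_mod_cast ys_mono (pr_antitone hn.1 (by norm_num : 1 ≤ 2))
      have h20 : (0 : ℝ) ≤ ys (pr n 2) := Nat.cast_nonneg _
      have a1 := aCoef_one.1
      have a2 := aCoef_two.1
      have h19 : 81 * h ^ 19 ≤ h ^ 21 := by
        have : (0 : ℝ) ≤ h ^ 19 := by positivity
        have e3 : h ^ 21 = h ^ 2 * h ^ 19 := by ring
        rw [e3]
        exact mul_le_mul_of_nonneg_right (by nlinarith) this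
      have b1 : 0.386 * (ys (pr n 2) : ℝ) ≤ aCoef 1 * ys (pr n 1) :=
        mul_le_mul a1 h21 h20 (by linarith)
      have b2 : 0.909 * (ys (pr n 2) : ℝ) ≤ aCoef 2 * ys (pr n 2) :=
        mul_le_mul_of_nonneg_right a2 h20
      rw [← ht]
      have : (0 : ℝ) ≤ h ^ 19 := by positivity
      linarith
    exact ⟨f, hf, _, ⟨f', hf', _, ⟨_, hm, rfl⟩, rfl⟩, by simp only; rw [e', e]⟩
  have hl : ∀ s, H (Vs s) = ENNReal.ofReal (H (Vs s)).toReal := fun s =>
    (ENNReal.ofReal_toReal (H_Vs_ne s)).symm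
  set a := (H (Vs t)).toReal with ha
  set b := (H (Vs t')).toReal with hb
  have ha0 : 0 ≤ a := ENNReal.toReal_nonneg
  have hb0 : 0 ≤ b := ENNReal.toReal_nonneg
  have hexp : 4 * Real.exp (-(h ^ 2 / 2)) ≤ 1 / 2 := by
    have h1 : 8 ≤ Real.exp (h ^ 2 / 2) := by nlinarith [Real.add_one_le_exp (h ^ 2 / 2)]
    rw [Real.exp_neg]
    have : (Real.exp (h ^ 2 / 2))⁻¹ ≤ 8⁻¹ := inv_anti₀ (by norm_num) h1
    linarith
  have key : H (Vs t) ≤ ENNReal.ofReal (1 / 2 * a + (1 + (1 + 2 * t) * ((1 + 2 * t) * b))) := by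
    refine (Mass_mono hsub).trans ((Mass_union_le _ _).trans ?_)
    rw [ENNReal.ofReal_add (by positivity) (by positivity),
      ENNReal.ofReal_add (by positivity) (by positivity), ENNReal.ofReal_mul (by positivity),
      ENNReal.ofReal_mul (by positivity), ENNReal.ofReal_mul (by positivity), ← hl, ← hl]
    refine add_le_add (hS.trans (mul_le_mul_left (ENNReal.ofReal_le_ofReal hexp) _))
      ((Mass_union_le _ _).trans (add_le_add (hV2.trans (ENNReal.ofReal_le_ofReal ?_)) ?_))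
    · exact Real.exp_le_one_iff.2 (by nlinarith)
    · exact (H_mul_le _ _).trans (mul_le_mul' (H_F1_le t)
        ((H_mul_le _ _).trans (mul_le_mul_left (H_F1_le t) _)))
  have := ENNReal.toReal_le_of_le_ofReal (by positivity) key
  rw [← ha] at this
  nlinarith

theorem bound (hM : MertensStmt) (hNN : NNStmt) (hVi : ViStmt) : ∃ C : ℝ, 1 ≤ C ∧
    ∀ t : ℕ, (H (Vs t)).toReal ≤ C * Real.exp ((t : ℝ) ^ (1 / 42 : ℝ)) := by
  set β : ℝ := (4 / 5 : ℝ) ^ (1 / 42 : ℝ) with hβ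
  have hβ1 : β < 1 := Real.rpow_lt_one (by norm_num) (by norm_num) (by norm_num)
  have hev := tendsto_natCast_atTop_atTop.eventually
    (ev_log (α := 1 / 42) (δ := 1 - β) (by norm_num) (by linarith) (Real.log 36) 2)
  obtain ⟨t₀, ht₀⟩ := eventually_atTop.1 ((recursion hM hNN hVi).and
    (hev.and (eventually_ge_atTop 1)))
  refine ⟨Real.exp t₀, Real.one_le_exp (by positivity), fun t => ?_⟩
  induction t using Nat.strong_induction_on with
  | _ t ih =>
  have hC : 1 ≤ Real.exp t₀ := Real.one_le_exp (by positivity)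
  rcases Nat.lt_or_ge t t₀ with hlt | hge
  · have h1 := ENNReal.toReal_le_of_le_ofReal (Real.exp_pos _).le (H_Vs_le t)
    have h2 : Real.exp t ≤ Real.exp t₀ := Real.exp_le_exp.2 (by exact_mod_cast hlt.le)
    have h3 : 1 ≤ Real.exp ((t : ℝ) ^ (1 / 42 : ℝ)) := Real.one_le_exp (by positivity)
    nlinarith
  · obtain ⟨hr, hl, h1⟩ := ht₀ t hge
    have ht1 : (1 : ℝ) ≤ t := by exact_mod_cast h1
    set t' := ⌊(4 / 5 : ℝ) * t⌋₊ with ht'
    have hf : (t' : ℝ) ≤ 4 / 5 * t := Nat.floor_le (by positivity)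
    have hlt : t' < t := by
      have : (t' : ℝ) < t := by linarith
      exact_mod_cast this
    have h2 := ih t' hlt
    have h3 : (t' : ℝ) ^ (1 / 42 : ℝ) ≤ β * (t : ℝ) ^ (1 / 42 : ℝ) := by
      rw [hβ, ← Real.mul_rpow (by norm_num) (by positivity)]
      exact Real.rpow_le_rpow (by positivity) hf (by norm_num)
    set u := (t : ℝ) ^ (1 / 42 : ℝ) with hu
    set E := Real.exp t₀ * Real.exp (β * u) with hE
    have hu0 : 0 ≤ u := by positivity
    have hE1 : 1 ≤ E := one_le_mul_of_one_le_of_one_le hC (Real.one_le_exp (by positivity))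
    have h4 : (H (Vs t')).toReal ≤ E :=
      h2.trans (mul_le_mul_of_nonneg_left (Real.exp_le_exp.2 h3) (by positivity))
    have h5 : 36 * (t : ℝ) ^ 2 ≤ Real.exp ((1 - β) * u) := by
      calc 36 * (t : ℝ) ^ 2 = Real.exp (Real.log 36 + 2 * Real.log t) := by
            rw [Real.exp_add, Real.exp_log (by norm_num), two_mul, Real.exp_add,
              Real.exp_log (by linarith)]
            ring
        _ ≤ _ := Real.exp_le_exp.2 hl
    have h6 : (1 + 2 * (t : ℝ)) ^ 2 ≤ 9 * (t : ℝ) ^ 2 := by nlinarith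
    have h7 : Real.exp t₀ * Real.exp u = Real.exp ((1 - β) * u) * E := by
      rw [hE, mul_left_comm, ← Real.exp_add ((1 - β) * u)]
      congr 2
      ring
    rw [h7]
    calc (H (Vs t)).toReal ≤ 2 + 2 * (1 + 2 * t) ^ 2 * (H (Vs t')).toReal := hr
      _ ≤ 2 + 2 * (9 * (t : ℝ) ^ 2) * E := by gcongr
      _ ≤ 36 * (t : ℝ) ^ 2 * E := by nlinarith [mul_le_mul hE1 (one_le_pow₀ (n := 2) ht1) zero_le_one (by linarith)]
      _ ≤ _ := mul_le_mul_of_nonneg_right h5 (by linarith)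

end LAux

open LAux in
theorem lstmt (hM : MertensStmt) (hNN : NNStmt) (hVi : ViStmt) : LStmt := by
  obtain ⟨C, hC1, hC⟩ := bound hM hNN hVi
  have h1 : ∀ t : ℕ, H (Vs t) ≤ ENNReal.ofReal (C * Real.exp ((t : ℝ) ^ (1 / 42 : ℝ))) := fun t =>
    (ENNReal.ofReal_toReal (H_Vs_ne t)).symm.le.trans (ENNReal.ofReal_le_ofReal (hC t))
  refine ⟨⟨C, hC1, h1⟩, ?_⟩
  filter_upwards [Sp_le hM hNN, eventually_ge_atTop 8, eventually_ge_atTop (Real.log (4 * C))]
    with h hS h8 hl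
  refine hS.trans ((mul_le_mul_right (h1 _) _).trans ?_)
  rw [← ENNReal.ofReal_mul (by positivity)]
  refine ENNReal.ofReal_le_ofReal ?_
  have h2 : ((⌊h ^ 21⌋₊ : ℕ) : ℝ) ^ (1 / 42 : ℝ) ≤ h :=
    rpow_le (by positivity) (by linarith) (Nat.floor_le (by positivity))
  calc 4 * Real.exp (-(h ^ 2 / 2)) * (C * Real.exp (((⌊h ^ 21⌋₊ : ℕ) : ℝ) ^ (1 / 42 : ℝ)))
      = Real.exp (Real.log (4 * C) + -(h ^ 2 / 2) + ((⌊h ^ 21⌋₊ : ℕ) : ℝ) ^ (1 / 42 : ℝ)) := by
        rw [Real.exp_add, Real.exp_add, Real.exp_log (by positivity)]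
        ring
    _ ≤ _ := Real.exp_le_exp.2 (by nlinarith)

end Crest.Agent.R20
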