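import Crest.Agent.R20.Basic

/-!
# Row 20: the main term converges to a continuous function of the phase
-/

set_option autoImplicit false

noncomputable section

namespace Crest.Agent.R20

open Crest.NumberTheoryR.TotientScale Finset Filter Topology MeasureTheory
open scoped ENNReal ArithmeticFunction.Omega

namespace LimitAux

/-- `F / G` is asymptotically a continuous function of `kap`. -/
def Lim (p : Par) (F : ℕ → ℝ → ℝ) : Prop := ∃ A : ℝ → ℝ, Continuous A ∧
  ∀ ε : ℝ, 0 < ε → ∀ᶠ m : ℕ in atTop, ∀ B, p.Sc m B → |F m B / G m B - A (kap p.ρ m B)| ≤ ε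

variable {p : Par}

theorem Lim.zero : Lim p fun _ _ => 0 :=
  ⟨fun _ => 0, continuous_const, fun ε hε => Eventually.of_forall fun m B _ => by simpa using hε.le⟩

theorem Lim.add {F F' : ℕ → ℝ → ℝ} (h : Lim p F) (h' : Lim p F') :
    Lim p fun m B => F m B + F' m B := by
  obtain ⟨A, hA, h⟩ := h
  obtain ⟨A', hA', h'⟩ := h'
  refine ⟨fun x => A x + A' x, hA.add hA', fun ε hε => ?_⟩
  filter_upwards [h (ε / 2) (by positivity), h' (ε / 2) (by positivity)] with m h1 h2 B hB
  have e : (F m B + F' m B) / G m B - (A (kap p.ρ m B) + A' (kap p.ρ m B)) =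
      (F m B / G m B - A (kap p.ρ m B)) + (F' m B / G m B - A' (kap p.ρ m B)) := by ring
  rw [e]
  linarith [abs_add_le (F m B / G m B - A (kap p.ρ m B)) (F' m B / G m B - A' (kap p.ρ m B)),
    h1 B hB, h2 B hB]

theorem Lim.const_mul {F : ℕ → ℝ → ℝ} (h : Lim p F) (c : ℝ) : Lim p fun m B => c * F m B := by
  obtain ⟨A, hA, h⟩ := h
  refine ⟨fun x => c * A x, continuous_const.mul hA, fun ε hε => ?_⟩
  filter_upwards [h (ε / (|c| + 1)) (by positivity)] with m h1 B hB
  have e : c * F m B / G m B - c * A (kap p.ρ m B) = c * (F m B / G m B - A (kap p.ρ m B)) := by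
    ring
  have h2 := h1 B hB
  rw [le_div_iff₀ (by positivity)] at h2
  rw [e, abs_mul]
  nlinarith [abs_nonneg (F m B / G m B - A (kap p.ρ m B))]

theorem Lim.sum {ι : Type*} (s : Finset ι) {F : ι → ℕ → ℝ → ℝ} (h : ∀ i ∈ s, Lim p (F i)) :
    Lim p fun m B => ∑ i ∈ s, F i m B := by
  classical
  induction s using Finset.induction_on with
  | empty => simpa using Lim.zero
  | insert a s ha ih =>
    simp only [sum_insert ha]
    exact (h a (mem_insert_self _ _)).add (ih fun i hi => h i (mem_insert_of_mem hi))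

/-- the offset of the simplex -/
def Lam (μ : ℕ → ℝ) (M : ℕ) : ℝ := ∑ i ∈ range (M + 1), gSeq (M - i) * μ i

theorem Lam_eq (μ : ℕ → ℝ) (M : ℕ) :
    Lam μ M = μ M + ∑ k : Fin M, gSeq (k + 1) * μ (M - 1 - k) := by
  rw [Lam, sum_range_succ, Nat.sub_self, gSeq_zero, one_mul, add_comm,
    Fin.sum_univ_eq_sum_range (fun k => gSeq (k + 1) * μ (M - 1 - k)), ← sum_range_reflect]
  congr 1
  refine sum_congr rfl fun k hk => ?_
  rw [mem_range] at hk
  rw [show M - (M - 1 - k) = k + 1 by omega]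

theorem vol (hS : SimplexStmt) (μ : ℕ → ℝ) (M : ℕ) (B : ℝ) :
    volume {u : Fin M → ℝ | (∀ k : Fin M, μ (M - 1 - k) ≤ u k) ∧
      ∑ k : Fin M, gSeq (k + 1) * u k ≤ B - μ M} =
      ENNReal.ofReal (sv M (B - Lam μ M) / ∏ k ∈ range M, gSeq (k + 1)) := by
  have h := (hS M fun _ _ => 0).2 (fun k => gSeq (k + 1)) (fun k => μ (M - 1 - k))
    (fun k => gSeq (k + 1)) (B - μ M) (fun k => gSeq_pos _) (fun k => by simp)
  simp only [zero_mul, sum_const_zero, add_zero] at h
  rw [h, Lam_eq, Fin.prod_univ_eq_prod_range (fun k => gSeq (k + 1)), sub_sub]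

theorem G_add (M K : ℕ) {B : ℝ} (hB : 0 < B) :
    G M B = G (M + K) B * ∏ L ∈ range K, ((M + L + 1 : ℝ) * gSeq (M + L + 1) / B) := by
  induction K with
  | zero => simp
  | succ K ih =>
    rw [prod_range_succ, ← add_assoc, G_succ, ih]
    have := gSeq_pos (M + K + 1)
    push_cast
    field_simp

theorem pow_sub_exp {y t : ℝ} (M : ℕ) (h0 : 0 ≤ y) (h1 : y ≤ 1) (ht : 0 ≤ t) :
    |(1 - y) ^ M - Real.exp (-t)| ≤ M * y ^ 2 + |M * y - t| := by
  have a1 : 1 - y ≤ Real.exp (-y) := by linarith [Real.add_one_le_exp (-y)]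
  have a2 : Real.exp (-y) ≤ 1 := Real.exp_le_one_iff.2 (by linarith)
  have a3 : |Real.exp (-y) - 1 - (-y)| ≤ (-y) ^ 2 :=
    Real.abs_exp_sub_one_sub_id_le (by rwa [abs_neg, abs_of_nonneg h0])
  have b1 : |(1 - y) ^ M - Real.exp (-y) ^ M| ≤ M * y ^ 2 := by
    refine (abs_pow_sub_pow_le _ _ _).trans ?_
    have c1 : max |1 - y| |Real.exp (-y)| ^ (M - 1) ≤ 1 := by
      refine pow_le_one₀ (by positivity) (max_le ?_ ?_)
      · rw [abs_of_nonneg (by linarith)]; linarith
      · rwa [abs_of_pos (Real.exp_pos _)]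
    have c2 : |1 - y - Real.exp (-y)| ≤ y ^ 2 := by
      rw [abs_sub_comm, show Real.exp (-y) - (1 - y) = Real.exp (-y) - 1 - (-y) by ring]
      exact a3.trans_eq (by ring)
    calc |1 - y - Real.exp (-y)| * M * max |1 - y| |Real.exp (-y)| ^ (M - 1)
        ≤ y ^ 2 * M * 1 := by gcongr
      _ = _ := by ring
  have lip : ∀ s t : ℝ, 0 ≤ s → s ≤ t → |Real.exp (-s) - Real.exp (-t)| ≤ |s - t| := by
    intro s t hs hst
    have d1 : Real.exp (-t) ≤ Real.exp (-s) := Real.exp_le_exp.2 (by linarith)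
    have d2 : Real.exp (-s) ≤ 1 := Real.exp_le_one_iff.2 (by linarith)
    have d3 : Real.exp (-t) = Real.exp (-s) * Real.exp (s - t) := by
      rw [← Real.exp_add]; congr 1; ring
    rw [abs_of_nonneg (by linarith), abs_of_nonpos (by linarith), d3]
    nlinarith [Real.add_one_le_exp (s - t), Real.exp_pos (-s)]
  have b2 : |Real.exp (-y) ^ M - Real.exp (-t)| ≤ |M * y - t| := by
    rw [← Real.exp_nat_mul, mul_neg]
    rcases le_total (M * y) t with h | h
    · exact lip _ _ (by positivity) h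
    · rw [abs_sub_comm, abs_sub_comm (M * y : ℝ)]
      exact lip _ _ ht h
  linarith [abs_sub_le ((1 - y) ^ M) (Real.exp (-y) ^ M) (Real.exp (-t))]

theorem tendsto_Lam (hR : RenewStmt) (p : Par) (K : ℕ) {μ : ℕ → ℝ} {C : ℝ} (h0 : ∀ i, 0 ≤ μ i)
    (h1 : ∀ i, μ i ≤ C * (i + 1)) :
    ∃ α : ℝ, Tendsto (fun M => Lam μ M * p.ρ ^ (M + K)) atTop (𝓝 α) := by
  obtain ⟨⟨c, hc, hg⟩, γ, -, hγ⟩ := hR.2 p
  have hρ := p.ρ_pos
  have hs : Summable fun i : ℕ => C * ((i + 1) * p.ρ ^ i) := by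
    have k1 := summable_pow_mul_geometric_of_norm_lt_one 1 (r := p.ρ)
      (by rw [Real.norm_of_nonneg hρ.le]; exact p.ρ_lt)
    have k2 := summable_geometric_of_lt_one hρ.le p.ρ_lt
    refine ((k1.add k2).mul_left C).congr fun i => by ring
  have h := tendsto_tsum_of_dominated_convergence (𝓕 := atTop)
    (f := fun (M i : ℕ) => (if i ≤ M then gSeq (M - i) * p.ρ ^ (M - i) else 0) * (μ i * p.ρ ^ i))
    (g := fun i => γ * (μ i * p.ρ ^ i)) hs (fun i => by
      refine Tendsto.mul_const _ ((hγ.comp (tendsto_sub_atTop_nat i)).congr' ?_)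
      filter_upwards [eventually_ge_atTop i] with M hM
      simp [hM]) (Eventually.of_forall fun M i => by
      have k1 : |(if i ≤ M then gSeq (M - i) * p.ρ ^ (M - i) else 0)| ≤ 1 := by
        split_ifs
        · rw [abs_of_nonneg (hc.le.trans (hg _).1)]
          exact (hg _).2
        · simp
      have k2 := h0 i
      rw [Real.norm_eq_abs, abs_mul, abs_of_nonneg (by positivity : 0 ≤ μ i * p.ρ ^ i), ← mul_assoc C]
      refine (mul_le_of_le_one_left (by positivity) k1).trans ?_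
      gcongr
      exact h1 i)
  refine ⟨_, (h.mul_const (p.ρ ^ K)).congr fun M => ?_⟩
  have e : ∑' i : ℕ, (if i ≤ M then gSeq (M - i) * p.ρ ^ (M - i) else 0) * (μ i * p.ρ ^ i) =
      ∑ i ∈ range (M + 1), (if i ≤ M then gSeq (M - i) * p.ρ ^ (M - i) else 0) * (μ i * p.ρ ^ i) :=
    tsum_eq_sum fun i hi => by rw [if_neg (by simpa [Nat.lt_succ_iff] using hi), zero_mul]
  rw [e, Lam, pow_add, ← mul_assoc, sum_mul (range (M + 1)) _ (p.ρ ^ M)]
  congr 1
  refine sum_congr rfl fun i hi => ?_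
  have hi' : i ≤ M := by simpa [Nat.lt_succ_iff] using hi
  rw [if_pos hi', show p.ρ ^ M = p.ρ ^ (M - i) * p.ρ ^ i by rw [← pow_add, Nat.sub_add_cancel hi']]
  ring

theorem tendsto_ratio (a b : ℝ) : Tendsto (fun M : ℕ => ((M : ℝ) + a) / (M + b)) atTop (𝓝 1) := by
  have h1 : Tendsto (fun M : ℕ => (M : ℝ) + b) atTop atTop :=
    tendsto_atTop_add_const_right _ _ tendsto_natCast_atTop_atTop
  have h2 := (h1.const_div_atTop (a - b)).const_add 1
  rw [add_zero] at h2
  refine h2.congr' ?_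
  filter_upwards [h1.eventually_gt_atTop 0] with M hM
  field_simp
  ring

theorem core (hR : RenewStmt) (p : Par) (K : ℕ) {μ : ℕ → ℝ} {C : ℝ} (h0 : ∀ i, 0 ≤ μ i)
    (h1 : ∀ i, μ i ≤ C * (i + 1)) :
    Lim p fun m B => sv (m - K) (B - Lam μ (m - K)) / ∏ k ∈ range (m - K), gSeq (k + 1) := by
  obtain ⟨α, hα⟩ := tendsto_Lam hR p K h0 h1
  obtain ⟨-, γ, -, hγ⟩ := hR.2 p
  have hρ := p.ρ_pos
  set a : ℕ → ℝ := fun M => Lam μ M * p.ρ ^ (M + K) with ha
  have ha0 : ∀ M, 0 ≤ a M := fun M =>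
    mul_nonneg (sum_nonneg fun i _ => mul_nonneg (gSeq_pos _).le (h0 i)) (by positivity)
  have hα0 : 0 ≤ α := ge_of_tendsto' hα ha0
  set c : ℕ → ℝ := fun M => ∏ L ∈ range K, (((M : ℝ) + (L + 1)) / (M + K) *
    (gSeq (M + (L + 1)) * p.ρ ^ (M + (L + 1))) * (p.ρ ^ K / p.ρ ^ (L + 1))) with hc
  set c₀ : ℝ := ∏ L ∈ range K, (1 * γ * (p.ρ ^ K / p.ρ ^ (L + 1))) with hc₀
  have hcc : Tendsto c atTop (𝓝 c₀) := tendsto_finsetProd _ fun L _ =>
    ((tendsto_ratio _ _).mul (hγ.comp (tendsto_add_atTop_nat (L + 1)))).mul_const _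
  have hinv : Tendsto (fun M : ℕ => a M / ((M : ℝ) + K)) atTop (𝓝 0) :=
    hα.div_atTop (tendsto_atTop_add_const_right _ _ tendsto_natCast_atTop_atTop)
  have hb : Tendsto (fun M : ℕ => (M : ℝ) / (M + K) * a M) atTop (𝓝 α) := by
    simpa using (tendsto_ratio 0 K).mul hα
  set κ : ℝ := p.κ₂ with hκ
  have herr : Tendsto (fun M : ℕ => κ ^ K * (|c M| * ((M : ℝ) / (M + K) * a M * (a M / (M + K)) *
      κ ^ 2 + |(M : ℝ) / (M + K) * a M - α| * κ) + |c M - c₀|)) atTop (𝓝 0) := by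
    have k1 := ((hcc.abs.mul (((hb.mul hinv).mul_const (κ ^ 2)).add
      ((hb.sub_const α).abs.mul_const κ))).add (hcc.sub_const c₀).abs).const_mul (κ ^ K)
    simpa using k1
  have hy : Tendsto (fun M : ℕ => a M / ((M : ℝ) + K) * κ) atTop (𝓝 0) := by
    simpa using hinv.mul_const κ
  refine ⟨fun x => c₀ * x ^ K * Real.exp (-(α * x)), by fun_prop, fun ε hε => ?_⟩
  rw [← Filter.map_add_atTop_eq_nat K, eventually_map]
  filter_upwards [herr.eventually_le_const hε, hy.eventually_le_const one_pos,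
    eventually_ge_atTop 1] with M k1 k2 hM B hB
  obtain ⟨hB0, hκ1, hκ2⟩ := hB
  simp only [Nat.add_sub_cancel]
  set x := kap p.ρ (M + K) B with hx
  have hx0 : 0 < x := p.κ_pos.trans_le hκ1
  have hM0 : (0 : ℝ) < M + K := by
    have : (1 : ℝ) ≤ M := by exact_mod_cast hM
    positivity
  have hxe : x = (M + K) / (p.ρ ^ (M + K) * B) := by rw [hx, kap]; push_cast; rfl
  set y : ℝ := a M / (M + K) * x with hyd
  have hyB : Lam μ M = y * B := by
    rw [hyd, hxe, ha]
    field_simp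
  have hy0 : 0 ≤ y := by have := ha0 M; positivity
  have hy1 : y ≤ 1 := by
    refine le_trans ?_ k2
    have := ha0 M
    rw [hyd]
    gcongr
  have hG := G_pos (M + K) hB0
  have e1 : sv M (B - Lam μ M) / ∏ k ∈ range M, gSeq (k + 1) = (1 - y) ^ M * G M B := by
    rw [sv, if_pos (by rw [hyB]; nlinarith), hyB, G, show B - y * B = (1 - y) * B by ring, mul_pow]
    ring
  have e2 : ∏ L ∈ range K, ((M + L + 1 : ℝ) * gSeq (M + L + 1) / B) = x ^ K * c M := by
    rw [hc, ← card_range K, ← prod_const, card_range, ← prod_mul_distrib]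
    refine prod_congr rfl fun L _ => ?_
    rw [hxe, add_assoc M L 1, pow_add, pow_add p.ρ M (L + 1)]
    field_simp
    ring
  rw [e1, G_add M K hB0, e2]
  have e3 : (1 - y) ^ M * (G (M + K) B * (x ^ K * c M)) / G (M + K) B -
      c₀ * x ^ K * Real.exp (-(α * x)) =
      x ^ K * (c M * ((1 - y) ^ M - Real.exp (-(α * x))) + (c M - c₀) * Real.exp (-(α * x))) := by
    field_simp
    ring
  have f1 := pow_sub_exp M hy0 hy1 (show 0 ≤ α * x by positivity)
  have f2 : (M : ℝ) * y ^ 2 ≤ (M : ℝ) / (M + K) * a M * (a M / (M + K)) * κ ^ 2 := by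
    have := ha0 M
    calc (M : ℝ) * y ^ 2 = (M : ℝ) / (M + K) * a M * (a M / (M + K)) * x ^ 2 := by
          rw [hyd]; ring
      _ ≤ _ := by gcongr
  have f3 : |(M : ℝ) * y - α * x| ≤ |(M : ℝ) / (M + K) * a M - α| * κ := by
    rw [show (M : ℝ) * y - α * x = ((M : ℝ) / (M + K) * a M - α) * x by rw [hyd]; ring, abs_mul,
      abs_of_pos hx0]
    gcongr
  have f4 : |Real.exp (-(α * x))| ≤ 1 := by
    rw [abs_of_pos (Real.exp_pos _)]
    exact Real.exp_le_one_iff.2 (neg_nonpos.2 (by positivity))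
  refine le_trans ?_ k1
  rw [e3, abs_mul, abs_of_pos (pow_pos hx0 K)]
  refine mul_le_mul (by gcongr) ((abs_add_le _ _).trans ?_) (abs_nonneg _)
    (pow_nonneg (hx0.le.trans hκ2) K)
  rw [abs_mul, abs_mul]
  exact add_le_add (mul_le_mul_of_nonneg_left (by linarith) (abs_nonneg _))
    (mul_le_of_le_one_right (abs_nonneg _) f4)

theorem el_nonneg (K r i : ℕ) : 0 ≤ el K r i :=
  sum_nonneg fun s _ => mul_nonneg (aCoef_pos (by omega)).le (Nat.cast_nonneg _)

theorem el_le (K r i : ℕ) :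
    el K r i ≤ (∑ s ∈ range K, ((s : ℝ) + 1) * ys (pr r s)) * (i + 1) := by
  rw [el, sum_mul]
  refine sum_le_sum fun s _ => ?_
  have h1 := aCoef_le (i + s + 1)
  push_cast at h1
  have h2 : (i : ℝ) + s + 1 ≤ (s + 1) * (i + 1) := by
    nlinarith [mul_nonneg (Nat.cast_nonneg (α := ℝ) i) (Nat.cast_nonneg (α := ℝ) s)]
  calc aCoef (i + s + 1) * ys (pr r s) ≤ ((s + 1) * (i + 1)) * ys (pr r s) := by
        gcongr
        exact h1.trans h2
    _ = _ := by ring

theorem inter_eq (T : Finset ℕ) (hT : T.Nonempty) (m K : ℕ) (B : ℝ) :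
    ⋂ r ∈ T, U m K B r = {u : Fin (m - K) → ℝ |
      (∀ k : Fin (m - K), (fun i => T.sup' hT fun r => el K r i) (m - K - 1 - k) ≤ u k) ∧
      ∑ k : Fin (m - K), gSeq (k + 1) * u k ≤ B - (fun i => T.sup' hT fun r => el K r i) (m - K)} := by
  ext u
  simp only [U, Set.mem_iInter, Set.mem_ofPred_eq, le_sub_comm (b := B), sup'_le_iff]
  exact ⟨fun h => ⟨fun k r hr => (h r hr).1 k, fun r hr => (h r hr).2⟩,
    fun h r hr => ⟨fun k => h.1 k r hr, h.2 r hr⟩⟩

theorem lim_inter (hR : RenewStmt) (hS : SimplexStmt) (p : Par) (K : ℕ) (T : Finset ℕ)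
    (hT : T.Nonempty) : Lim p fun m B => volume.real (⋂ r ∈ T, U m K B r) := by
  have h := core hR p K (μ := fun i => T.sup' hT fun r => el K r i)
    (C := ∑ r ∈ T, ∑ s ∈ range K, ((s : ℝ) + 1) * ys (pr r s))
    (fun i => by
      obtain ⟨r, hr⟩ := hT
      exact (el_nonneg K r i).trans (le_sup' (fun r => el K r i) hr))
    (fun i => sup'_le _ _ fun r hr => (el_le K r i).trans (by
      gcongr
      exact single_le_sum (f := fun r => ∑ s ∈ range K, ((s : ℝ) + 1) * ys (pr r s))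
        (fun r _ => by positivity) hr))
  convert h using 3 with m B
  have e := vol hS (fun i => T.sup' hT fun r => el K r i) (m - K) B
  rw [inter_eq T hT, Measure.real, e, ENNReal.toReal_ofReal]
  refine div_nonneg ?_ (prod_nonneg fun k _ => (gSeq_pos _).le)
  unfold sv
  split_ifs with h
  · positivity
  · exact le_rfl

theorem measurableSet_U (m K : ℕ) (B : ℝ) (r : ℕ) : MeasurableSet (U m K B r) := by
  refine IsClosed.measurableSet ?_
  simp only [U, Set.ofPred_and, Set.ofPred_forall]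
  exact (isClosed_iInter fun k => isClosed_le continuous_const (continuous_apply k)).inter
    (isClosed_le (by fun_prop) continuous_const)

end LimitAux

open LimitAux

theorem limit (hR : RenewStmt) (hS : SimplexStmt) : LimitStmt := by
  intro p R K
  refine Lim.sum (p := p) _ (F := fun (w : ℕ) m B => 1 / (w : ℝ) *
    volume.real (⋃ r ∈ R.filter fun r => r.totient = w, U m K B r)) fun w _ => Lim.const_mul ?_ _
  have h := Lim.sum (p := p) ((R.filter fun r => r.totient = w).powerset.filter Finset.Nonempty)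
    (F := fun T m B => (-1 : ℝ) ^ (#T + 1) * volume.real (⋂ r ∈ T, U m K B r))
    fun T hT => (lim_inter hR hS p K T (mem_filter.1 hT).2).const_mul _
  convert h using 3 with m B
  refine measureReal_biUnion_eq_sum_powerset (fun r _ => measurableSet_U m K B r) fun r _ => ?_
  rw [U, vol hS (el K r)]
  exact ENNReal.ofReal_ne_top

end Crest.Agent.R20
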