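import Crest.Agent.R20.Basic

/-!
# Row 20: the lower bound for the number of totient values
-/

set_option autoImplicit false

noncomputable section

namespace Crest.Agent.R20

open Crest.NumberTheoryR.TotientScale Finset Filter Topology MeasureTheory
open scoped ENNReal ArithmeticFunction.Omega

namespace LowerAux

/-! ## real inequalities -/

theorem ev_lin (a : ℝ) {c : ℝ} (hc : 0 < c) : ∀ᶠ t : ℝ in atTop, a * t ≤ Real.exp (c * t) := by
  filter_upwards [eventually_ge_atTop 0, eventually_ge_atTop (2 * a / c ^ 2)] with t h0 h1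
  have h2 := Real.quadratic_le_exp_of_nonneg (mul_nonneg hc.le h0)
  have h3 : 2 * a ≤ t * c ^ 2 := (div_le_iff₀ (by positivity)).1 h1
  have h4 := mul_le_mul_of_nonneg_right h3 h0
  have h5 := mul_nonneg hc.le h0
  nlinarith

theorem ys_bounds {C : ℝ} (hM : ∀ n : ℕ, 2 ≤ n → |(ys n : ℝ) - Real.log (Real.log n)| ≤ C)
    {x : ℝ} (hx : 2 ≤ Real.log x) {n : ℕ} (h1 : Real.exp (Real.log x / 2) ≤ n) (h2 : (n : ℝ) ≤ x) :
    bigB x - (C + 1) ≤ ys n ∧ (ys n : ℝ) ≤ bigB x + C := by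
  have e1 := Real.add_one_le_exp (Real.log x / 2)
  have hn : (2 : ℝ) ≤ n := by linarith
  have h3 := abs_le.1 (hM n (by exact_mod_cast hn))
  have h4 : Real.log x / 2 ≤ Real.log n := (Real.le_log_iff_exp_le (by linarith)).2 h1
  have h5 : Real.log n ≤ Real.log x := Real.log_le_log (by linarith) h2
  have h6 : Real.log (Real.log n) ≤ bigB x := Real.log_le_log (by linarith) h5
  have h7 : Real.log (Real.log x / 2) ≤ Real.log (Real.log n) := Real.log_le_log (by linarith) h4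
  rw [Real.log_div (by linarith) (by norm_num)] at h7
  have h8 := Real.log_two_lt_d9
  unfold bigB at h6 ⊢
  constructor <;> linarith [h3.1, h3.2]

theorem le_exp_of_ys {C : ℝ} (hM : ∀ n : ℕ, 2 ≤ n → |(ys n : ℝ) - Real.log (Real.log n)| ≤ C)
    {n : ℕ} (hn : 2 ≤ n) {t : ℝ} (h : (ys n : ℝ) ≤ t) : (n : ℝ) ≤ Real.exp (Real.exp (t + C)) := by
  have h1 : (2 : ℝ) ≤ n := by exact_mod_cast hn
  have h2 := abs_le.1 (hM n hn)
  have h3 : 0 < Real.log n := Real.log_pos (by linarith)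
  rw [← Real.log_le_iff_le_exp (by linarith), ← Real.log_le_iff_le_exp h3]
  linarith [h2.1]

/-! ## the top prime -/

open Classical in
/-- the admissible top primes for a tuple of value `w`. -/
def Q0 (x h : ℝ) (w : ℕ) : Finset ℕ :=
  (range (⌊x / w⌋₊ + 1)).filter fun q =>
    q.Prime ∧ Real.exp (Real.log x / 2) < q ∧ Normal (h ^ 12) q

theorem mem_Q0 {x h : ℝ} {w q : ℕ} (hx : 0 ≤ x) (hw : 0 < w) (hq : q ∈ Q0 x h w) :
    q.Prime ∧ Real.exp (Real.log x / 2) < q ∧ Normal (h ^ 12) q ∧ (q : ℝ) * w ≤ x := by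
  classical
  rw [Q0, mem_filter, mem_range, Nat.lt_succ_iff] at hq
  have hw' : (0 : ℝ) < w := by exact_mod_cast hw
  refine ⟨hq.2.1, hq.2.2.1, hq.2.2.2, ?_⟩
  rw [← le_div_iff₀ hw']
  exact (Nat.le_floor_iff (by positivity)).1 hq.1

theorem card_Q0 {C : ℝ} (hM : ∀ n : ℕ, 2 ≤ n → |(ys n : ℝ) - Real.log (Real.log n)| ≤ C)
    {x h ε : ℝ} (hx0 : 0 < x) (hx : 4 ≤ Real.log x) (hε : ε ≤ 1)
    (hπ : ∀ z : ℝ, Real.exp (3 / 4 * Real.log x) ≤ z →
      1 - ε / 3 ≤ (Nat.primeCounting ⌊z⌋₊ : ℝ) * Real.log z / z)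
    (hT : 3 * Real.log x ≤ ε * Real.exp (1 / 4 * Real.log x))
    (hNN : ∀ (X : ℕ) (S : Finset ℕ), (ys X : ℝ) ≤ 2 * h ^ 21 →
      (∀ q ∈ S, q.Prime ∧ q ≤ X ∧ ¬ Normal (h ^ 12) q) →
      (S.card : ℝ) ≤ X * Real.exp (-(ys X : ℝ) - h ^ 2))
    (hB : bigB x + C ≤ 2 * h ^ 21) (hh : Real.exp (C + 1 - h ^ 2) ≤ ε / 3)
    {w : ℕ} (hw : 0 < w) (hw' : (w : ℝ) ≤ Real.exp (1 / 4 * Real.log x)) :
    (1 - ε) * (x / Real.log x) * (1 / w) ≤ (Q0 x h w).card := by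
  classical
  set T := Real.log x with hTdef
  have hT0 : 0 < T := by linarith
  have hw0 : (1 : ℝ) ≤ w := by exact_mod_cast hw
  have hxe : x = Real.exp (3 / 4 * T) * Real.exp (1 / 4 * T) := by
    rw [← Real.exp_add, show 3 / 4 * T + 1 / 4 * T = T by ring, hTdef, Real.exp_log hx0]
  have h34 : Real.exp (3 / 4 * T) = Real.exp (T / 2) * Real.exp (1 / 4 * T) := by
    rw [← Real.exp_add]
    congr 1
    ring
  set z := x / w with hz
  have hz1 : Real.exp (3 / 4 * T) ≤ z := by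
    rw [hz, le_div_iff₀ (by linarith), hxe]
    exact mul_le_mul_of_nonneg_left hw' (Real.exp_pos _).le
  have hz2 : z ≤ x := div_le_self hx0.le hw0
  have e1 := Real.add_one_le_exp (1 / 4 * T)
  have e2 := Real.add_one_le_exp (T / 2)
  have e3 : Real.exp (T / 2) + 1 ≤ Real.exp (3 / 4 * T) := by rw [h34]; nlinarith
  have hz0 : 1 < z := by linarith
  have hX1 : (⌊z⌋₊ : ℝ) ≤ z := Nat.floor_le (by linarith)
  have hX2 : Real.exp (T / 2) ≤ ⌊z⌋₊ := by linarith [Nat.lt_floor_add_one z]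
  have hys := ys_bounds hM (x := x) (by linarith) hX2 (hX1.trans hz2)
  have hl0 : 0 < Real.log z := Real.log_pos hz0
  have hl1 : Real.log z ≤ T := Real.log_le_log (by linarith) hz2
  -- the three counts
  have c1 : (1 - ε / 3) * (z / T) ≤ Nat.primeCounting ⌊z⌋₊ := by
    have h1 := hπ z hz1
    rw [le_div_iff₀ (by linarith)] at h1
    rw [← mul_div_assoc, div_le_iff₀ hT0]
    exact h1.trans (mul_le_mul_of_nonneg_left hl1 (Nat.cast_nonneg _))
  have c2 : Real.exp (T / 2) ≤ ε / 3 * (z / T) := by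
    rw [← mul_div_assoc, le_div_iff₀ hT0]
    have hε0 : 0 ≤ ε := by
      by_contra hneg
      have := mul_neg_of_neg_of_pos (not_le.1 hneg) (Real.exp_pos (1 / 4 * T))
      linarith
    have h1 := mul_le_mul_of_nonneg_left hT (Real.exp_pos (T / 2)).le
    have h2 := mul_le_mul_of_nonneg_left hz1 hε0
    rw [h34] at h2
    linarith
  have c3 : (((range (⌊z⌋₊ + 1)).filter fun q => q.Prime ∧ ¬ Normal (h ^ 12) q).card : ℝ) ≤
      ε / 3 * (z / T) := by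
    refine (hNN ⌊z⌋₊ _ (by linarith [hys.2]) fun q hq => ?_).trans ?_
    · rw [mem_filter, mem_range, Nat.lt_succ_iff] at hq
      exact ⟨hq.2.1, hq.1, hq.2.2⟩
    · have h1 : Real.exp (-(ys ⌊z⌋₊ : ℝ) - h ^ 2) ≤ Real.exp (C + 1 - h ^ 2) * (1 / T) := by
        rw [one_div, ← Real.exp_log hT0, ← Real.exp_neg, ← Real.exp_add]
        exact Real.exp_le_exp.2 (by have := hys.1; unfold bigB at this; linarith)
      have h2 := mul_le_mul_of_nonneg_right hh (one_div_pos.2 hT0).le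
      calc _ ≤ z * (ε / 3 * (1 / T)) :=
            mul_le_mul hX1 (h1.trans h2) (Real.exp_pos _).le (by linarith)
        _ = _ := by ring
  have c4 : Nat.primeCounting ⌊z⌋₊ ≤ (Q0 x h w).card + ((Icc 1 ⌊Real.exp (T / 2)⌋₊).card +
      ((range (⌊z⌋₊ + 1)).filter fun q => q.Prime ∧ ¬ Normal (h ^ 12) q).card) := by
    rw [Nat.primeCounting, Nat.primeCounting', Nat.count_eq_card_filter_range]
    refine le_trans (card_le_card ?_) ((card_union_le _ _).trans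
      (Nat.add_le_add_left (card_union_le _ _) _))
    intro q hq
    rw [mem_filter] at hq
    simp only [mem_union, Q0, mem_filter, mem_Icc]
    by_cases h1 : Real.exp (T / 2) < q
    · by_cases h2 : Normal (h ^ 12) q
      · exact Or.inl ⟨hq.1, hq.2, h1, h2⟩
      · exact Or.inr (Or.inr ⟨hq.1, hq.2, h2⟩)
    · exact Or.inr (Or.inl ⟨hq.2.one_le, Nat.le_floor (not_lt.1 h1)⟩)
  have c5 : (⌊Real.exp (T / 2)⌋₊ : ℝ) ≤ Real.exp (T / 2) := Nat.floor_le (Real.exp_pos _).le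
  rw [Nat.card_Icc, Nat.add_sub_cancel] at c4
  have c6 : (Nat.primeCounting ⌊z⌋₊ : ℝ) ≤ (Q0 x h w).card + (⌊Real.exp (T / 2)⌋₊ +
      ((range (⌊z⌋₊ + 1)).filter fun q => q.Prime ∧ ¬ Normal (h ^ 12) q).card) := by
    exact_mod_cast c4
  have e4 : (1 - ε) * (x / T) * (1 / w) = (1 - ε) * (z / T) := by rw [hz]; ring
  rw [e4]
  linarith

/-! ## the objects -/

/-- the object attached to a top prime `a`, a tuple `q` and a bottom part `r`. -/
def Ob {M : ℕ} (κ a : ℕ) (q : Fin M → ℕ) (r : ℕ) : (Fin (M + κ + 1) → ℕ) × ℕ :=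
  (blk (zq (Fin.cons a q : Fin (M + 1) → ℕ) r) 0 (M + κ + 1), (D^[κ] r).totient)

theorem zq_cons_zero {M : ℕ} (a : ℕ) (q : Fin M → ℕ) (r : ℕ) :
    zq (Fin.cons a q : Fin (M + 1) → ℕ) r 0 = a := by
  rw [zq_lt _ _ (Nat.succ_pos M)]
  rfl

theorem Ob_zero {M : ℕ} (κ a : ℕ) (q : Fin M → ℕ) (r : ℕ) : (Ob κ a q r).1 0 = a :=
  zq_cons_zero a q r

theorem tv_Ob {M κ : ℕ} (a : ℕ) (q : Fin M → ℕ) {r : ℕ} (h : ∀ i < κ, pr r (i + 1) < pr r i) :
    tv (Ob κ a q r) = (a - 1) * tv (q, r.totient) := by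
  rw [← tv_cons, tv_split (Fin.cons a q : Fin (M + 1) → ℕ) r (L := 0) (n := M + κ + 1) (κ := κ)
    (Nat.zero_le _) (by omega) h]
  simp [pv, Ob]

theorem Ob_inj {M κ a a' r r' : ℕ} {q q' : Fin M → ℕ} (h : ∀ i < κ, pr r (i + 1) < pr r i)
    (h' : ∀ i < κ, pr r' (i + 1) < pr r' i) (e : Ob κ a q r = Ob κ a' q' r') :
    a = a' ∧ q = q' ∧ r.totient = r'.totient := by
  have e1 := glue_blk (Fin.cons a q : Fin (M + 1) → ℕ) r (L := 0) (n := M + κ + 1) (κ := κ)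
    (Nat.zero_le _) (by omega) h
  have e2 := glue_blk (Fin.cons a' q' : Fin (M + 1) → ℕ) r' (L := 0) (n := M + κ + 1) (κ := κ)
    (Nat.zero_le _) (by omega) h'
  have e3 : blk (zq (Fin.cons a q : Fin (M + 1) → ℕ) r) 0 0 =
      blk (zq (Fin.cons a' q' : Fin (M + 1) → ℕ) r') 0 0 := Subsingleton.elim _ _
  unfold Ob at e
  rw [e3, e, e2] at e1
  obtain ⟨e4, e5⟩ := Prod.mk.inj e1
  obtain ⟨e6, e7⟩ := Fin.cons_injective2 e4
  exact ⟨e6.symm, e7.symm, e5.symm⟩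

theorem strictAnti_cons {M a : ℕ} {q : Fin M → ℕ} (hq : StrictAnti q) (ha : ∀ i, q i < a) :
    StrictAnti (Fin.cons a q : Fin (M + 1) → ℕ) := by
  intro i j hij
  induction j using Fin.cases with
  | zero => exact absurd hij (Fin.not_lt_zero i)
  | succ j =>
    induction i using Fin.cases with
    | zero => exact ha j
    | succ i => exact hq (Fin.succ_lt_succ_iff.1 hij)

theorem obj_Ob {M κ m a r : ℕ} {q : Fin M → ℕ} {h h' B C : ℝ} (hm : M + κ ≤ m) (h0 : 0 ≤ h')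
    (hh : h' ≤ h) (ha : a.Prime) (han : Normal (h ^ 12) a) (ha1 : B - C ≤ ys a)
    (ha2 : (ys a : ℝ) ≤ h ^ 21) (hC : C ≤ h ^ 19) (hq : ∀ i, (q i).Prime ∧ Normal (h ^ 12) (q i))
    (hanti : StrictAnti (Fin.cons a q : Fin (M + 1) → ℕ))
    (hP : ∀ i, P r < (Fin.cons a q : Fin (M + 1) → ℕ) i) (hr : Adm h' κ r)
    (hc : ∑ i ∈ range m, aCoef (i + 1) * sq q r i ≤ B + -(2 * h ^ 19)) : Obj h (Ob κ a q r) := by
  have h12 : h' ^ 12 ≤ h ^ 12 := pow_le_pow_left₀ h0 hh 12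
  refine obj_blk (κ := M + κ) (a := 0) (fun i hi => ?_) (fun i hi => ?_) ?_ ?_ ?_ ?_ ?_
  · rw [zero_add]
    rcases i with _ | j
    · rw [zq_cons_zero]
      exact ⟨ha, han⟩
    · rw [zq_cons]
      rcases lt_or_ge j M with hj | hj
      · rw [zq_lt _ _ hj]
        exact hq _
      · obtain ⟨s, rfl⟩ := Nat.exists_eq_add_of_le hj
        have hs : s < κ := by omega
        rw [zq_add]
        exact ⟨(P_prime_of_one_lt ((one_le_P _).trans_lt (hr.lt s hs))).1, (hr.nor s hs).mono h12⟩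
  · rw [zero_add]
    exact zq_succ_lt _ r hanti hP hr.lt (by omega)
  · rwa [zq_cons_zero]
  · exact Nat.totient_pos.2 (iterate_D_pos hr.pos κ)
  · have h1 : ys (P (D^[κ] r).totient) ≤ ys (pr r κ) :=
      ys_mono (P_totient_le (iterate_D_pos hr.pos κ))
    have h2 : (ys (P (D^[κ] r).totient) : ℝ) ≤ ys (pr r κ) := by exact_mod_cast h1
    exact h2.trans (hr.sm.trans h12)
  · linarith [hr.om]
  · rw [sum_range_succ']
    simp only [zero_add, zq_cons, zq_cons_zero, aCoef_zero, ← sq_eq_zq]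
    have h1 : ∑ i ∈ range (M + κ), aCoef (i + 1) * sq q r i ≤
        ∑ i ∈ range m, aCoef (i + 1) * sq q r i :=
      sum_le_sum_of_subset_of_nonneg (range_mono hm) fun i _ _ =>
        mul_nonneg (aCoef_pos (by omega)).le (sq_nonneg' q r i)
    linarith

/-! ## counting -/

theorem card_le_count {α : Type*} {x : ℝ} (S : Finset α) (v : α → ℕ) (hinj : Set.InjOn v S)
    (h : ∀ a ∈ S, (v a : ℝ) ≤ x ∧ ∃ n : ℕ, 0 < n ∧ n.totient = v a) :
    S.card ≤ totientCount x := by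
  classical
  rw [← card_image_of_injOn hinj, ← Set.ncard_coe_finset, totientCount]
  refine Set.ncard_le_ncard (fun u hu => ?_) ((Set.finite_Iic ⌊x⌋₊).subset fun u hu => ?_)
  · obtain ⟨a, ha, rfl⟩ := mem_image.1 (mem_coe.1 hu)
    exact h a ha
  · exact Nat.le_floor hu.1

/-- the combinatorial core: pairs (tuple, top prime) give distinct values up to collisions. -/
theorem core {M κ b : ℕ} {x h : ℝ} (TT : Finset ((Fin M → ℕ) × ℕ))
    (Q : (Fin M → ℕ) × ℕ → Finset ℕ) (ρ : (Fin M → ℕ) × ℕ → ℕ)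
    (huniq : ∀ τ ∈ TT, ∀ τ' ∈ TT, tv τ' = tv τ → τ' = τ)
    (hρ : ∀ τ ∈ TT, (ρ τ).totient = τ.2 ∧ ∀ i < κ, pr (ρ τ) (i + 1) < pr (ρ τ) i)
    (hQ : ∀ τ ∈ TT, ∀ a ∈ Q τ, 2 ≤ a ∧ Obj h (Ob κ a τ.1 (ρ τ)) ∧ b ≤ ys a ∧
      (((a - 1) * tv τ : ℕ) : ℝ) ≤ x ∧ ∃ n : ℕ, 0 < n ∧ n.totient = (a - 1) * tv τ)
    (hColl : ∀ A : Finset ((Fin (M + κ + 1) → ℕ) × ℕ),
      (∀ τ ∈ A, Obj h τ ∧ (tv τ : ℝ) ≤ x ∧ b ≤ ys (τ.1 0) ∧
        ∃ τ' : (Fin (M + κ + 1) → ℕ) × ℕ, Obj h τ' ∧ tv τ' = tv τ ∧ τ'.1 0 ≠ τ.1 0 ∧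
          b ≤ ys (τ'.1 0)) → (A.card : ℝ) ≤ x * Real.exp (-(b : ℝ))) :
    ∑ τ ∈ TT, ((Q τ).card : ℝ) ≤ totientCount x + x * Real.exp (-(b : ℝ)) := by
  classical
  let S := TT.sigma Q
  let v : (Σ _ : (Fin M → ℕ) × ℕ, ℕ) → ℕ := fun a => (a.2 - 1) * tv a.1
  let O : (Σ _ : (Fin M → ℕ) × ℕ, ℕ) → (Fin (M + κ + 1) → ℕ) × ℕ := fun a => Ob κ a.2 a.1.1 (ρ a.1)
  let bad : (Σ _ : (Fin M → ℕ) × ℕ, ℕ) → Prop := fun a => ∃ a' ∈ S, v a' = v a ∧ a'.2 ≠ a.2
  have hO : ∀ a ∈ S, tv (O a) = v a := fun a ha => by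
    have h1 := hρ _ (mem_sigma.1 ha).1
    simp only [O, v]
    rw [tv_Ob _ _ h1.2, h1.1]
  have h1 : ((S.filter bad).card : ℝ) ≤ x * Real.exp (-(b : ℝ)) := by
    have hinj : Set.InjOn O (S.filter bad) := by
      rintro ⟨τ, a⟩ ha ⟨τ', a'⟩ ha' e
      have t1 := hρ _ (mem_sigma.1 (mem_filter.1 (mem_coe.1 ha)).1).1
      have t2 := hρ _ (mem_sigma.1 (mem_filter.1 (mem_coe.1 ha')).1).1
      obtain ⟨e1, e2, e3⟩ := Ob_inj t1.2 t2.2 e
      have e4 : τ = τ' := Prod.ext e2 (by rw [← t1.1, ← t2.1, e3])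
      dsimp only at e1
      rw [e4, e1]
    rw [← card_image_of_injOn hinj]
    refine hColl _ fun τ hτ => ?_
    obtain ⟨a, ha, rfl⟩ := mem_image.1 hτ
    obtain ⟨ha, a', ha', e, hne⟩ := mem_filter.1 ha
    have t1 := hQ _ (mem_sigma.1 ha).1 _ (mem_sigma.1 ha).2
    have t2 := hQ _ (mem_sigma.1 ha').1 _ (mem_sigma.1 ha').2
    refine ⟨t1.2.1, ?_, ?_, O a', t2.2.1, ?_, ?_, ?_⟩
    · rw [hO a ha]
      exact t1.2.2.2.1
    · simp only [O, Ob_zero]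
      exact t1.2.2.1
    · rw [hO a ha, hO a' ha', e]
    · simp only [O, Ob_zero]
      exact hne
    · simp only [O, Ob_zero]
      exact t2.2.2.1
  have h2 : (S.filter fun a => ¬ bad a).card ≤ totientCount x := by
    refine card_le_count _ v ?_ fun a ha => ?_
    · rintro ⟨τ, a⟩ ha ⟨τ', a'⟩ ha' e
      obtain ⟨ha, hb⟩ := mem_filter.1 (mem_coe.1 ha)
      have ha' := (mem_filter.1 (mem_coe.1 ha')).1
      have e1 : a' = a := by
        by_contra hne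
        exact hb ⟨_, ha', e.symm, hne⟩
      subst e1
      have t1 : 2 ≤ a' := (hQ _ (mem_sigma.1 ha).1 _ (mem_sigma.1 ha).2).1
      have e2 : tv τ = tv τ' := Nat.eq_of_mul_eq_mul_left (by omega : 0 < a' - 1) e
      have e3 : τ = τ' := huniq _ (mem_sigma.1 ha').1 _ (mem_sigma.1 ha).1 e2
      rw [e3]
    · have ha := (mem_filter.1 ha).1
      exact (hQ _ (mem_sigma.1 ha).1 _ (mem_sigma.1 ha).2).2.2.2
  have h3 := card_filter_add_card_filter_not (s := S) bad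
  rw [card_sigma] at h3
  have h4 : ∑ τ ∈ TT, ((Q τ).card : ℝ) =
      (S.filter bad).card + (S.filter fun a => ¬ bad a).card := by exact_mod_cast h3.symm
  have h5 : ((S.filter fun a => ¬ bad a).card : ℝ) ≤ totientCount x := by exact_mod_cast h2
  linarith

/-! ## sizes of the tuples -/

theorem tv_pos {R : Set ℕ} {m K : ℕ} {B : ℝ} {t : ℕ → ℝ} (hR : ∀ r ∈ R, 0 < r)
    {τ : (Fin (m - K) → ℕ) × ℕ} (h : τ ∈ To R m K B t) : 0 < tv τ := by
  obtain ⟨h1, -, -, r, hr, e, -⟩ := h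
  refine Nat.mul_pos (prod_pos fun i _ => ?_) (e ▸ Nat.totient_pos.2 (hR r hr))
  have := (h1 i).two_le
  omega

theorem tv_le {M W : ℕ} {E : ℝ} {τ : (Fin M → ℕ) × ℕ} (h1 : ∀ i, (τ.1 i : ℝ) ≤ Real.exp E)
    (h2 : τ.2 ≤ W) : (tv τ : ℝ) ≤ Real.exp (M * E) * W := by
  have h3 : ((pv τ.1 : ℕ) : ℝ) ≤ Real.exp (M * E) := by
    rw [pv, Nat.cast_prod, Real.exp_nat_mul]
    refine (prod_le_prod (fun i _ => Nat.cast_nonneg _) (g := fun _ => Real.exp E)
      fun i _ => le_trans (by exact_mod_cast Nat.sub_le _ _) (h1 i)).trans (by simp)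
  rw [tv, Nat.cast_mul]
  exact mul_le_mul h3 (by exact_mod_cast h2) (Nat.cast_nonneg _) (Real.exp_pos _).le

theorem To_finite {R : Set ℕ} (hR : R.Finite) (m K : ℕ) (B : ℝ) (t : ℕ → ℝ) :
    (To R m K B t).Finite := by
  refine ((Set.Finite.pi' fun _ : Fin (m - K) => finite_ys ⌈9 / 10 * B⌉₊).prod
    (hR.image Nat.totient)).subset ?_
  rintro τ ⟨h1, -, h2, r, hr, e, -⟩
  exact ⟨fun i => ⟨h1 i, by exact_mod_cast (h2 i).trans (Nat.le_ceil _)⟩, r, hr, e⟩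

theorem ev_x (C W ε : ℝ) (hε : 0 < ε) (hPi : PiStmt) : ∀ᶠ x : ℝ in atTop,
    0 < x ∧ 4 ≤ Real.log x ∧ C ≤ bigB x ∧
    (∀ z : ℝ, Real.exp (3 / 4 * Real.log x) ≤ z →
      1 - ε / 3 ≤ (Nat.primeCounting ⌊z⌋₊ : ℝ) * Real.log z / z) ∧
    3 * Real.log x ≤ ε * Real.exp (1 / 4 * Real.log x) ∧
    bigB x * Real.exp (9 / 10 * bigB x + C) ≤ 1 / 8 * Real.log x ∧
    W ≤ Real.exp (1 / 8 * Real.log x) := by
  have tT := Real.tendsto_log_atTop
  have tB : Tendsto bigB atTop atTop := tT.comp tT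
  have tE : ∀ c : ℝ, 0 < c → Tendsto (fun x => Real.exp (c * Real.log x)) atTop atTop :=
    fun c hc => Real.tendsto_exp_atTop.comp (tT.const_mul_atTop hc)
  obtain ⟨z₀, hz₀⟩ := eventually_atTop.1
    (Tendsto.eventually_const_le (show 1 - ε / 3 < 1 by linarith) hPi)
  filter_upwards [eventually_gt_atTop 0, tT.eventually_ge_atTop 4, tB.eventually_ge_atTop C,
    (tE (3 / 4) (by norm_num)).eventually_ge_atTop z₀,
    tT.eventually (ev_lin (3 / ε) (c := 1 / 4) (by norm_num)),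
    tB.eventually (ev_lin (8 * Real.exp C) (c := 1 / 10) (by norm_num)),
    (tE (1 / 8) (by norm_num)).eventually_ge_atTop W] with x h0 h1 h2 h3 h4 h5 h6
  refine ⟨h0, h1, h2, fun z hz => hz₀ z (h3.trans hz), ?_, ?_, h6⟩
  · rw [div_mul_eq_mul_div, div_le_iff₀ hε] at h4
    linarith
  · have e1 : Real.log x = Real.exp (1 / 10 * bigB x) * Real.exp (9 / 10 * bigB x) := by
      rw [← Real.exp_add, show 1 / 10 * bigB x + 9 / 10 * bigB x = bigB x by ring, bigB,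
        Real.exp_log (by linarith)]
    have e2 := mul_le_mul_of_nonneg_right h5 (Real.exp_pos (9 / 10 * bigB x)).le
    rw [Real.exp_add, e1]
    linarith

theorem ev_h (C ε : ℝ) (hε : 0 < ε) : ∀ᶠ h : ℝ in atTop,
    C + 1 ≤ h ^ 19 ∧ Real.exp (C + 1 - h ^ 2) ≤ ε / 3 := by
  filter_upwards [eventually_ge_atTop 1, eventually_ge_atTop (C + 1),
    eventually_ge_atTop (C + 1 - Real.log (ε / 3))] with h h1 h2 h3
  have e1 : h ≤ h ^ 19 := le_self_pow₀ h1 (by norm_num)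
  have e2 : h ≤ h ^ 2 := le_self_pow₀ h1 (by norm_num)
  refine ⟨h2.trans e1, ?_⟩
  rw [← Real.exp_log (show 0 < ε / 3 by positivity)]
  exact Real.exp_le_exp.2 (by linarith)

end LowerAux

open LowerAux in
theorem lower (hM : MertensStmt) (hPi : PiStmt) (hNN : NNStmt) (hColl : CollStmt)
    (hClean : CleanStmt) : LowerStmt := by
  classical
  intro p
  obtain ⟨CM, hCM0, hM⟩ := hM
  filter_upwards [p.eventually_h (hNN.and hColl), hClean p] with h₀ ⟨h1, hh⟩ ⟨C₁, hC₁, hClean⟩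
  have h0 : 0 ≤ h₀ := by linarith
  refine ⟨C₁ + Real.exp (CM + 1), by linarith [Real.exp_pos (CM + 1)], ?_⟩
  intro K κ R hK hκ hR hA ε hε
  obtain ⟨W, hW⟩ := (hR.image Nat.totient).bddAbove
  have th : Tendsto (p.h h₀) atTop atTop :=
    tendsto_atTop_mono (fun j => le_trans (by nlinarith [(Nat.cast_nonneg j : (0 : ℝ) ≤ j)])
      (hh j).2) tendsto_natCast_atTop_atTop
  have hm := p.eventually_Sc (Q := fun m B => K < m ∧
      (CM + 1 ≤ p.h h₀ m ^ 19 ∧ Real.exp (CM + 1 - p.h h₀ m ^ 2) ≤ min ε 1 / 3) ∧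
      2 * B ≤ p.h h₀ m ^ 21 ∧ 2 * (m : ℝ) ^ 2 ≤ B ∧
      (K ≤ m → Mass tv (To R m K B (p.tm h₀) \ {τ | τ ∈ p.Tn h₀ R m K B ∧
        ∀ τ' ∈ p.Tn h₀ R m K B, tv τ' = tv τ → τ' = τ}) ≤
        ENNReal.ofReal (C₁ * ∑ L ∈ range (m - K), G L B))) (by
    filter_upwards [eventually_gt_atTop K, th.eventually (ev_h CM (min ε 1) (by positivity)),
      p.eventually_top h1 2, hClean] with m a1 a2 a3 a4 B hB
    exact ⟨a1, a2, (a3 B hB).2.1, (a3 B hB).2.2, fun hk => a4 B hB K κ R hK hk hκ hA⟩)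
  filter_upwards [hm, ev_x CM W (min ε 1) (by positivity) hPi] with x hm
    ⟨x0, x1, x2, x3, x4, x5, x6⟩ m hS A hA0 hAM
  obtain ⟨m1, ⟨m2, m3⟩, m4, m5, m6⟩ := hm m hS
  obtain ⟨⟨⟨hNN, -⟩, hColl⟩, hsq⟩ := hh m
  set h := p.h h₀ m with hdef
  set B := bigB x with hBdef
  have hB0 : 0 < B := hS.1
  have hT0 : 0 < Real.log x := by linarith
  have hmB : (m : ℝ) ≤ B ∧ 1 ≤ B := by
    have : (1 : ℝ) ≤ m := by exact_mod_cast (by omega : 1 ≤ m)
    constructor <;> nlinarith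
  have hRpos : ∀ r ∈ R, 0 < r := fun r hr => (hA r hr).pos
  -- the clean tuples
  set U := {τ | τ ∈ p.Tn h₀ R m K B ∧ ∀ τ' ∈ p.Tn h₀ R m K B, tv τ' = tv τ → τ' = τ} with hU
  have hfin : U.Finite := (To_finite hR m K B (p.tm h₀)).subset fun τ hτ => hτ.1.1
  have hmem : ∀ τ, τ ∈ hfin.toFinset ↔ τ ∈ U := fun τ => hfin.mem_toFinset
  have hSg : 1 ≤ ∑ L ∈ range (m - K), G L B := by
    have := single_le_sum (f := fun L => G L B) (fun L _ => (G_pos L hB0).le)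
      (mem_range.2 (by omega : 0 < m - K))
    rwa [G_zero] at this
  set Sg := ∑ L ∈ range (m - K), G L B
  have hsum0 : 0 ≤ ∑ τ ∈ hfin.toFinset, 1 / (tv τ : ℝ) := sum_nonneg fun τ _ => by positivity
  have hsum : A ≤ ∑ τ ∈ hfin.toFinset, 1 / (tv τ : ℝ) + C₁ * Sg := by
    have e1 : Mass tv U = ENNReal.ofReal (∑ τ ∈ hfin.toFinset, 1 / (tv τ : ℝ)) := by
      rw [← Mass_coe _ fun τ hτ => tv_pos hRpos ((hmem τ).1 hτ).1.1, hfin.coe_toFinset]
    have e2 : Mass tv (To R m K B (p.tm h₀)) ≤ Mass tv U + Mass tv (To R m K B (p.tm h₀) \ U) :=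
      (Mass_mono fun τ hτ => (em (τ ∈ U)).imp id fun h => ⟨hτ, h⟩).trans (Mass_union_le _ _)
    have e3 := hAM.trans (e2.trans (add_le_add e1.le (m6 m1.le)))
    rwa [← ENNReal.ofReal_add hsum0 (by positivity),
      ENNReal.ofReal_le_ofReal_iff (by positivity)] at e3
  -- the bottom parts
  have hex : ∀ τ : (Fin (m - K) → ℕ) × ℕ, ∃ r : ℕ, τ ∈ U → r ∈ R ∧ r.totient = τ.2 ∧
      (∀ i, P r < τ.1 i) ∧ Con m (m - K) B (p.tm h₀) (sq τ.1 r) := fun τ => by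
    by_cases hτ : τ ∈ U
    · obtain ⟨r, hr⟩ := hτ.1.1.2.2.2
      exact ⟨r, fun _ => hr⟩
    · exact ⟨0, fun h => absurd h hτ⟩
  choose ρ hρ using hex
  -- sizes
  have hq : ∀ τ ∈ U, ∀ i, (τ.1 i : ℝ) ≤ Real.exp (Real.exp (9 / 10 * B + CM)) := fun τ hτ i =>
    le_exp_of_ys hM (hτ.1.1.1 i).two_le (hτ.1.1.2.2.1 i)
  have hE0 := Real.exp_pos (9 / 10 * B + CM)
  have hw : ∀ τ ∈ U, (tv τ : ℝ) ≤ Real.exp (1 / 4 * Real.log x) := fun τ hτ => by
    obtain ⟨r1, r2, -⟩ := hρ τ hτ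
    refine (tv_le (hq τ hτ) (W := W) (hW ⟨_, r1, r2⟩)).trans ?_
    have e1 : ((m - K : ℕ) : ℝ) ≤ B := le_trans (by exact_mod_cast Nat.sub_le m K) hmB.1
    have e2 := mul_le_mul_of_nonneg_right e1 hE0.le
    rw [show 1 / 4 * Real.log x = 1 / 8 * Real.log x + 1 / 8 * Real.log x by ring,
      Real.exp_add (1 / 8 * Real.log x)]
    exact mul_le_mul (Real.exp_le_exp.2 (e2.trans x5)) x6 (Nat.cast_nonneg _) (Real.exp_pos _).le
  have hκm : m - K + κ ≤ m := by omega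
  have hcore := core (κ := κ) (b := ⌈B - (CM + 1)⌉₊) (x := x) (h := h) hfin.toFinset
    (fun τ => Q0 x h (tv τ)) ρ
    (fun τ hτ τ' hτ' => ((hmem τ).1 hτ).2 τ' ((hmem τ').1 hτ').1)
    (fun τ hτ => ⟨(hρ τ ((hmem τ).1 hτ)).2.1, (hA _ (hρ τ ((hmem τ).1 hτ)).1).lt⟩)
    (fun τ hτ a ha => by
      have hτ := (hmem τ).1 hτ
      obtain ⟨r1, r2, r3, r4⟩ := hρ τ hτ
      have hpos := tv_pos hRpos hτ.1.1
      obtain ⟨a1, a2, a3, a4⟩ := mem_Q0 x0.le hpos ha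
      have hpos' : (1 : ℝ) ≤ tv τ := by exact_mod_cast hpos
      have a5 : (a : ℝ) ≤ x := le_trans (le_mul_of_one_le_right (Nat.cast_nonneg _) hpos') a4
      obtain ⟨a6, a7⟩ := ys_bounds hM (by linarith) a2.le a5
      have a8 : ∀ i, τ.1 i < a := fun i => by
        have e1 := mul_le_mul_of_nonneg_right hmB.2 hE0.le
        have e2 : Real.exp (Real.exp (9 / 10 * B + CM)) ≤ Real.exp (Real.log x / 2) :=
          Real.exp_le_exp.2 (by linarith)
        exact_mod_cast ((hq τ hτ i).trans e2).trans_lt a2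
      have a9 := strictAnti_cons hτ.1.1.2.1 a8
      have a10 : ∀ i, P (ρ τ) < (Fin.cons a τ.1 : Fin (m - K + 1) → ℕ) i := fun i => by
        induction i using Fin.cases with
        | zero => exact (r3 ⟨0, by omega⟩).trans (a8 _)
        | succ i => exact r3 i
      have a11 : ∀ i, ((Fin.cons a τ.1 : Fin (m - K + 1) → ℕ) i).Prime := fun i => by
        induction i using Fin.cases with
        | zero => exact a1
        | succ i => exact hτ.1.1.1 i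
      refine ⟨a1.two_le, obj_Ob hκm (h0.trans (p.le_h h0 K)) (p.h_mono h0 m1.le) a1 a3 a6
        (by linarith) m2 (fun i => ⟨hτ.1.1.1 i, (hτ.1.2 i).1.mono (pow_le_pow_left₀
          (h0.trans (p.le_h h0 _)) (p.h_mono h0 (by omega)) 12)⟩) a9 a10 (hA _ r1) r4.1,
        Nat.ceil_le.2 a6, ?_, (∏ i, (Fin.cons a τ.1 : Fin (m - K + 1) → ℕ) i) * ρ τ, ?_, ?_⟩
      · refine le_trans ?_ a4
        exact_mod_cast Nat.mul_le_mul_right _ (Nat.sub_le a 1)
      · exact Nat.mul_pos (prod_pos fun i _ => (a11 i).pos) (hRpos _ r1)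
      · rw [totient_tuple _ _ a11 a9 (hRpos _ r1) a10, tv_cons, r2])
    (fun S hS => (hColl (m - K + κ) (le_trans (by
      have : ((m - K + κ : ℕ) : ℝ) ≤ m := by exact_mod_cast hκm
      gcongr) hsq)).2 x _ S x0.le hS)
  have hlow : (1 - min ε 1) * (x / Real.log x) * ∑ τ ∈ hfin.toFinset, 1 / (tv τ : ℝ) ≤
      ∑ τ ∈ hfin.toFinset, ((Q0 x h (tv τ)).card : ℝ) := by
    rw [mul_sum]
    refine sum_le_sum fun τ hτ => ?_
    have hτ := (hmem τ).1 hτ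
    exact card_Q0 hM x0 x1 (min_le_right _ _) x3 x4 hNN (by linarith) m3
      (tv_pos hRpos hτ.1.1) (hw τ hτ)
  have hb : x * Real.exp (-(⌈B - (CM + 1)⌉₊ : ℝ)) ≤ x / Real.log x * Real.exp (CM + 1) := by
    have e1 : Real.exp (-(⌈B - (CM + 1)⌉₊ : ℝ)) ≤ (Real.log x)⁻¹ * Real.exp (CM + 1) := by
      rw [← Real.exp_log hT0, ← Real.exp_neg, ← Real.exp_add]
      exact Real.exp_le_exp.2 (by have := Nat.le_ceil (B - (CM + 1)); unfold bigB at hBdef; linarith)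
    rw [div_eq_mul_inv, mul_assoc]
    exact mul_le_mul_of_nonneg_left e1 x0.le
  have hxT : 0 < x / Real.log x := div_pos x0 hT0
  have f1 : 0 ≤ 1 - min ε 1 := by linarith [min_le_right ε 1]
  have f2 : (1 - ε) * A ≤ (1 - min ε 1) * A :=
    mul_le_mul_of_nonneg_right (by linarith [min_le_left ε 1]) hA0
  have f3 := mul_le_mul_of_nonneg_left hsum f1
  have f4 : (1 - min ε 1) * (C₁ * Sg) ≤ C₁ * Sg :=
    mul_le_of_le_one_left (by positivity) (by linarith [lt_min hε one_pos])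
  have f5 := le_mul_of_one_le_right (Real.exp_pos (CM + 1)).le hSg
  have f6 : (1 - ε) * A - (C₁ + Real.exp (CM + 1)) * Sg ≤
      (1 - min ε 1) * ∑ τ ∈ hfin.toFinset, 1 / (tv τ : ℝ) - Real.exp (CM + 1) := by linarith
  have f7 := mul_le_mul_of_nonneg_left f6 hxT.le
  linarith

end Crest.Agent.R20
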