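import Crest.Agent.R20.Basic

/-!
# Row 20: assembly of `MainStmt`
-/

set_option autoImplicit false

noncomputable section

namespace Crest.Agent.R20

open Crest.NumberTheoryR.TotientScale Finset Filter Topology MeasureTheory
open scoped ENNReal ArithmeticFunction.Omega

namespace MainAux

theorem den_pos {x B : ℝ} (hx : 1 < x) (hB : 0 < B) (m : ℕ) : 0 < x / Real.log x * G m B :=
  mul_pos (div_pos (by linarith) (Real.log_pos hx)) (G_pos m hB)

theorem G_mul (m : ℕ) (B s : ℝ) : G m (B * s) = G m B * s ^ m := by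
  rw [G, G, mul_pow]; ring

theorem psi_nonneg (R : Finset ℕ) (m K : ℕ) (B : ℝ) : 0 ≤ psi R m K B :=
  sum_nonneg fun _ _ => mul_nonneg (by positivity) measureReal_nonneg

/-- the parameters with a wider interval. -/
def wide (p : Par) : Par :=
  { p with κ₁ := p.κ₁ / 2, κ₂ := 2 * p.κ₂, κ_pos := half_pos p.κ_pos }

theorem kap_mul (ρ : ℝ) (m : ℕ) (B s : ℝ) : kap ρ m (B * s) = kap ρ m B / s := by
  rw [kap, kap, div_div, mul_assoc]

theorem wide_Sc {p : Par} {m : ℕ} {B s : ℝ} (h : p.Sc m B) (h1 : 1 / 2 ≤ s) (h2 : s ≤ 2) :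
    (wide p).Sc m (B * s) := by
  have hs : 0 < s := by linarith
  have a := h.2.1
  have b := h.2.2
  have c := p.κ_pos
  refine ⟨mul_pos h.1 hs, ?_, ?_⟩
  · change p.κ₁ / 2 ≤ kap p.ρ m (B * s)
    rw [kap_mul, le_div_iff₀ hs]; nlinarith
  · change kap p.ρ m (B * s) ≤ 2 * p.κ₂
    rw [kap_mul, div_le_iff₀ hs]; nlinarith

theorem bounds (hG : GsumStmt) (hU : UpperStmt) (hLo : LowerStmt) (hP : PosStmt) (p : Par) :
    ∃ c₁ c₂ : ℝ, 0 < c₁ ∧ ∀ᶠ x : ℝ in atTop, ∀ m, p.Sc m (bigB x) → c₁ ≤ ff x m ∧ ff x m ≤ c₂ := by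
  obtain ⟨h₀, ⟨⟨C₂, hC₂⟩, -⟩, ⟨C, hC1, hC⟩, h1⟩ :=
    ((hU p).and ((hLo p).and (eventually_ge_atTop 1))).exists
  obtain ⟨c, hc, hP⟩ := hP p
  obtain ⟨-, hG2, -, hG4⟩ := hG p
  obtain ⟨K, hK1, hK2, hK3⟩ := ((hP h₀ h1).and ((hG2 (c / (4 * C)) (by positivity)).and
    (eventually_ge_atTop 1))).exists
  obtain ⟨c', hc', hG4⟩ := hG4 K
  have hh : 0 ≤ p.h h₀ K := le_trans (by linarith) (p.le_h (by linarith) K)
  have hA : ∀ r ∈ ({1} : Set ℕ), Adm (p.h h₀ K) 0 r := by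
    rintro _ rfl
    exact ⟨one_pos, by simp, by simp, by simp; positivity, by simp; positivity⟩
  have hL := hC K 0 {1} hK3 (Nat.zero_le _) (Set.finite_singleton 1) hA (1 / 2) (by norm_num)
  have hQ : ∀ᶠ m : ℕ in atTop, ∀ B, p.Sc m B → K ≤ m ∧ c' * G m B ≤ G (m - K) B ∧
      ENNReal.ofReal (c * G (m - K) B) ≤ Mass tv (To {1} m K B (p.tm h₀)) := by
    filter_upwards [hK1, hG4, eventually_ge_atTop K] with m a b d B hB
    exact ⟨d, b B hB, a B hB⟩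
  refine ⟨c / 4 * c', C₂, by positivity, ?_⟩
  filter_upwards [hC₂, hL, p.eventually_Sc hQ, eventually_gt_atTop 1] with x a b d hx m hm
  obtain ⟨d1, d2, d3⟩ := d m hm
  have hd := den_pos hx hm.1 m
  have hGM := G_pos (m - K) hm.1
  have hxl : 0 < x / Real.log x := div_pos (by linarith) (Real.log_pos hx)
  refine ⟨(le_div_iff₀ hd).2 (le_trans ?_ (b m hm _ (by positivity) d3)),
    (div_le_iff₀ hd).2 (a m hm)⟩
  have e1 := mul_le_mul_of_nonneg_left (hK2 m _ hm d1).1 (by linarith : 0 ≤ C)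
  have e2 : C * (c / (4 * C) * G (m - K) (bigB x)) = c / 4 * G (m - K) (bigB x) := by
    field_simp
  rw [mul_left_comm]
  refine mul_le_mul_of_nonneg_left ?_ hxl.le
  nlinarith

theorem arith {f a δ c₂ s₁ s₂ u₁ u₂ : ℝ} (hδ : 0 < δ) (hδ' : δ ≤ 1 / 4) (hf0 : 0 ≤ f) (hf : f ≤ c₂)
    (hs₁ : 1 - δ ≤ s₁) (hs₂ : s₂ ≤ 1 + 2 * δ) (hu₁0 : 0 ≤ u₁) (hu₂0 : 0 ≤ u₂)
    (hu₁ : a - 2 * δ ≤ u₁) (hu₂ : u₂ ≤ a + 2 * δ)
    (hlo : (1 - δ) * (u₁ * s₁ - δ) - δ ≤ f) (hup : f ≤ (1 + δ) * (u₂ * s₂) + δ) :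
    |f - a| ≤ δ * (8 * c₂ + 13) := by
  have a1 : u₁ * (1 - δ) ≤ u₁ * s₁ := mul_le_mul_of_nonneg_left hs₁ hu₁0
  have a2 : u₂ * s₂ ≤ u₂ * (1 + 2 * δ) := mul_le_mul_of_nonneg_left hs₂ hu₂0
  have a3 : (1 - 2 * δ) * u₁ - 2 * δ ≤ f := by nlinarith [mul_nonneg hu₁0 (sq_nonneg δ)]
  have a4 : f ≤ (1 + 4 * δ) * u₂ + δ := by
    nlinarith [mul_nonneg hu₂0 (mul_nonneg hδ.le (by linarith : 0 ≤ 1 - 2 * δ))]
  have a5 : u₁ ≤ 2 * c₂ + 1 := by nlinarith
  have a6 : u₂ ≤ 2 * c₂ + 2 := by linarith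
  rw [abs_le]
  constructor <;> nlinarith

theorem pow_bounds {η : ℝ} (h0 : 0 < η) (h1 : η ≤ 1 / 4) {m : ℕ} (hm : 1 ≤ m) :
    1 - η ≤ (1 - η / m) ^ m ∧ (1 + η / m) ^ m ≤ 1 + 2 * η ∧ 0 ≤ η / m ∧ η / m ≤ 1 / 4 := by
  have hm' : (1 : ℝ) ≤ m := by exact_mod_cast hm
  have a : η / m ≤ 1 / 4 := (div_le_self h0.le hm').trans h1
  have b : 0 ≤ η / m := by positivity
  have c : (m : ℝ) * (η / m) = η := by field_simp
  refine ⟨?_, ?_, b, a⟩
  · have := one_add_mul_le_pow (a := -(η / m)) (by linarith) m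
    rw [mul_neg, c] at this
    exact this
  · calc _ ≤ Real.exp (η / m) ^ m :=
          pow_le_pow_left₀ (by linarith) (by linarith [Real.add_one_le_exp (η / m)]) m
      _ = Real.exp η := by rw [← Real.exp_nat_mul, c]
      _ ≤ _ := by
          have := (abs_le.1 (Real.abs_exp_sub_one_le (x := η) (by rw [abs_of_pos h0]; linarith))).2
          rw [abs_of_pos h0] at this
          linarith

theorem near {p : Par} {A : ℝ → ℝ} (hA : Continuous A) {δ : ℝ} (hδ : 0 < δ) :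
    ∀ᶠ m : ℕ in atTop, ∀ B, p.Sc m B → ∀ s : ℝ, |s - 1| ≤ 1 / 2 → |s - 1| ≤ 1 / m →
      |A (kap p.ρ m (B * s)) - A (kap p.ρ m B)| ≤ δ := by
  have hu := (isCompact_Icc (a := p.κ₁ / 2) (b := 2 * p.κ₂)).uniformContinuousOn_of_continuous
    hA.continuousOn
  obtain ⟨θ, hθ, hu⟩ := Metric.uniformContinuousOn_iff_le.1 hu δ hδ
  filter_upwards [(tendsto_const_div_atTop_nhds_zero_nat (2 * p.κ₂)).eventually_le_const hθ]
    with m hm B hB s h1 h2
  obtain ⟨s1, s2⟩ := abs_le.1 h1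
  have w1 := wide_Sc (s := s) hB (by linarith) (by linarith)
  have w2 := wide_Sc (s := 1) hB (by norm_num) (by norm_num)
  rw [mul_one] at w2
  refine hu _ w1.2 _ w2.2 ?_
  have hs : 0 < s := by linarith
  have k0 : 0 < kap p.ρ m B := p.κ_pos.trans_le hB.2.1
  have k1 := hB.2.2
  change |kap p.ρ m (B * s) - kap p.ρ m B| ≤ θ
  have e : kap p.ρ m (B * s) - kap p.ρ m B = -(kap p.ρ m B / s) * (s - 1) := by
    rw [kap_mul]; field_simp; ring
  have k2 : kap p.ρ m B / s ≤ 2 * p.κ₂ := by rw [div_le_iff₀ hs]; nlinarith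
  rw [e, abs_mul, abs_neg, abs_of_pos (div_pos k0 hs)]
  calc _ ≤ 2 * p.κ₂ * (1 / m) := mul_le_mul k2 h2 (abs_nonneg _) (by linarith)
    _ ≤ θ := by rwa [mul_one_div]

end MainAux

open MainAux in
theorem mainStmt (hG : GsumStmt) (hU : UpperStmt) (hLo : LowerStmt) (hO : OrdStmt) (hP : PosStmt)
    (hPsi : PsiStmt) (hLim : LimitStmt) : MainStmt := by
  intro p
  have hb := bounds hG hU hLo hP p
  refine ⟨hb, fun ε hε => ?_⟩
  obtain ⟨c₁, c₂, hc₁, hb⟩ := hb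
  obtain ⟨h₀, ⟨-, hU⟩, ⟨C, hC1, hC⟩, hO, h1⟩ :=
    ((hU p).and ((hLo p).and ((hO p).and (eventually_ge_atTop 1)))).exists
  obtain ⟨-, hG2, -, -⟩ := hG p
  have hc : 0 < 8 * |c₂| + 13 := by positivity
  set δ := min (1 / 4) (ε / (8 * |c₂| + 13)) with hδdef
  have hδ : 0 < δ := lt_min (by norm_num) (by positivity)
  have hδ1 : δ ≤ 1 / 4 := min_le_left _ _
  have hδ2 : δ * (8 * |c₂| + 13) ≤ ε := (le_div_iff₀ hc).1 (min_le_right _ _)
  obtain ⟨K, k1, k2, k3, k4, k5, k6⟩ := ((hU δ hδ).and ((hO δ hδ).and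
    ((hG2 (δ / C) (by positivity)).and ((hPsi p h₀ δ h1 hδ).and ((p.R_adm h1).and
    (eventually_ge_atTop 1)))))).exists
  set R := (p.R_finite h₀ K).toFinset with hR
  have hRc : (R : Set ℕ) = p.R h₀ K := (p.R_finite h₀ K).coe_toFinset
  have hR0 : ∀ r ∈ R, 0 < r := fun r hr => (k5 r (hRc ▸ mem_coe.2 hr)).pos
  obtain ⟨A, hA, hLim⟩ := hLim (wide p) R K
  refine ⟨A, hA, ?_⟩
  have hL := hC K (K - K / 2) (p.R h₀ K) k6 (Nat.sub_le _ _) (p.R_finite h₀ K) k5 δ hδ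
  have hQ : ∀ᶠ m : ℕ in atTop, ∀ B, p.Sc m B → K < m ∧
      Mass tv (Tu (p.R h₀ K) m K B (p.tm h₀)) ≤
        Mass tv (To (p.R h₀ K) m K B (p.tm h₀)) + ENNReal.ofReal (δ * G m B) ∧
      ∀ s : ℝ, |s - 1| ≤ δ / m →
        |psi R m K (B * s) / G m (B * s) - A (kap p.ρ m B)| ≤ 2 * δ := by
    filter_upwards [k2, hLim δ hδ, near (p := p) hA hδ, eventually_gt_atTop K] with m a b c d B hB
    refine ⟨d, a B hB, fun s hs => ?_⟩
    have e1 : |s - 1| ≤ 1 / 2 := by linarith [(pow_bounds hδ hδ1 (by omega : 1 ≤ m)).2.2.2]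
    have e2 : |s - 1| ≤ 1 / m :=
      hs.trans (div_le_div_of_nonneg_right (by linarith) (Nat.cast_nonneg m))
    obtain ⟨s1, s2⟩ := abs_le.1 e1
    have e3 := b _ (wide_Sc (s := s) hB (by linarith) (by linarith))
    have e4 := c B hB s e1 e2
    change |_ - A (kap p.ρ m (B * s))| ≤ δ at e3
    linarith [abs_sub_le (psi R m K (B * s) / G m (B * s)) (A (kap p.ρ m (B * s)))
      (A (kap p.ρ m B))]
  filter_upwards [hb, k1, hL, p.eventually_Sc hQ, eventually_gt_atTop 1] with x a b c d hx m hm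
  obtain ⟨d1, d2, d3⟩ := d m hm
  obtain ⟨q1, q2, q3, q4⟩ := pow_bounds hδ hδ1 (by omega : 1 ≤ m)
  obtain ⟨p1, p2⟩ := k4 m _ hm d1 R hR0
  rw [hRc] at p1 p2
  set B := bigB x
  have hGm := G_pos m hm.1
  have hxl : 0 < x / Real.log x := div_pos (by linarith) (Real.log_pos hx)
  have hd := mul_pos hxl hGm
  have hs1 : 0 < 1 - δ / m := by linarith
  have hs2 : 0 < 1 + δ / m := by linarith
  have g1 := G_pos m (mul_pos hm.1 hs1)
  have g2 := G_pos m (mul_pos hm.1 hs2)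
  have u1 := abs_le.1 (d3 (1 - δ / m) (by rw [sub_sub_cancel_left, abs_neg, abs_of_nonneg q3]))
  have u2 := abs_le.1 (d3 (1 + δ / m) (by rw [add_sub_cancel_left, abs_of_nonneg q3]))
  refine le_trans (arith (c₂ := |c₂|) hδ hδ1 (by linarith [(a m hm).1])
    ((a m hm).2.trans (le_abs_self _)) q1 q2 (div_nonneg (psi_nonneg R m K _) g1.le)
    (div_nonneg (psi_nonneg R m K _) g2.le) (by linarith [u1.1]) (by linarith [u2.2]) ?_ ?_) hδ2
  · have e1 : ENNReal.ofReal (max (psi R m K (B * (1 - δ / m)) - δ * G m B) 0) ≤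
        Mass tv (To (p.R h₀ K) m K B (p.tm h₀)) := by
      rw [ENNReal.ofReal_max, ENNReal.ofReal_zero, max_eq_left zero_le,
        ENNReal.ofReal_sub _ (by positivity), tsub_le_iff_right]
      exact p2.trans d2
    refine (le_div_iff₀ hd).2 (le_trans ?_ (c m hm _ (le_max_right _ _) e1))
    have e2 : C * ∑ L ∈ range (m - K), G L B ≤ δ * G m B := by
      calc _ ≤ C * (δ / C * G m B) := mul_le_mul_of_nonneg_left (le_trans
            (sum_le_sum_of_subset_of_nonneg (range_mono (Nat.le_succ _))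
              fun L _ _ => (G_pos L hm.1).le) (k3 m B hm d1.le).2) (by linarith)
        _ = _ := by field_simp
    have e3 : psi R m K (B * (1 - δ / m)) / G m (B * (1 - δ / m)) * (1 - δ / m) ^ m * G m B =
        psi R m K (B * (1 - δ / m)) := by
      rw [mul_assoc, mul_comm _ (G m B), ← G_mul, div_mul_cancel₀ _ g1.ne']
    have e4 := mul_le_mul_of_nonneg_left
      (le_max_left (psi R m K (B * (1 - δ / m)) - δ * G m B) 0) (by linarith : 0 ≤ 1 - δ)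
    rw [mul_left_comm]
    refine mul_le_mul_of_nonneg_left ?_ hxl.le
    nlinarith
  · refine (div_le_iff₀ hd).2 ((b m hm _ (psi_nonneg R m K _) p1).trans (le_of_eq ?_))
    have e3 : psi R m K (B * (1 + δ / m)) / G m (B * (1 + δ / m)) * (1 + δ / m) ^ m * G m B =
        psi R m K (B * (1 + δ / m)) := by
      rw [mul_assoc, mul_comm _ (G m B), ← G_mul, div_mul_cancel₀ _ g2.ne']
    rw [mul_left_comm]
    congr 1
    linear_combination (-(1 + δ)) * e3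

end Crest.Agent.R20
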