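import Crest.Agent.R20.Basic

/-!
# Row 20: the master bound (tuples followed by a bad or last level)
-/

set_option autoImplicit false

noncomputable section

namespace Crest.Agent.R20

open Crest.NumberTheoryR.TotientScale Finset Filter Topology MeasureTheory
open scoped ENNReal ArithmeticFunction.Omega

namespace MasterAux

/-- the set of `TopStmt`. -/
def TopSet (m L k : ℕ) (B : ℝ) (tp : ℕ → ℝ) (t : ℕ) : Set (Fin L → ℕ) :=
  {q : Fin L → ℕ | (∀ i, (q i).Prime) ∧ ∃ Y : ℕ → ℝ, (∀ i, 0 ≤ Y i) ∧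
    (∀ i : Fin L, Y i = ys (q i)) ∧ Y L = t ∧ Con m L B tp Y ∧ (k < L → Fl m k Y)}

/-- the set of `BadStmt`. -/
def W0 (h : ℝ) (j : ℕ) : Set ℕ :=
  {v | ∃ n : ℕ, 0 < n ∧ (ys (P n) : ℝ) ≤ h ^ 21 ∧ ¬ Good h j n ∧ n.totient = v}

theorem X_subset (p : Par) (h₀ : ℝ) (m L k : ℕ) (B : ℝ) :
    p.X h₀ m L k B ⊆
      (TopSet m L k B (p.tp h₀) 0 ×ˢ
        (W0 (p.h h₀ (m - 1 - L)) (m - 1 - L) ∪ Vs ⌊h₀ ^ 21⌋₊)) ∪
      ⋃ t : ℕ, (if p.h h₀ (m - 1 - L) ^ 21 < t then TopSet m L k B (p.tp h₀) t ×ˢ Vs t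
        else ∅) := by
  rintro ⟨q, w⟩ ⟨hq, n, hn, hw, hbad, hcon, hfl⟩
  dsimp only at hq hw hcon hfl
  by_cases ht : p.h h₀ (m - 1 - L) ^ 21 < (ys (P n) : ℝ)
  · right
    refine Set.mem_iUnion.2 ⟨ys (P n), ?_⟩
    rw [if_pos ht]
    refine ⟨⟨hq, sq q n, sq_nonneg' q n, sq_fin q n, ?_, hcon, hfl⟩, n, ⟨hn, le_rfl⟩, hw⟩
    exact sq_add q n 0
  · left
    have ht' := not_lt.1 ht
    obtain ⟨h1, h2⟩ := Con.trunc (sq_nonneg' q n) hcon hfl
    refine ⟨⟨hq, fun i => if i < L then sq q n i else 0, fun i => ?_, fun i => ?_, ?_, h1, h2⟩, ?_⟩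
    · dsimp only
      split_ifs
      · exact sq_nonneg' q n i
      · exact le_rfl
    · dsimp only
      rw [if_pos i.2, sq_fin]
    · simp
    · rcases hbad with hL | hbad
      · right
        refine ⟨n, ⟨hn, Nat.le_floor ?_⟩, hw⟩
        have h0 : m - 1 - L = 0 := by omega
        rw [h0] at ht'
        simpa [Par.h] using ht'
      · left
        exact ⟨n, hn, ht', hbad, hw⟩

end MasterAux

open MasterAux in
theorem master (hT : TopStmt) (hB : BadStmt) : MasterStmt := by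
  intro p
  obtain ⟨c, hc, hT⟩ := hT p
  obtain ⟨⟨CB, hCB, hB1⟩, hB2, -⟩ := hB
  refine ⟨c, hc, ?_⟩
  filter_upwards [p.eventually_h (hB1.and (hB2 c hc))] with h₀ ⟨hh, hQ⟩
  obtain ⟨CT, hCT, hT⟩ := hT h₀ hh
  have hexp : 0 < Real.exp (⌊h₀ ^ 21⌋₊ : ℕ) := Real.exp_pos _
  refine ⟨CT * (CB + Real.exp (⌊h₀ ^ 21⌋₊ : ℕ) + 1), by nlinarith, ?_⟩
  filter_upwards [hT] with m hm B hSc L hL k
  obtain ⟨⟨hQ1, hQ2⟩, hj⟩ := hQ (m - 1 - L)
  have hh0 : 0 ≤ p.h h₀ (m - 1 - L) := le_trans (by linarith) (p.le_h (by linarith) _)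
  set h := p.h h₀ (m - 1 - L) with hh'
  set E : ℝ := CT * G L B / (1 + c) ^ (L - 1 - k) with hE
  have hE0 : 0 ≤ E := by
    have := G_pos L hSc.1
    positivity
  have hTop : ∀ t : ℕ, Mass pv (TopSet m L k B (p.tp h₀) t) ≤
      ENNReal.ofReal (E * if (t : ℝ) ≤ h ^ 21 then 1 else Real.exp (-(c * t / h ^ 20))) :=
    fun t => hm B hSc L hL k t
  have h1 : Mass tv (TopSet m L k B (p.tp h₀) 0 ×ˢ (W0 h (m - 1 - L) ∪ Vs ⌊h₀ ^ 21⌋₊)) ≤
      ENNReal.ofReal E * (ENNReal.ofReal CB + ENNReal.ofReal (Real.exp (⌊h₀ ^ 21⌋₊ : ℕ))) := by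
    refine (Mass_tv_prod _ _).trans (mul_le_mul' ?_ ?_)
    · have := hTop 0
      rwa [if_pos (by simpa using pow_nonneg hh0 21), mul_one] at this
    · refine (Mass_union_le _ _).trans (add_le_add (hQ1 _ hj) ?_)
      exact (Mass_mono (Vs_subset _)).trans (H_Sm_le _)
  have h2 : Mass tv (⋃ t : ℕ, (if h ^ 21 < t then TopSet m L k B (p.tp h₀) t ×ˢ Vs t else ∅)) ≤
      ENNReal.ofReal E := by
    refine (Mass_iUnion_le _).trans ?_
    have h3 := hQ2 0 (by simpa using hh0)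
    calc ∑' t : ℕ, Mass tv (if h ^ 21 < t then TopSet m L k B (p.tp h₀) t ×ˢ Vs t else ∅)
        ≤ ∑' t : ℕ, ENNReal.ofReal E * (if h ^ 21 < t then
          ENNReal.ofReal (Real.exp (-(c * t / h ^ 20)) * (t : ℝ) ^ 0) * H (Vs t) else 0) := by
          refine ENNReal.tsum_le_tsum fun t => ?_
          split_ifs with ht
          · refine (Mass_tv_prod _ _).trans ?_
            rw [← mul_assoc, pow_zero, mul_one, ← ENNReal.ofReal_mul hE0]
            refine mul_le_mul' ?_ le_rfl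
            have := hTop t
            rwa [if_neg (not_le.2 ht)] at this
          · simp
      _ ≤ ENNReal.ofReal E * 1 := by
          rw [ENNReal.tsum_mul_left]
          exact mul_le_mul' le_rfl h3
      _ = _ := mul_one _
  refine (Mass_mono (X_subset p h₀ m L k B)).trans ((Mass_union_le _ _).trans
    ((add_le_add h1 h2).trans (le_of_eq ?_)))
  rw [← ENNReal.ofReal_add (by linarith) hexp.le, ← ENNReal.ofReal_mul hE0,
    ← ENNReal.ofReal_add (by positivity) hE0]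
  congr 1
  rw [hE]
  ring

end Crest.Agent.R20
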