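import Crest.Agent.R20.Basic

/-!
# Row 20: the peeling bound for matrices (`MatStmt`)
-/

set_option autoImplicit false

noncomputable section

namespace Crest.Agent.R20

open Crest.NumberTheoryR.TotientScale Finset Filter Topology MeasureTheory
open scoped ENNReal ArithmeticFunction.Omega

namespace MatAux

/-! ## two generic summation lemmas -/

theorem sum_le_of_pos {α π : Type*} [Fintype π] (A : Finset α) (f : α → ℝ) (Q : π → α → Prop)
    (B : ℝ) (hA : ∀ d ∈ A, ∃ p, Q p d)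
    (h : ∀ p, ∀ A' : Finset α, (∀ d ∈ A', d ∈ A ∧ Q p d) → ∑ d ∈ A', f d ≤ B) [Nonempty π] :
    ∑ d ∈ A, f d ≤ Fintype.card π * B := by
  classical
  choose! pos hpos using hA
  rw [← sum_fiberwise A pos f]
  refine (sum_le_sum fun p _ => h p _ fun d hd => ?_).trans ?_
  · obtain ⟨h1, h2⟩ := mem_filter.1 hd
    exact ⟨h1, h2 ▸ hpos d h1⟩
  · rw [sum_const, card_univ, nsmul_eq_mul]

theorem sum_le_of_dec {α β : Type*} [Nonempty β] (A : Finset α) (f : α → ℝ) (g : β → ℝ)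
    (m : β → ℕ → α) (Q : β → ℕ → Prop) (hA : ∀ d ∈ A, ∃ e l, d = m e l ∧ Q e l)
    (h : ∀ e, ∀ S : Finset ℕ, (∀ l ∈ S, Q e l ∧ m e l ∈ A) → ∑ l ∈ S, f (m e l) ≤ g e) :
    ∃ E : Finset β, (∀ e ∈ E, ∃ l, Q e l ∧ m e l ∈ A) ∧ ∑ d ∈ A, f d ≤ ∑ e ∈ E, g e := by
  classical
  choose! e l h1 h2 using hA
  refine ⟨A.image e, fun x hx => ?_, ?_⟩
  · obtain ⟨d, hd, rfl⟩ := mem_image.1 hx
    exact ⟨l d, h2 d hd, h1 d hd ▸ hd⟩
  · rw [← sum_fiberwise_of_maps_to (g := e) (t := A.image e) fun d hd => mem_image_of_mem e hd]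
    refine sum_le_sum fun x _ => le_trans (le_of_eq ?_)
      (h x ((A.filter fun d => e d = x).image l) fun y hy => ?_)
    · rw [sum_image]
      · refine sum_congr rfl fun d hd => ?_
        obtain ⟨h3, h4⟩ := mem_filter.1 hd
        rw [← h4, ← h1 d h3]
      · intro d hd d' hd' hl
        obtain ⟨h3, h4⟩ := mem_filter.1 (mem_coe.1 hd)
        obtain ⟨h5, h6⟩ := mem_filter.1 (mem_coe.1 hd')
        rw [h1 d h3, h1 d' h5, h4, h6, hl]
    · obtain ⟨d, hd, rfl⟩ := mem_image.1 hy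
      obtain ⟨h3, h4⟩ := mem_filter.1 hd
      exact ⟨h4 ▸ h2 d h3, h4 ▸ h1 d h3 ▸ h3⟩

variable {ι ι' : Type} [Fintype ι] [Fintype ι'] [DecidableEq ι] [DecidableEq ι']

/-! ## multiplying one entry -/

/-- multiply the entry `(i, i')` by `l`. -/
def ml (i : ι) (i' : ι') (e : ι → ι' → ℕ) (l : ℕ) : ι → ι' → ℕ :=
  fun a b => if a = i ∧ b = i' then e a b * l else e a b

omit [Fintype ι] in
theorem row_ml (i : ι) (i' : ι') (e : ι → ι' → ℕ) (l : ℕ) (a : ι) :
    ∏ b, ml i i' e l a b = (∏ b, e a b) * if a = i then l else 1 := by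
  have : ∀ b, ml i i' e l a b = e a b * if b = i' then (if a = i then l else 1) else 1 := by
    intro b
    unfold ml
    by_cases h1 : a = i <;> by_cases h2 : b = i' <;> simp [h1, h2]
  simp only [this, prod_mul_distrib, prod_ite_eq', mem_univ, if_true]

omit [Fintype ι'] in
theorem col_ml (i : ι) (i' : ι') (e : ι → ι' → ℕ) (l : ℕ) (b : ι') :
    ∏ a, ml i i' e l a b = (∏ a, e a b) * if b = i' then l else 1 := by
  have : ∀ a, ml i i' e l a b = e a b * if a = i then (if b = i' then l else 1) else 1 := by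
    intro a
    unfold ml
    by_cases h1 : a = i <;> by_cases h2 : b = i' <;> simp [h1, h2]
  simp only [this, prod_mul_distrib, prod_ite_eq', mem_univ, if_true]

theorem pp_ml (i : ι) (i' : ι') (e : ι → ι' → ℕ) (l : ℕ) :
    ∏ a, ∏ b, ml i i' e l a b = (∏ a, ∏ b, e a b) * l := by
  simp only [row_ml, prod_mul_distrib, prod_ite_eq', mem_univ, if_true]

variable {T δ : ℕ} {θ : ι → ℕ} {θ' : ι' → ℕ}

omit [DecidableEq ι] [DecidableEq ι'] in
theorem pp_pos {I : Finset ι} {I' : Finset ι'} {d : ι → ι' → ℕ} (h : Mat T δ θ θ' I I' d) :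
    0 < ∏ a, ∏ b, d a b :=
  prod_pos fun a _ => prod_pos fun b _ => (h.sm a b).1

/-- one peeling step. -/
structure Dec (T δ : ℕ) (θ : ι → ℕ) (θ' : ι' → ℕ) (I : Finset ι) (I' : Finset ι') (t : ℕ) (i : ι)
    (i' : ι') (e : ι → ι' → ℕ) (l : ℕ) : Prop where
  mat : Mat T δ θ θ' (I.erase i) (I'.erase i') e
  prime : l.Prime
  act : i ∈ I ∨ i' ∈ I'
  le : ys l ≤ T
  row : i ∈ I → θ i ≤ ys l + δ ∧ ((∏ b, e i b) * l + 1).Prime ∧ ys (∏ b, e i b) ≤ T
  col : i' ∈ I' → θ' i' ≤ ys l + δ ∧ ((∏ a, e a i') * l + 1).Prime ∧ ys (∏ a, e a i') ≤ T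
  ne : i ∈ I → i' ∈ I' → ∏ b, e i b ≠ ∏ a, e a i'
  top : t ≤ ys l + δ

theorem Act.prime {T δ θ n : ℕ} (h : Act T δ θ n) : (P n).Prime := by
  refine (P_prime_of_one_lt ?_).1
  by_contra h1
  have h2 : P n = 1 := le_antisymm (not_lt.1 h1) (one_le_P n)
  obtain ⟨-, -, h3, h4⟩ := h
  rw [h2, ys_one] at h4
  omega

theorem exists_dec {I : Finset ι} {I' : Finset ι'} {d : ι → ι' → ℕ} (h : Mat T δ θ θ' I I' d)
    (hne : I.Nonempty ∨ I'.Nonempty) {t : ℕ} (ht : t = 0 ∨ ∃ i₀ ∈ I', t = θ' i₀) :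
    ∃ p : ι × ι', ∃ e l, d = ml p.1 p.2 e l ∧ Dec T δ θ θ' I I' t p.1 p.2 e l := by
  have hrp : ∀ a, 0 < ∏ b, d a b := fun a => prod_pos fun b _ => (h.sm a b).1
  have hcp : ∀ b, 0 < ∏ a, d a b := fun b => prod_pos fun a _ => (h.sm a b).1
  obtain ⟨l, hl, hmax⟩ := exists_max_image
    ((I.image fun a => P (∏ b, d a b)) ∪ I'.image fun b => P (∏ a, d a b)) id (by
      rcases hne with h1 | h1
      · exact (h1.image _).mono subset_union_left
      · exact (h1.image _).mono subset_union_right)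
  have hr : ∀ a ∈ I, P (∏ b, d a b) ≤ l := fun a ha =>
    hmax _ (mem_union_left _ (mem_image_of_mem _ ha))
  have hc : ∀ b ∈ I', P (∏ a, d a b) ≤ l := fun b hb =>
    hmax _ (mem_union_right _ (mem_image_of_mem _ hb))
  have key : l.Prime ∧ ys l ≤ T ∧ ∃ i i', (i ∈ I ∨ i' ∈ I') ∧ l ∣ d i i' := by
    rcases mem_union.1 hl with h1 | h1
    · obtain ⟨a, ha, rfl⟩ := mem_image.1 h1
      have hp := Act.prime (h.row a ha)
      obtain ⟨b, -, hb⟩ := (Prime.dvd_finsetProd_iff hp.prime _).1 (P_dvd (∏ b, d a b))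
      exact ⟨hp, (ys_mono (P_le_self (hrp a))).trans (h.row a ha).2.1, a, b, Or.inl ha, hb⟩
    · obtain ⟨b, hb, rfl⟩ := mem_image.1 h1
      have hp := Act.prime (h.col b hb)
      obtain ⟨a, -, ha⟩ := (Prime.dvd_finsetProd_iff hp.prime _).1 (P_dvd (∏ a, d a b))
      exact ⟨hp, (ys_mono (P_le_self (hcp b))).trans (h.col b hb).2.1, a, b, Or.inr hb, ha⟩
  obtain ⟨hp, hT, i, i', hact, hdvd⟩ := key
  set e : ι → ι' → ℕ := fun a b => if a = i ∧ b = i' then d a b / l else d a b with he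
  have hd : d = ml i i' e l := by
    funext a b
    simp only [ml, he]
    split_ifs with h1
    · rw [h1.1, h1.2, Nat.div_mul_cancel hdvd]
    · rfl
  have hrow : ∀ a, ∏ b, d a b = (∏ b, e a b) * if a = i then l else 1 := fun a => by
    rw [← row_ml i i' e l a, ← hd]
  have hcol : ∀ b, ∏ a, d a b = (∏ a, e a b) * if b = i' then l else 1 := fun b => by
    rw [← col_ml i i' e l b, ← hd]
  have hri : ∏ b, d i b = (∏ b, e i b) * l := by rw [hrow, if_pos rfl]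
  have hci : ∏ a, d a i' = (∏ a, e a i') * l := by rw [hcol, if_pos rfl]
  have hr' : ∀ a ∈ I.erase i, ∏ b, e a b = ∏ b, d a b := fun a ha => by
    rw [hrow, if_neg (ne_of_mem_erase ha), mul_one]
  have hc' : ∀ b ∈ I'.erase i', ∏ a, e a b = ∏ a, d a b := fun b hb => by
    rw [hcol, if_neg (ne_of_mem_erase hb), mul_one]
  refine ⟨(i, i'), e, l, hd, ⟨fun a b => ?_, fun a ha => ?_, fun b hb => ?_, fun a ha b hb => ?_⟩,
    hp, hact, hT, fun hi => ?_, fun hi => ?_, fun hi hi' hh => ?_, ?_⟩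
  · have hdv : e a b ∣ d a b := by
      simp only [he]
      split_ifs with h1
      · rw [h1.1, h1.2]; exact Nat.div_dvd_of_dvd hdvd
      · rfl
    obtain ⟨h1, h2⟩ := mem_Sm.1 (h.sm a b)
    exact mem_Sm.2 ⟨Nat.pos_of_dvd_of_pos hdv h1, fun q hq hqd => h2 q hq (hqd.trans hdv)⟩
  · rw [hr' a ha]; exact h.row a (mem_of_mem_erase ha)
  · rw [hc' b hb]; exact h.col b (mem_of_mem_erase hb)
  · rw [hr' a ha, hc' b hb]; exact h.ne a (mem_of_mem_erase ha) b (mem_of_mem_erase hb)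
  · obtain ⟨h1, h2, -, h4⟩ := h.row i hi
    refine ⟨h4.trans (Nat.add_le_add_right (ys_mono (hr i hi)) _), hri ▸ h1,
      le_trans (ys_mono ?_) h2⟩
    rw [hri]; exact Nat.le_mul_of_pos_right _ hp.pos
  · obtain ⟨h1, h2, -, h4⟩ := h.col i' hi
    refine ⟨h4.trans (Nat.add_le_add_right (ys_mono (hc i' hi)) _), hci ▸ h1,
      le_trans (ys_mono ?_) h2⟩
    rw [hci]; exact Nat.le_mul_of_pos_right _ hp.pos
  · refine h.ne i hi i' hi' ?_
    rw [hri, hci, hh]
  · rcases ht with rfl | ⟨b, hb, rfl⟩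
    · exact Nat.zero_le _
    · exact (h.col b hb).2.2.2.trans (Nat.add_le_add_right (ys_mono (hc b hb)) _)

/-- the sieve part of `SieveStmt`. -/
def Sv (C : ℝ) : Prop :=
  ∀ (T c : ℕ) (A S : Finset ℕ), 1 ≤ T → A.card ≤ 2 → (∀ a ∈ A, 0 < a ∧ ys a ≤ T) →
    (∀ l ∈ S, l.Prime ∧ c ≤ ys l ∧ ys l ≤ T ∧ ∀ a ∈ A, (a * l + 1).Prime) →
    (∀ X : ℝ, 0 ≤ X → (∀ l ∈ S, (l : ℝ) ≤ X) →
      (S.card : ℝ) ≤ C * (T : ℝ) ^ 6 * X * Real.exp (-((A.card + 1 : ℕ) * c : ℝ))) ∧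
    (A.Nonempty → ∑ l ∈ S, (1 : ℝ) / l ≤ C * (T : ℝ) ^ 6 * Real.exp (-(A.card * c : ℝ)))

/-- the gain of one step. -/
def gn (δ : ℕ) (θ : ι → ℕ) (θ' : ι' → ℕ) (I : Finset ι) (I' : Finset ι') (i : ι) (i' : ι') : ℝ :=
  (if i ∈ I then (δ : ℝ) - θ i else 0) + if i' ∈ I' then (δ : ℝ) - θ' i' else 0

theorem sieve_dec {C : ℝ} (hC : 1 ≤ C) (hS : Sv C) (hT : 1 ≤ T) {I : Finset ι} {I' : Finset ι'}
    {t : ℕ} {i : ι} {i' : ι'} {e : ι → ι' → ℕ} (S : Finset ℕ)
    (h : ∀ l ∈ S, Dec T δ θ θ' I I' t i i' e l) :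
    (∀ X : ℝ, 0 ≤ X → (∀ l ∈ S, (l : ℝ) ≤ X) →
      (S.card : ℝ) ≤ C * (T : ℝ) ^ 6 * X * Real.exp (gn δ θ θ' I I' i i' + (δ - t))) ∧
    ∑ l ∈ S, (1 : ℝ) / l ≤ C * (T : ℝ) ^ 6 * Real.exp (gn δ θ θ' I I' i i') := by
  rcases S.eq_empty_or_nonempty with rfl | ⟨l₀, hl₀⟩
  · refine ⟨fun X hX _ => ?_, ?_⟩
    · rw [card_empty, Nat.cast_zero]; positivity
    · rw [sum_empty]; positivity
  have h₀ := h l₀ hl₀
  have hrp : 0 < ∏ b, e i b := prod_pos fun b _ => (h₀.mat.sm i b).1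
  have hcp : 0 < ∏ a, e a i' := prod_pos fun a _ => (h₀.mat.sm a i').1
  set c : ℕ := max (max (if i ∈ I then θ i else 0) (if i' ∈ I' then θ' i' else 0)) t - δ with hc
  have hc1 : i ∈ I → (θ i : ℝ) ≤ c + δ := fun hi => by
    have : θ i ≤ c + δ := by rw [hc, if_pos hi]; omega
    exact_mod_cast this
  have hc2 : i' ∈ I' → (θ' i' : ℝ) ≤ c + δ := fun hi => by
    have : θ' i' ≤ c + δ := by rw [hc, if_pos hi]; omega
    exact_mod_cast this
  have hc3 : (t : ℝ) ≤ c + δ := by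
    have : t ≤ c + δ := by rw [hc]; omega
    exact_mod_cast this
  have hcl : ∀ l ∈ S, c ≤ ys l := fun l hl => by
    have h1 := (h l hl).top
    have h2 : (if i ∈ I then θ i else 0) ≤ ys l + δ := by
      split_ifs with hi
      · exact ((h l hl).row hi).1
      · exact Nat.zero_le _
    have h3 : (if i' ∈ I' then θ' i' else 0) ≤ ys l + δ := by
      split_ifs with hi
      · exact ((h l hl).col hi).1
      · exact Nat.zero_le _
    rw [hc]; omega
  obtain ⟨A, hA2, hA0, hAp, hAl, hAg⟩ : ∃ A : Finset ℕ, A.card ≤ 2 ∧ A.Nonempty ∧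
      (∀ a ∈ A, 0 < a ∧ ys a ≤ T) ∧ (∀ l ∈ S, ∀ a ∈ A, (a * l + 1).Prime) ∧
      -(A.card * c : ℝ) ≤ gn δ θ θ' I I' i i' := by
    by_cases hi : i ∈ I <;> by_cases hi' : i' ∈ I'
    · refine ⟨{∏ b, e i b, ∏ a, e a i'}, card_le_two, insert_nonempty _ _, ?_, fun l hl => ?_, ?_⟩
      · simp only [mem_insert, mem_singleton, forall_eq_or_imp, forall_eq]
        exact ⟨⟨hrp, (h₀.row hi).2.2⟩, hcp, (h₀.col hi').2.2⟩
      · simp only [mem_insert, mem_singleton, forall_eq_or_imp, forall_eq]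
        exact ⟨((h l hl).row hi).2.1, ((h l hl).col hi').2.1⟩
      · rw [card_pair (h₀.ne hi hi'), gn, if_pos hi, if_pos hi']
        push_cast
        linarith [hc1 hi, hc2 hi']
    · refine ⟨{∏ b, e i b}, by simp, singleton_nonempty _, ?_, fun l hl => ?_, ?_⟩
      · simp only [mem_singleton, forall_eq]
        exact ⟨hrp, (h₀.row hi).2.2⟩
      · simp only [mem_singleton, forall_eq]
        exact ((h l hl).row hi).2.1
      · rw [card_singleton, gn, if_pos hi, if_neg hi']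
        push_cast
        linarith [hc1 hi]
    · refine ⟨{∏ a, e a i'}, by simp, singleton_nonempty _, ?_, fun l hl => ?_, ?_⟩
      · simp only [mem_singleton, forall_eq]
        exact ⟨hcp, (h₀.col hi').2.2⟩
      · simp only [mem_singleton, forall_eq]
        exact ((h l hl).col hi').2.1
      · rw [card_singleton, gn, if_neg hi, if_pos hi']
        push_cast
        linarith [hc2 hi']
    · exact absurd h₀.act (by tauto)
  obtain ⟨h1, h2⟩ := hS T c A S hT hA2 hAp fun l hl =>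
    ⟨(h l hl).prime, hcl l hl, (h l hl).le, hAl l hl⟩
  refine ⟨fun X hX hlX => (h1 X hX hlX).trans ?_, (h2 hA0).trans ?_⟩
  · gcongr
    push_cast
    linarith
  · gcongr

/-- the bound of the induction. -/
def bt (E : ℝ) (θ : ι → ℕ) (θ' : ι' → ℕ) (I : Finset ι) (I' : Finset ι') : ℝ :=
  Real.exp (∑ i, (θ i : ℝ) - ∑ i ∈ I, (θ i : ℝ) - ∑ i' ∈ I', (θ' i' : ℝ)) * E ^ (I.card + I'.card)

theorem bt_step {K N : ℝ} (hK : 1 ≤ K) (hN : 1 ≤ N) {I : Finset ι} {I' : Finset ι'} {i : ι}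
    {i' : ι'} (h : i ∈ I ∨ i' ∈ I') :
    N * (K * Real.exp (gn δ θ θ' I I' i i') *
      bt (K * N * Real.exp δ) θ θ' (I.erase i) (I'.erase i')) ≤
      bt (K * N * Real.exp δ) θ θ' I I' := by
  set E : ℝ := K * N * Real.exp δ with hE
  have hE0 : 0 < E := by positivity
  unfold bt gn
  by_cases hi : i ∈ I <;> by_cases hi' : i' ∈ I'
  · rw [if_pos hi, if_pos hi', ← card_erase_add_one hi, ← card_erase_add_one hi',
      ← add_sum_erase _ _ hi, ← add_sum_erase _ _ hi']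
    set a := ∑ i, (θ i : ℝ)
    set b := ∑ i ∈ I.erase i, (θ i : ℝ)
    set c := ∑ i ∈ I'.erase i', (θ' i : ℝ)
    have h1 : Real.exp ((δ : ℝ) - θ i + (δ - θ' i')) * Real.exp (a - b - c) =
        Real.exp δ * Real.exp δ * Real.exp (a - (θ i + b) - (θ' i' + c)) := by
      simp only [← Real.exp_add]; congr 1; ring
    have h2 : N * K * (Real.exp δ * Real.exp δ) ≤ E ^ 2 := by
      have : 1 ≤ K * N := one_le_mul_of_one_le_of_one_le hK hN
      rw [hE]
      calc N * K * (Real.exp δ * Real.exp δ) = 1 * (N * K * (Real.exp δ * Real.exp δ)) := by ring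
        _ ≤ (K * N) * (N * K * (Real.exp δ * Real.exp δ)) := by gcongr
        _ = _ := by ring
    calc _ = N * K * (Real.exp ((δ : ℝ) - θ i + (δ - θ' i')) * Real.exp (a - b - c)) *
          E ^ ((I.erase i).card + (I'.erase i').card) := by ring
      _ = N * K * (Real.exp δ * Real.exp δ) * (Real.exp (a - (θ i + b) - (θ' i' + c)) *
          E ^ ((I.erase i).card + (I'.erase i').card)) := by rw [h1]; ring
      _ ≤ E ^ 2 * (Real.exp (a - (θ i + b) - (θ' i' + c)) *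
          E ^ ((I.erase i).card + (I'.erase i').card)) := by gcongr
      _ = _ := by ring
  · rw [if_pos hi, if_neg hi', erase_eq_of_notMem hi', ← card_erase_add_one hi,
      ← add_sum_erase _ _ hi]
    set a := ∑ i, (θ i : ℝ)
    set b := ∑ i ∈ I.erase i, (θ i : ℝ)
    set c := ∑ i ∈ I', (θ' i : ℝ)
    have h1 : Real.exp ((δ : ℝ) - θ i + 0) * Real.exp (a - b - c) =
        Real.exp δ * Real.exp (a - (θ i + b) - c) := by
      simp only [← Real.exp_add]; congr 1; ring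
    refine le_of_eq ?_
    calc _ = N * K * (Real.exp ((δ : ℝ) - θ i + 0) * Real.exp (a - b - c)) *
          E ^ ((I.erase i).card + I'.card) := by ring
      _ = E * (Real.exp (a - (θ i + b) - c) * E ^ ((I.erase i).card + I'.card)) := by
          rw [h1, hE]; ring
      _ = _ := by ring
  · rw [if_neg hi, if_pos hi', erase_eq_of_notMem hi, ← card_erase_add_one hi',
      ← add_sum_erase _ _ hi']
    set a := ∑ i, (θ i : ℝ)
    set b := ∑ i ∈ I, (θ i : ℝ)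
    set c := ∑ i ∈ I'.erase i', (θ' i : ℝ)
    have h1 : Real.exp (0 + ((δ : ℝ) - θ' i')) * Real.exp (a - b - c) =
        Real.exp δ * Real.exp (a - b - (θ' i' + c)) := by
      simp only [← Real.exp_add]; congr 1; ring
    refine le_of_eq ?_
    calc _ = N * K * (Real.exp (0 + ((δ : ℝ) - θ' i')) * Real.exp (a - b - c)) *
          E ^ (I.card + (I'.erase i').card) := by ring
      _ = E * (Real.exp (a - b - (θ' i' + c)) * E ^ (I.card + (I'.erase i').card)) := by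
          rw [h1, hE]; ring
      _ = _ := by ring
  · exact absurd h (by tauto)

/-! ## weights -/

/-- the additive weight. -/
def Fw (θ' : ι' → ℕ) (l : ℕ) : ℝ := -Real.log (Nc θ' (ys l))

omit [DecidableEq ι'] in
theorem one_le_Nc (θ' : ι' → ℕ) (c : ℕ) : (1 : ℝ) ≤ Nc θ' c := by
  exact_mod_cast le_max_left _ _

omit [DecidableEq ι'] in
theorem exp_Fw (θ' : ι' → ℕ) (l : ℕ) : Real.exp (Fw θ' l) = 1 / Nc θ' (ys l) := by
  rw [Fw, Real.exp_neg, Real.exp_log (by linarith [one_le_Nc θ' (ys l)]), one_div]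

omit [DecidableEq ι'] in
theorem exp_Fw_le (θ' : ι' → ℕ) (l : ℕ) : Real.exp (Fw θ' l) ≤ 1 := by
  rw [exp_Fw, div_le_one (by linarith [one_le_Nc θ' (ys l)])]
  exact one_le_Nc _ _

/-- the multiplicative weight. -/
def w (θ' : ι' → ℕ) (n : ℕ) : ℝ := Real.exp (Ad (Fw θ') n) / n

omit [DecidableEq ι'] in
theorem w_nonneg (θ' : ι' → ℕ) (n : ℕ) : 0 ≤ w θ' n := by unfold w; positivity

omit [DecidableEq ι'] in
theorem w_prod (θ' : ι' → ℕ) {κ : Type} (s : Finset κ) (f : κ → ℕ) (h : ∀ i ∈ s, 0 < f i) :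
    w θ' (∏ i ∈ s, f i) = ∏ i ∈ s, w θ' (f i) := by
  unfold w
  rw [Ad_prod _ _ _ h, Real.exp_sum, prod_div_distrib, Nat.cast_prod]

omit [DecidableEq ι'] in
theorem w_mul_le (θ' : ι' → ℕ) {n l : ℕ} (hn : 0 < n) (hl : l.Prime) :
    w θ' (n * l) ≤ w θ' n * (1 / l) := by
  unfold w
  rw [Ad_mul _ hn hl.pos, Ad_prime _ hl, Real.exp_add, Nat.cast_mul, ← div_mul_div_comm]
  gcongr
  exact exp_Fw_le _ _

theorem row_le (θ' : ι' → ℕ) (c : ℕ) : ∑ b, ∑ l ∈ Pr (min c (θ' b)),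
    Real.exp (Fw θ' l) / (l - Real.exp (Fw θ' l)) ≤ c := by
  have h1 : ∀ b, ∑ l ∈ Pr (min c (θ' b)), Real.exp (Fw θ' l) / (l - Real.exp (Fw θ' l)) ≤
      ∑ l ∈ Pr c, if ys l ≤ θ' b then Real.exp (Fw θ' l) * (1 / ((l : ℝ) - 1)) else 0 := by
    intro b
    rw [← sum_filter]
    have : Pr (min c (θ' b)) = (Pr c).filter fun l => ys l ≤ θ' b := by
      ext l
      simp only [mem_Pr, mem_filter, le_min_iff, and_assoc]
    rw [this]
    refine sum_le_sum fun l hl => ?_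
    have h2 : (2 : ℝ) ≤ l := by exact_mod_cast (mem_Pr.1 (mem_filter.1 hl).1).1.two_le
    rw [mul_one_div]
    exact div_le_div_of_nonneg_left (Real.exp_pos _).le (by linarith)
      (by linarith [exp_Fw_le θ' l])
  refine (sum_le_sum fun b _ => h1 b).trans ?_
  rw [sum_comm]
  refine le_trans (sum_le_sum fun l hl => ?_) (sum_Pr_le c)
  have h2 : (2 : ℝ) ≤ l := by exact_mod_cast (mem_Pr.1 hl).1.two_le
  rw [← sum_filter, sum_const, nsmul_eq_mul, ← mul_assoc]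
  refine mul_le_of_le_one_left (one_div_nonneg.2 (by linarith)) ?_
  rw [exp_Fw, mul_one_div, div_le_one (by linarith [one_le_Nc θ' (ys l)])]
  exact_mod_cast le_max_right _ _

theorem base (A : Finset (ι → ι' → ℕ)) (h : ∀ d ∈ A, ∀ i i', d i i' ∈ Sm (min (θ i) (θ' i'))) :
    ∑ d ∈ A, w θ' (∏ a, ∏ b, d a b) ≤ Real.exp (∑ i, (θ i : ℝ)) := by
  have h1 : ∑ d ∈ A, w θ' (∏ a, ∏ b, d a b) = ∑ d ∈ A, ∏ a, ∏ b, w θ' (d a b) := by
    refine sum_congr rfl fun d hd => ?_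
    rw [w_prod _ _ _ fun a _ => prod_pos fun b _ => (h d hd a b).1]
    exact prod_congr rfl fun a _ => w_prod _ _ _ fun b _ => (h d hd a b).1
  have h2 : A ⊆ Fintype.piFinset fun a => Fintype.piFinset fun b => A.image fun d => d a b := by
    intro d hd
    simp only [Fintype.mem_piFinset]
    exact fun a b => mem_image_of_mem (fun d => d a b) hd
  rw [h1]
  refine (sum_le_sum_of_subset_of_nonneg h2 fun d _ _ =>
    prod_nonneg fun a _ => prod_nonneg fun b _ => w_nonneg _ _).trans ?_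
  rw [← prod_univ_sum (fun a => Fintype.piFinset fun b => A.image fun d => d a b)
    fun _ r => ∏ b, w θ' (r b), Real.exp_sum]
  refine prod_le_prod (fun a _ => sum_nonneg fun r _ => prod_nonneg fun b _ => w_nonneg _ _)
    fun a _ => ?_
  rw [← prod_univ_sum (fun b => A.image fun d => d a b) fun _ n => w θ' n]
  refine le_trans ?_ (Real.exp_le_exp.2 (row_le θ' (θ a)))
  rw [Real.exp_sum]
  refine prod_le_prod (fun b _ => sum_nonneg fun n _ => w_nonneg _ _) fun b _ => ?_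
  refine euler _ _ (fun l hl => ?_) _ fun n hn => ?_
  · have h2 : (2 : ℝ) ≤ l := by exact_mod_cast (mem_Pr.1 hl).1.two_le
    linarith [exp_Fw_le θ' l]
  · obtain ⟨d, hd, rfl⟩ := mem_image.1 hn
    exact h d hd a b

theorem claim [Nonempty ι] [Nonempty ι'] {C : ℝ} (hC : 1 ≤ C) (hS : Sv C) (hT : 1 ≤ T) (n : ℕ) :
    ∀ (I : Finset ι) (I' : Finset ι'), I.card + I'.card = n → ∀ A : Finset (ι → ι' → ℕ),
      (∀ d ∈ A, Mat T δ θ θ' I I' d) → ∑ d ∈ A, w θ' (∏ a, ∏ b, d a b) ≤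
        bt (C * (T : ℝ) ^ 6 * (Fintype.card ι * Fintype.card ι') * Real.exp δ) θ θ' I I' := by
  induction n using Nat.strong_induction_on with
  | _ n ih =>
  intro I I' hn A hA
  by_cases hne : I.Nonempty ∨ I'.Nonempty
  swap
  · rw [not_or, not_nonempty_iff_eq_empty, not_nonempty_iff_eq_empty] at hne
    obtain ⟨rfl, rfl⟩ := hne
    simpa [bt] using base A fun d hd => (hA d hd).sm
  have hK : 1 ≤ C * (T : ℝ) ^ 6 :=
    one_le_mul_of_one_le_of_one_le hC (one_le_pow₀ (by exact_mod_cast hT))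
  have hN : (1 : ℝ) ≤ (Fintype.card ι * Fintype.card ι' : ℝ) :=
    one_le_mul_of_one_le_of_one_le (by exact_mod_cast Fintype.card_pos)
      (by exact_mod_cast Fintype.card_pos)
  set N : ℝ := Fintype.card ι * Fintype.card ι' with hNdef
  set E : ℝ := C * (T : ℝ) ^ 6 * N * Real.exp δ with hE
  have hb : 0 ≤ bt E θ θ' I I' := by unfold bt; positivity
  refine (sum_le_of_pos A _ _ (bt E θ θ' I I' / N)
    (fun d hd => exists_dec (hA d hd) hne (Or.inl rfl)) fun p A' hA' => ?_).trans (le_of_eq ?_)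
  · obtain ⟨B, hB, h1⟩ := sum_le_of_dec A' (fun d => w θ' (∏ a, ∏ b, d a b))
      (fun e => C * (T : ℝ) ^ 6 * Real.exp (gn δ θ θ' I I' p.1 p.2) * w θ' (∏ a, ∏ b, e a b))
      (ml p.1 p.2) (Dec T δ θ θ' I I' 0 p.1 p.2) (fun d hd => (hA' d hd).2) fun e S hS' => by
        refine (sum_le_sum fun l hl => ?_ :
          _ ≤ ∑ l ∈ S, w θ' (∏ a, ∏ b, e a b) * (1 / (l : ℝ))).trans ?_
        · rw [pp_ml]
          exact w_mul_le _ (pp_pos (hS' l hl).1.mat) (hS' l hl).1.prime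
        · rw [← mul_sum, mul_comm]
          exact mul_le_mul_of_nonneg_right (sieve_dec hC hS hT S fun l hl => (hS' l hl).1).2
            (w_nonneg _ _)
    refine h1.trans ?_
    rcases B.eq_empty_or_nonempty with rfl | ⟨e₀, he₀⟩
    · rw [sum_empty]; positivity
    obtain ⟨l₀, hl₀, -⟩ := hB e₀ he₀
    have hlt : (I.erase p.1).card + (I'.erase p.2).card < n := by
      have h2 := card_erase_le (s := I) (a := p.1)
      have h3 := card_erase_le (s := I') (a := p.2)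
      rcases hl₀.act with h4 | h4
      · have := card_erase_lt_of_mem h4; omega
      · have := card_erase_lt_of_mem h4; omega
    have h2 := ih _ hlt _ _ rfl B fun e he => by
      obtain ⟨l, hl, -⟩ := hB e he
      exact hl.mat
    rw [← mul_sum, le_div_iff₀' (by linarith)]
    refine le_trans ?_ (bt_step hK hN hl₀.act)
    gcongr
  · rw [Fintype.card_prod, Nat.cast_mul]
    exact mul_div_cancel₀ _ (by linarith)

theorem mass [Nonempty ι] [Nonempty ι'] {C : ℝ} (hC : 1 ≤ C) (hS : Sv C) (hT : 1 ≤ T) (b : ℝ)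
    (I : Finset ι) (I' : Finset ι') (A : Finset (ι → ι' → ℕ))
    (h : ∀ d ∈ A, Mat T δ θ θ' I I' d ∧
      Ad (fun l => Real.log (Nc θ' (ys l))) (∏ i, ∏ i', d i i') ≤ b) :
    ∑ d ∈ A, 1 / ((∏ a, ∏ b, d a b : ℕ) : ℝ) ≤ Real.exp b *
      bt (C * (T : ℝ) ^ 6 * (Fintype.card ι * Fintype.card ι') * Real.exp δ) θ θ' I I' := by
  refine le_trans ?_ (mul_le_mul_of_nonneg_left
    (claim hC hS hT _ I I' rfl A fun d hd => (h d hd).1) (Real.exp_pos _).le)
  rw [mul_sum]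
  refine sum_le_sum fun d hd => ?_
  have h1 : Ad (Fw θ') (∏ a, ∏ b, d a b) =
      -1 * Ad (fun l => Real.log (Nc θ' (ys l))) (∏ a, ∏ b, d a b) := by
    rw [← Ad_const_mul]
    congr 1
    funext l
    rw [Fw, neg_one_mul]
  rw [w, ← mul_div_assoc, ← Real.exp_add]
  gcongr
  exact Real.one_le_exp (by linarith [(h d hd).2])

theorem count [Nonempty ι] [Nonempty ι'] {C : ℝ} (hC : 1 ≤ C) (hS : Sv C) (hT : 1 ≤ T) (b : ℝ)
    (I : Finset ι) (I' : Finset ι') {i₀ : ι'} (hi₀ : i₀ ∈ I') {x : ℝ} (hx : 0 ≤ x)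
    (A : Finset (ι → ι' → ℕ))
    (h : ∀ d ∈ A, (Mat T δ θ θ' I I' d ∧
      Ad (fun l => Real.log (Nc θ' (ys l))) (∏ i, ∏ i', d i i') ≤ b) ∧
      ((∏ i, ∏ i', d i i' : ℕ) : ℝ) ≤ x) :
    (A.card : ℝ) ≤ x * Real.exp (δ - θ' i₀) * (Real.exp b *
      bt (C * (T : ℝ) ^ 6 * (Fintype.card ι * Fintype.card ι') * Real.exp δ) θ θ' I I') := by
  have hK : 1 ≤ C * (T : ℝ) ^ 6 :=
    one_le_mul_of_one_le_of_one_le hC (one_le_pow₀ (by exact_mod_cast hT))
  have hN : (1 : ℝ) ≤ (Fintype.card ι * Fintype.card ι' : ℝ) :=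
    one_le_mul_of_one_le_of_one_le (by exact_mod_cast Fintype.card_pos)
      (by exact_mod_cast Fintype.card_pos)
  have hm := fun J J' B => mass (δ := δ) (θ := θ) (θ' := θ') hC hS hT b J J' B
  set N : ℝ := Fintype.card ι * Fintype.card ι' with hNdef
  set E : ℝ := C * (T : ℝ) ^ 6 * N * Real.exp δ with hE
  have hb : 0 ≤ bt E θ θ' I I' := by unfold bt; positivity
  rw [card_eq_sum_ones, Nat.cast_sum]
  refine (sum_le_of_pos A _ _ (x * Real.exp (δ - θ' i₀) * (Real.exp b * bt E θ θ' I I') / N)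
    (fun d hd => exists_dec (h d hd).1.1 (Or.inr ⟨i₀, hi₀⟩) (Or.inr ⟨i₀, hi₀, rfl⟩))
    fun p A' hA' => ?_).trans (le_of_eq ?_)
  · obtain ⟨B, hB, h1⟩ := sum_le_of_dec A' (fun _ => ((1 : ℕ) : ℝ))
      (fun e => x * Real.exp (δ - θ' i₀) * (C * (T : ℝ) ^ 6 * Real.exp (gn δ θ θ' I I' p.1 p.2)) *
        (1 / ((∏ a, ∏ b, e a b : ℕ) : ℝ)))
      (ml p.1 p.2) (Dec T δ θ θ' I I' (θ' i₀) p.1 p.2) (fun d hd => (hA' d hd).2) fun e S hS' => by
        rw [← Nat.cast_sum, ← card_eq_sum_ones]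
        refine ((sieve_dec hC hS hT S fun l hl => (hS' l hl).1).1
          (x / ((∏ a, ∏ b, e a b : ℕ) : ℝ)) (by positivity) fun l hl => ?_).trans (le_of_eq ?_)
        · have h2 := (h _ (hA' _ (hS' l hl).2).1).2
          rw [pp_ml, Nat.cast_mul] at h2
          rw [le_div_iff₀' (by exact_mod_cast pp_pos (hS' l hl).1.mat)]
          exact h2
        · rw [Real.exp_add]; ring
    refine h1.trans ?_
    rcases B.eq_empty_or_nonempty with rfl | ⟨e₀, he₀⟩
    · rw [sum_empty]; positivity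
    obtain ⟨l₀, hl₀, -⟩ := hB e₀ he₀
    have h2 := hm (I.erase p.1) (I'.erase p.2) B fun e he => by
      obtain ⟨l, hl, hl'⟩ := hB e he
      have h3 := (h _ (hA' _ hl').1).1
      refine ⟨hl.mat, le_trans (Ad_le_of_dvd (fun q _ => Real.log_nonneg (one_le_Nc _ _))
        (pp_pos h3.1) ?_) h3.2⟩
      rw [pp_ml]
      exact dvd_mul_right _ _
    rw [← mul_sum, le_div_iff₀' (by linarith)]
    calc _ ≤ N * (x * Real.exp (δ - θ' i₀) *
          (C * (T : ℝ) ^ 6 * Real.exp (gn δ θ θ' I I' p.1 p.2)) *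
          (Real.exp b * bt E θ θ' (I.erase p.1) (I'.erase p.2))) := by gcongr
      _ = x * Real.exp (δ - θ' i₀) * (Real.exp b * (N * (C * (T : ℝ) ^ 6 *
          Real.exp (gn δ θ θ' I I' p.1 p.2) * bt E θ θ' (I.erase p.1) (I'.erase p.2)))) := by ring
      _ ≤ _ := by
          gcongr
          exact bt_step hK hN hl₀.act
  · rw [Fintype.card_prod, Nat.cast_mul]
    exact mul_div_cancel₀ _ (by linarith)

end MatAux

theorem mat (hS : SieveStmt) : MatStmt := by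
  classical
  obtain ⟨C, hC, hS, -⟩ := hS
  refine ⟨C, hC, fun ι ι' _ _ T δ θ θ' I I' b hT h1 h2 => ?_⟩
  intro E S β
  have hβ : β = Real.exp b * MatAux.bt E θ θ' I I' := by
    simp only [β, MatAux.bt]
    rw [← mul_assoc, ← Real.exp_add]
    congr 2
    ring
  rw [hβ]
  exact ⟨Mass_le_ofReal (fun d hd => MatAux.pp_pos hd.1) fun A hA =>
    MatAux.mass hC hS hT b I I' A hA,
    fun i₀ hi₀ x A hx hA => MatAux.count hC hS hT b I I' hi₀ hx A hA⟩

end Crest.Agent.R20
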