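import Crest.Agent.R20.Basic

/-!
# Row 20: primes that are not normal are rare (`NNStmt`)
-/

set_option autoImplicit false

noncomputable section

namespace Crest.Agent.R20

open Crest.NumberTheoryR.TotientScale Finset Filter Topology MeasureTheory
open scoped ENNReal ArithmeticFunction.Omega

namespace NNAux

/-- `∑ 1/(l-1)² ≤ 2` over primes. -/
theorem sum_sq_le (c : ℕ) : ∑ l ∈ Pr c, 1 / ((l : ℝ) - 1) ^ 2 ≤ 2 := by
  have h2 : ∀ l ∈ Pr c, 2 ≤ l := fun l hl => (mem_Pr.1 hl).1.two_le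
  have hinj : Set.InjOn (fun l : ℕ => l - 1) (Pr c) := by
    intro a ha b hb hab
    have := h2 a ha; have := h2 b hb
    simp only at hab; omega
  have e : ∑ l ∈ Pr c, 1 / ((l : ℝ) - 1) ^ 2 =
      ∑ n ∈ (Pr c).image (fun l : ℕ => l - 1), (1 : ℝ) / ((n : ℕ) : ℝ) ^ 2 := by
    rw [sum_image hinj]
    refine sum_congr rfl fun l hl => ?_
    have := h2 l hl
    rw [Nat.cast_sub (by omega)]; simp
  rw [e]
  have h := sum_le_hasSum ((Pr c).image (fun l : ℕ => l - 1)) (fun n _ => by positivity) hasSum_zeta_two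
  refine h.trans ?_
  have := Real.pi_lt_d2
  have := Real.pi_pos
  nlinarith

theorem Pr_filter {c y : ℕ} (h : c ≤ y) : (Pr y).filter (fun l => ys l ≤ c) = Pr c := by
  ext l
  simp only [mem_filter, mem_Pr]
  constructor
  · rintro ⟨⟨h1, -⟩, h2⟩; exact ⟨h1, h2⟩
  · rintro ⟨h1, h2⟩; exact ⟨⟨h1, h2.trans h⟩, h2⟩

/-- upper deviations. -/
theorem upper {c y : ℕ} (hc : c ≤ y) {e s : ℝ} (he : 0 < e) (he' : e ≤ 1 / 2) (hs : 1 ≤ s) :
    H {n | n ∈ Sm y ∧ c + s - 1 ≤ (Om c n : ℝ)} ≤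
      ENNReal.ofReal (Real.exp (y + 7 * e - e * s + e ^ 2 * (c + s))) := by
  set F : ℕ → ℝ := fun l => if ys l ≤ c then Real.log (1 + e) else 0 with hF
  have hlog : e - e ^ 2 ≤ Real.log (1 + e) := by
    have h1 := Real.one_sub_inv_le_log_of_pos (by linarith : 0 < 1 + e)
    refine le_trans ?_ h1
    rw [le_sub_comm, inv_le_comm₀ (by linarith) (by nlinarith), inv_eq_one_div,
      div_le_iff₀ (by nlinarith)]
    nlinarith [pow_pos he 3]
  have hlog0 : 0 ≤ Real.log (1 + e) := Real.log_nonneg (by linarith)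
  have hE : ∀ l, Real.exp (F l) = if ys l ≤ c then 1 + e else 1 := by
    intro l
    simp only [hF]
    split_ifs
    · exact Real.exp_log (by linarith)
    · exact Real.exp_zero
  have h2 : ∀ l ∈ Pr y, (2 : ℝ) ≤ l := fun l hl => by exact_mod_cast (mem_Pr.1 hl).1.two_le
  have hlt : ∀ l ∈ Pr y, Real.exp (F l) < l := by
    intro l hl
    have := h2 l hl
    rw [hE]; split_ifs <;> linarith
  have hR := rankin F y hlt (Real.log (1 + e) * (c + s - 1))
  refine le_trans (Mass_mono ?_) (hR.trans (ENNReal.ofReal_le_ofReal (Real.exp_le_exp.2 ?_)))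
  · rintro n ⟨h1, h3⟩
    refine ⟨h1, ?_⟩
    rw [hF, Ad_ite]
    exact mul_le_mul_of_nonneg_left h3 hlog0
  · have hsum : ∑ l ∈ Pr y, Real.exp (F l) / (l - Real.exp (F l)) ≤ y + e * c + 6 * e := by
      have h3 : ∀ l ∈ Pr y, Real.exp (F l) / (l - Real.exp (F l)) ≤
          1 / ((l : ℝ) - 1) + (if ys l ≤ c then e * (1 / ((l : ℝ) - 1)) else 0) +
            3 * e * (1 / ((l : ℝ) - 1) ^ 2) := by
        intro l hl
        have h4 := h2 l hl
        rw [hE]
        have h5 : 0 < (l : ℝ) - 1 := by linarith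
        split_ifs
        · have h6 : 0 < (l : ℝ) - (1 + e) := by linarith
          rw [div_le_iff₀ h6]
          have h7 : (1 / ((l : ℝ) - 1) + e * (1 / ((l : ℝ) - 1)) + 3 * e * (1 / ((l : ℝ) - 1) ^ 2)) =
              ((1 + e) * (l - 1) + 3 * e) / ((l : ℝ) - 1) ^ 2 := by
            field_simp
          rw [h7, div_mul_eq_mul_div, le_div_iff₀ (by positivity)]
          nlinarith [mul_pos he h5, mul_nonneg he.le (by linarith : 0 ≤ 1 / 2 - e),
            mul_nonneg (mul_pos he h5).le (by linarith : 0 ≤ 1 / 2 - e),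
            mul_nonneg he.le (by linarith : (0 : ℝ) ≤ l - 2)]
        · have : 0 ≤ 3 * e * (1 / ((l : ℝ) - 1) ^ 2) := by positivity
          linarith
      refine (sum_le_sum h3).trans ?_
      rw [sum_add_distrib, sum_add_distrib, ← sum_filter, Pr_filter hc, ← mul_sum, ← mul_sum]
      have a1 := sum_Pr_le y
      have a2 := mul_le_mul_of_nonneg_left (sum_Pr_le c) he.le
      have a3 := mul_le_mul_of_nonneg_left (sum_sq_le y) (by positivity : 0 ≤ 3 * e)
      linarith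
    have hcs : (0 : ℝ) ≤ c + s - 1 := by have : (0 : ℝ) ≤ c := c.cast_nonneg; linarith
    have := mul_le_mul_of_nonneg_right hlog hcs
    nlinarith [sq_nonneg e]

/-- lower deviations. -/
theorem lower {c y : ℕ} (hc : c ≤ y) {e s : ℝ} (he : 0 < e) (he' : e ≤ 1 / 2) (hs : 0 ≤ s) :
    H {n | n ∈ Sm y ∧ (Om c n : ℝ) ≤ c - s} ≤
      ENNReal.ofReal (Real.exp (y + e - e * s + 2 * e ^ 2 * c)) := by
  rcases lt_or_ge ((c : ℝ) - s) 0 with hcs | hcs
  · have : {n | n ∈ Sm y ∧ (Om c n : ℝ) ≤ c - s} = ∅ := by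
      ext n
      simp only [Set.mem_ofPred_eq, Set.mem_empty_iff_false, iff_false, not_and, not_le]
      intro _
      exact hcs.trans_le (Nat.cast_nonneg _)
    rw [this, H, Mass_empty]
    exact zero_le
  set F : ℕ → ℝ := fun l => if ys l ≤ c then Real.log (1 - e) else 0 with hF
  have hlog : -(e + 2 * e ^ 2) ≤ Real.log (1 - e) := by
    have h1 := Real.one_sub_inv_le_log_of_pos (by linarith : 0 < 1 - e)
    refine le_trans ?_ h1
    have : (1 - e)⁻¹ ≤ 1 + e + 2 * e ^ 2 := by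
      rw [inv_eq_one_div, div_le_iff₀ (by linarith)]
      nlinarith [mul_nonneg (sq_nonneg e) (by linarith : 0 ≤ 1 / 2 - e)]
    linarith
  have hlog0 : Real.log (1 - e) ≤ 0 := Real.log_nonpos (by linarith) (by linarith)
  have hE : ∀ l, Real.exp (F l) = if ys l ≤ c then 1 - e else 1 := by
    intro l
    simp only [hF]
    split_ifs
    · exact Real.exp_log (by linarith)
    · exact Real.exp_zero
  have h2 : ∀ l ∈ Pr y, (2 : ℝ) ≤ l := fun l hl => by exact_mod_cast (mem_Pr.1 hl).1.two_le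
  have hlt : ∀ l ∈ Pr y, Real.exp (F l) < l := by
    intro l hl
    have := h2 l hl
    rw [hE]; split_ifs <;> linarith
  have hR := rankin F y hlt (Real.log (1 - e) * (c - s))
  refine le_trans (Mass_mono ?_) (hR.trans (ENNReal.ofReal_le_ofReal (Real.exp_le_exp.2 ?_)))
  · rintro n ⟨h1, h3⟩
    refine ⟨h1, ?_⟩
    rw [hF, Ad_ite]
    exact mul_le_mul_of_nonpos_left h3 hlog0
  · have hsum : ∑ l ∈ Pr y, Real.exp (F l) / (l - Real.exp (F l)) ≤ y - e * (c - 1) := by
      have h3 : ∀ l ∈ Pr y, Real.exp (F l) / (l - Real.exp (F l)) ≤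
          1 / ((l : ℝ) - 1) - (if ys l ≤ c then e * (1 / ((l : ℝ) - 1)) else 0) := by
        intro l hl
        have h4 := h2 l hl
        rw [hE]
        have h5 : 0 < (l : ℝ) - 1 := by linarith
        split_ifs
        · have h7 : 1 / ((l : ℝ) - 1) - e * (1 / ((l : ℝ) - 1)) = (1 - e) / ((l : ℝ) - 1) := by
            field_simp
          rw [h7]
          exact div_le_div_of_nonneg_left (by linarith) h5 (by linarith)
        · simp
      refine (sum_le_sum h3).trans ?_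
      rw [sum_sub_distrib, ← sum_filter, Pr_filter hc, ← mul_sum]
      have a1 := sum_Pr_le y
      have a2 := mul_le_mul_of_nonneg_left (le_sum_Pr c) he.le
      linarith
    have := mul_le_mul_of_nonneg_right hlog hcs
    nlinarith [sq_nonneg e, mul_nonneg (sq_nonneg e) hs]

/-- the cofactors with an abnormal number of prime factors. -/
def Dev (y : ℕ) (s : ℝ) : Set ℕ :=
  {n | n ∈ Sm y ∧ ∃ c ≤ y, c + s - 1 ≤ (Om c n : ℝ) ∨ (Om c n : ℝ) ≤ c - s}

theorem H_Dev {y : ℕ} {h : ℝ} (hh : 2 ≤ h) (hy : (y : ℝ) ≤ 2 * h ^ 21) :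
    H (Dev y (h ^ 12)) ≤ ENNReal.ofReal (2 * (y + 1) * Real.exp (y + 1 - h ^ 3 / 16)) := by
  have h0 : 0 < h := by linarith
  have h1 : 1 ≤ h := by linarith
  have h9 : 1 ≤ h ^ 9 := one_le_pow₀ h1
  set e : ℝ := 1 / (8 * h ^ 9) with he
  have he0 : 0 < e := by positivity
  have he1 : e ≤ 1 / 8 := by
    rw [he]; exact one_div_le_one_div_of_le (by norm_num) (by linarith)
  have hes : e * h ^ 12 = h ^ 3 / 8 := by rw [he]; field_simp
  have hee : e ^ 2 * h ^ 21 = h ^ 3 / 64 := by rw [he]; field_simp; norm_num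
  have h12 : h ^ 12 ≤ h ^ 21 := pow_le_pow_right₀ h1 (by norm_num)
  have hsub : Dev y (h ^ 12) ⊆ ⋃ c ∈ range (y + 1),
      ({n | n ∈ Sm y ∧ c + h ^ 12 - 1 ≤ (Om c n : ℝ)} ∪ {n | n ∈ Sm y ∧ (Om c n : ℝ) ≤ c - h ^ 12}) := by
    rintro n ⟨hn, c, hc, hd⟩
    simp only [Set.mem_iUnion]
    refine ⟨c, mem_range.2 (by omega), ?_⟩
    rcases hd with hd | hd
    · exact Or.inl ⟨hn, hd⟩
    · exact Or.inr ⟨hn, hd⟩
  refine (Mass_mono hsub).trans ((Mass_biUnion_le _ _).trans ?_)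
  have hb : ∀ c ∈ range (y + 1), Mass id
      ({n | n ∈ Sm y ∧ c + h ^ 12 - 1 ≤ (Om c n : ℝ)} ∪ {n | n ∈ Sm y ∧ (Om c n : ℝ) ≤ c - h ^ 12}) ≤
      ENNReal.ofReal (2 * Real.exp (y + 1 - h ^ 3 / 16)) := by
    intro c hc
    have hc' : c ≤ y := by have := mem_range.1 hc; omega
    have hcr : (c : ℝ) ≤ 2 * h ^ 21 := le_trans (by exact_mod_cast hc') hy
    have hce := mul_le_mul_of_nonneg_left hcr (sq_nonneg e)
    have h12e := mul_le_mul_of_nonneg_left h12 (sq_nonneg e)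
    have h3 : 0 ≤ h ^ 3 := by positivity
    refine (Mass_union_le _ _).trans ?_
    rw [two_mul, ENNReal.ofReal_add (by positivity) (by positivity)]
    refine add_le_add ((upper hc' he0 (by linarith) (one_le_pow₀ h1)).trans ?_)
      ((lower hc' he0 (by linarith) (by positivity)).trans ?_)
    · refine ENNReal.ofReal_le_ofReal (Real.exp_le_exp.2 ?_)
      nlinarith
    · refine ENNReal.ofReal_le_ofReal (Real.exp_le_exp.2 ?_)
      nlinarith
  refine (sum_le_card_nsmul _ _ _ hb).trans ?_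
  rw [card_range, nsmul_eq_mul, ← ENNReal.ofReal_natCast, ← ENNReal.ofReal_mul (by positivity)]
  refine ENNReal.ofReal_le_ofReal (le_of_eq ?_)
  push_cast; ring

/-- an abnormal prime is large. -/
theorem log_ge {C s : ℝ} (hC : ∀ n : ℕ, 2 ≤ n → |(ys n : ℝ) - Real.log (Real.log n)| ≤ C)
    (hs : s / 2 ≤ Real.exp (s - C)) {q : ℕ} (hq : q.Prime) (hn : ¬ Normal s q) :
    s / 2 ≤ Real.log q := by
  simp only [Normal, not_forall, not_le] at hn
  obtain ⟨c, hc, hd⟩ := hn
  have h2 := hq.two_le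
  have h2r : (2 : ℝ) ≤ q := by exact_mod_cast h2
  have hlog : 0 < Real.log q := Real.log_pos (by linarith)
  rcases lt_abs.1 hd with hd | hd
  · have h1 : (Om c (q - 1) : ℝ) ≤ Ω (q - 1) := by exact_mod_cast Om_le_Omega c (q - 1)
    have h3 : 2 ^ Ω (q - 1) ≤ q := (two_pow_Omega_le (by omega : 0 < q - 1)).trans (by omega)
    have h4 : (2 : ℝ) ^ Ω (q - 1) ≤ q := by exact_mod_cast h3
    have h5 := Real.log_le_log (by positivity) h4
    rw [Real.log_pow] at h5
    have h6 := Real.log_two_gt_d9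
    have h7 : (0 : ℝ) ≤ c := c.cast_nonneg
    have h8 : s ≤ (Ω (q - 1) : ℝ) := by linarith
    nlinarith
  · have h1 : (c : ℝ) ≤ ys q := by exact_mod_cast hc
    have h3 : (0 : ℝ) ≤ Om c (q - 1) := Nat.cast_nonneg _
    have h4 := (abs_le.1 (hC q h2)).2
    have h5 : s - C ≤ Real.log (Real.log q) := by linarith
    have h6 := Real.exp_le_exp.2 h5
    rw [Real.exp_log hlog] at h6
    linarith

theorem Om_mul {a b : ℕ} (ha : 0 < a) (hb : 0 < b) (c : ℕ) :
    (Om c (a * b) : ℝ) = Om c a + Om c b := by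
  have h := Ad_mul (fun l => if ys l ≤ c then (1 : ℝ) else 0) ha hb
  simpa only [Ad_ite, one_mul] using h

theorem Om_prime_le {l : ℕ} (hl : l.Prime) (c : ℕ) : (Om c l : ℝ) ≤ 1 := by
  have h := Ad_prime (fun l => if ys l ≤ c then (1 : ℝ) else 0) hl
  rw [Ad_ite, one_mul] at h
  rw [h]; split_ifs <;> norm_num

theorem D_mem_Dev {X q : ℕ} {s : ℝ} (h3 : 3 ≤ q) (hX : q ≤ X) (hn : ¬ Normal s q) :
    D (q - 1) ∈ Dev (ys X) s := by
  have h0 : 0 < q - 1 := by omega
  have hD := D_pos h0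
  have hl := P_prime (by omega : 2 ≤ q - 1)
  simp only [Normal, not_forall, not_le] at hn
  obtain ⟨c, hc, hd⟩ := hn
  refine ⟨⟨hD, ys_mono ((P_le_self hD).trans ((Nat.le_of_dvd h0 (D_dvd _)).trans (by omega)))⟩,
    c, hc.trans (ys_mono hX), ?_⟩
  have h1 := Om_mul hl.pos hD c
  rw [P_mul_D] at h1
  have h2 := Om_prime_le hl c
  have h4 : (0 : ℝ) ≤ Om c (P (q - 1)) := Nat.cast_nonneg _
  rcases lt_abs.1 hd with hd | hd
  · left; linarith
  · right; linarith

/-- the primes `q` with a large prime factor of `q - 1`. -/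
theorem count_b {C : ℝ} (hC0 : 0 ≤ C)
    (hC : ∀ (T c : ℕ) (A S : Finset ℕ), 1 ≤ T → A.card ≤ 2 → (∀ a ∈ A, 0 < a ∧ ys a ≤ T) →
      (∀ l ∈ S, l.Prime ∧ c ≤ ys l ∧ ys l ≤ T ∧ ∀ a ∈ A, (a * l + 1).Prime) →
      ∀ X : ℝ, 0 ≤ X → (∀ l ∈ S, (l : ℝ) ≤ X) →
        (S.card : ℝ) ≤ C * (T : ℝ) ^ 6 * X * Real.exp (-((A.card + 1 : ℕ) * c : ℝ)))
    {X d T : ℕ} {s M : ℝ} (hT : 1 ≤ T) (hyT : ys X ≤ T) (hM : 0 ≤ M)
    (hH : H (Dev (ys X) s) ≤ ENNReal.ofReal M) (S : Finset ℕ)
    (hS : ∀ q ∈ S, q.Prime ∧ 3 ≤ q ∧ q ≤ X ∧ ¬ Normal s q ∧ ys X ≤ ys (P (q - 1)) + d) :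
    (S.card : ℝ) ≤ C * (T : ℝ) ^ 6 * X * Real.exp (-(2 * ys X : ℝ) + 2 * d) * M := by
  set A := S.image fun q => D (q - 1) with hA
  have hAD : ∀ a ∈ A, a ∈ Dev (ys X) s := by
    intro a ha
    obtain ⟨q, hq, rfl⟩ := mem_image.1 ha
    obtain ⟨-, h3, hX, hn, -⟩ := hS q hq
    exact D_mem_Dev h3 hX hn
  have hsum : ∑ a ∈ A, 1 / ((a : ℕ) : ℝ) ≤ M := sum_le_of_Mass_le hM hH A hAD
  have hcard : S.card = ∑ a ∈ A, (S.filter fun q => D (q - 1) = a).card :=
    card_eq_sum_card_fiberwise fun q hq => mem_image_of_mem _ hq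
  have hfib : ∀ a ∈ A, ((S.filter fun q => D (q - 1) = a).card : ℝ) ≤
      C * (T : ℝ) ^ 6 * X * Real.exp (-(2 * ys X : ℝ) + 2 * d) * (1 / (a : ℝ)) := by
    intro a ha
    have ha0 : 0 < a := (hAD a ha).1.1
    have har : (0 : ℝ) < a := by exact_mod_cast ha0
    set S' := S.filter fun q => D (q - 1) = a with hS'
    have hq1 : ∀ q ∈ S', a * P (q - 1) + 1 = q := by
      intro q hq
      obtain ⟨hq, hqa⟩ := mem_filter.1 hq
      have h3 := (hS q hq).2.1
      have := P_mul_D (q - 1)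
      rw [hqa, mul_comm] at this
      omega
    have hinj : Set.InjOn (fun q => P (q - 1)) S' := by
      intro q hq q' hq' hqq
      have e1 := hq1 q hq
      have e2 := hq1 q' hq'
      simp only at hqq
      rw [hqq] at e1
      omega
    have haX : a ≤ X := by
      obtain ⟨q, hq, rfl⟩ := mem_image.1 ha
      obtain ⟨-, h3, hX, -⟩ := hS q hq
      exact (Nat.le_of_dvd (by omega) (D_dvd _)).trans (by omega)
    have h1 := hC T (ys X - d) {a} (S'.image fun q => P (q - 1)) hT (by simp)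
      (by
        intro a' ha'
        rw [mem_singleton.1 ha']
        exact ⟨ha0, (ys_mono haX).trans hyT⟩)
      (by
        intro l hl
        obtain ⟨q, hq, rfl⟩ := mem_image.1 hl
        have e1 := hq1 q hq
        obtain ⟨hp, h3, hX, -, hd⟩ := hS q (mem_filter.1 hq).1
        refine ⟨P_prime (by omega), by omega,
          (ys_mono ((P_le_self (by omega)).trans (by omega))).trans hyT, ?_⟩
        intro a' ha'
        rw [mem_singleton.1 ha', e1]
        exact hp)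
      (X / a) (by positivity)
      (by
        intro l hl
        obtain ⟨q, hq, rfl⟩ := mem_image.1 hl
        have e1 := hq1 q hq
        obtain ⟨-, -, hX, -⟩ := hS q (mem_filter.1 hq).1
        rw [le_div_iff₀ har]
        have : P (q - 1) * a ≤ X := by rw [mul_comm]; omega
        exact_mod_cast this)
    rw [card_image_of_injOn hinj, card_singleton] at h1
    refine h1.trans ?_
    have h2 : Real.exp (-((1 + 1 : ℕ) * ((ys X - d : ℕ) : ℝ))) ≤
        Real.exp (-(2 * ys X : ℝ) + 2 * d) := by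
      refine Real.exp_le_exp.2 ?_
      have : (ys X : ℝ) ≤ ((ys X - d : ℕ) : ℝ) + d := by exact_mod_cast (by omega)
      push_cast; linarith
    calc _ ≤ C * (T : ℝ) ^ 6 * (X / a) * Real.exp (-(2 * ys X : ℝ) + 2 * d) := by gcongr
      _ = _ := by ring
  rw [hcard]
  push_cast
  refine (sum_le_sum hfib).trans ?_
  rw [← mul_sum]
  gcongr

theorem pow_le_exp {h : ℝ} (h0 : 0 ≤ h) (k : ℕ) : h ^ k ≤ Real.exp (k * h) := by
  rw [Real.exp_nat_mul]
  exact pow_le_pow_left₀ h0 (by linarith [Real.add_one_le_exp h]) k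

theorem ev_exp (c : ℝ) (hc : 0 < c) : ∀ᶠ h : ℝ in atTop, 11 * h ^ 21 ≤ c * Real.exp h := by
  have h := (Real.tendsto_exp_div_pow_atTop 21).eventually_ge_atTop (11 / c)
  filter_upwards [h, eventually_gt_atTop 0] with h h1 h0
  rw [div_le_div_iff₀ hc (by positivity)] at h1
  linarith

/-- the counting bound. -/
theorem part1 {C : ℝ}
    (hC : ∀ n : ℕ, 2 ≤ n → |(ys n : ℝ) - Real.log (Real.log n)| ≤ C)
    (hS : SieveStmt) (hSm : SmoothStmt) : ∀ᶠ h : ℝ in atTop,
    ∀ (X : ℕ) (S : Finset ℕ), (ys X : ℝ) ≤ 2 * h ^ 21 →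
      (∀ q ∈ S, q.Prime ∧ q ≤ X ∧ ¬ Normal (h ^ 12) q) →
      (S.card : ℝ) ≤ X * Real.exp (-(ys X : ℝ) - h ^ 2) := by
  obtain ⟨C₁, hC₁, hsv, -⟩ := hS
  obtain ⟨c₀, hc₀, -, hsm⟩ := hSm
  filter_upwards [eventually_ge_atTop (100 : ℝ), eventually_ge_atTop C,
    eventually_ge_atTop (1152 * C₁), ev_exp c₀ hc₀] with h h100 hhC hhC₁ hexp X S hy hS
  have h0 : 0 < h := by linarith
  have h1 : 1 ≤ h := by linarith
  have h2 : 100 * h ≤ h ^ 2 := by nlinarith
  have h3 : 100 * h ^ 2 ≤ h ^ 3 := by nlinarith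
  have h12 : h ^ 3 ≤ h ^ 12 := pow_le_pow_right₀ h1 (by norm_num)
  have h21 : h ^ 12 ≤ h ^ 21 := pow_le_pow_right₀ h1 (by norm_num)
  rcases S.eq_empty_or_nonempty with rfl | ⟨q₀, hq₀⟩
  · simp only [card_empty, Nat.cast_zero]; positivity
  have hs : h ^ 12 / 2 ≤ Real.exp (h ^ 12 - C) := by
    have := Real.add_one_le_exp (h ^ 12 - C)
    linarith
  have hlog : ∀ q ∈ S, h ^ 12 / 2 ≤ Real.log q := fun q hq =>
    log_ge hC hs (hS q hq).1 (hS q hq).2.2
  have hq3 : ∀ q ∈ S, 3 ≤ q := by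
    intro q hq
    by_contra hlt
    have hp := (hS q hq).1.two_le
    have : q = 2 := by omega
    have h4 := hlog q hq
    rw [this] at h4
    have := Real.log_two_lt_d9
    push_cast at h4
    linarith
  have hX3 : 3 ≤ X := (hq3 q₀ hq₀).trans (hS q₀ hq₀).2.1
  have hXr : (0 : ℝ) < X := by exact_mod_cast (by omega : 0 < X)
  have hLX : h ^ 12 / 2 ≤ Real.log X := (hlog q₀ hq₀).trans (Real.log_le_log
    (by exact_mod_cast (hS q₀ hq₀).1.pos) (by exact_mod_cast (hS q₀ hq₀).2.1))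
  set y : ℝ := (ys X : ℝ) with hydef
  have hy0 : 0 ≤ y := Nat.cast_nonneg _
  set E : ℝ := Real.exp (-y - h ^ 2) with hE
  have hthird : Real.exp (-2) ≤ 1 / 3 := by
    rw [Real.exp_neg, inv_eq_one_div]
    exact one_div_le_one_div_of_le (by norm_num) (by linarith [Real.add_one_le_exp 2])
  have key : ∀ t : ℝ, t ≤ -y - h ^ 2 - 2 → X * Real.exp t ≤ X * E / 3 := by
    intro t ht
    have : Real.exp t ≤ E * Real.exp (-2) := by
      rw [hE, ← Real.exp_add]; exact Real.exp_le_exp.2 (by linarith)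
    have hE0 : 0 < E := Real.exp_pos _
    calc X * Real.exp t ≤ X * (E * (1 / 3)) := by
          refine mul_le_mul_of_nonneg_left (this.trans ?_) hXr.le
          gcongr
      _ = _ := by ring
  have hsqrt : Real.sqrt X ≤ X * E / 3 := by
    have e1 : Real.sqrt X = X * Real.exp (-(Real.log X / 2)) := by
      rw [Real.sqrt_eq_rpow, Real.rpow_def_of_pos hXr]
      nth_rewrite 2 [← Real.exp_log hXr]
      rw [← Real.exp_add]; congr 1; ring
    rw [e1]
    refine key _ ?_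
    have a1 := (abs_le.1 (hC X (by omega))).2
    have hL : 0 < Real.log X := by have : 0 < h ^ 12 := by positivity
                                   linarith
    have a2 : Real.log (Real.log X / 4) ≤ Real.log X / 4 - 1 :=
      Real.log_le_sub_one_of_pos (by positivity)
    rw [Real.log_div hL.ne' (by norm_num)] at a2
    have a3 : Real.log 4 ≤ 4 - 1 := Real.log_le_sub_one_of_pos (by norm_num)
    linarith
  set d := ⌈h⌉₊ with hd
  have hd1 : h ≤ d := Nat.le_ceil h
  have hd2 : (d : ℝ) ≤ h + 1 := (Nat.ceil_lt_add_one h0.le).le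
  set T := ⌊2 * h ^ 21⌋₊ with hT
  have hT1 : 1 ≤ T := Nat.le_floor (by push_cast; linarith)
  have hT2 : (T : ℝ) ≤ 2 * h ^ 21 := Nat.floor_le (by positivity)
  have hyT : ys X ≤ T := Nat.le_floor hy
  rw [← card_filter_add_card_filter_not (s := S) fun q => ys (P (q - 1)) + d ≤ ys X]
  push_cast
  have ha : ((S.filter fun q => ys (P (q - 1)) + d ≤ ys X).card : ℝ) ≤ X * E / 3 + X * E / 3 := by
    set S' := S.filter fun q => ys (P (q - 1)) + d ≤ ys X with hS'
    have hinj : Set.InjOn (fun q : ℕ => q - 1) S' := by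
      intro a ha b hb hab
      have := hq3 a (mem_filter.1 ha).1; have := hq3 b (mem_filter.1 hb).1
      simp only at hab; omega
    have b1 := hsm X d (S'.image fun q => q - 1) (by
      intro n hn
      obtain ⟨q, hq, rfl⟩ := mem_image.1 hn
      obtain ⟨hq, hqd⟩ := mem_filter.1 hq
      have := hq3 q hq
      have := (hS q hq).2.1
      exact ⟨by omega, by omega, hqd⟩)
    rw [card_image_of_injOn hinj] at b1
    refine b1.trans (add_le_add hsqrt (key _ ?_))
    have : c₀ * Real.exp h ≤ c₀ * Real.exp d := by gcongr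
    linarith
  have hb : ((S.filter fun q => ¬ ys (P (q - 1)) + d ≤ ys X).card : ℝ) ≤ X * E / 3 := by
    have b1 := count_b (by linarith) (fun T c A S h1 h2 h3 h4 => (hsv T c A S h1 h2 h3 h4).1)
      (d := d) hT1 hyT (by positivity) (H_Dev (by linarith) hy)
      (S.filter fun q => ¬ ys (P (q - 1)) + d ≤ ys X) (by
        intro q hq
        obtain ⟨hq, hqd⟩ := mem_filter.1 hq
        exact ⟨(hS q hq).1, hq3 q hq, (hS q hq).2.1, (hS q hq).2.2, by omega⟩)
    rw [← hydef] at b1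
    refine b1.trans (le_trans ?_ (key (148 * h + (-(2 * y) + 2 * d) +
      (y + 1 - h ^ 3 / 16)) (by linarith)))
    have c1 : C₁ * (T : ℝ) ^ 6 * (2 * (y + 1)) ≤ Real.exp (148 * h) := by
      have d1 : C₁ * (T : ℝ) ^ 6 * (2 * (y + 1)) ≤ C₁ * (2 * h ^ 21) ^ 6 * (2 * (3 * h ^ 21)) := by
        gcongr
        linarith
      have d2 := pow_le_exp h0.le 148
      have d3 : 384 * C₁ * h ^ 147 ≤ h * h ^ 147 := by gcongr; linarith
      calc _ ≤ _ := d1
        _ = 384 * C₁ * h ^ 147 := by ring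
        _ ≤ h * h ^ 147 := d3
        _ = h ^ 148 := by ring
        _ ≤ _ := d2
        _ = _ := by norm_num
    rw [Real.exp_add (148 * h + _), Real.exp_add (148 * h)]
    calc _ = X * (C₁ * (T : ℝ) ^ 6 * (2 * (y + 1)) * Real.exp (-(2 * y) + 2 * d) *
          Real.exp (y + 1 - h ^ 3 / 16)) := by ring
      _ ≤ _ := by gcongr
  linarith

theorem ev_exp2 (K : ℝ) : ∀ᶠ h : ℝ in atTop, K * h ^ 21 ≤ Real.exp (h ^ 2 / 2) := by
  filter_upwards [eventually_ge_atTop (100 : ℝ), eventually_ge_atTop K] with h h100 hK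
  have h0 : 0 < h := by linarith
  calc K * h ^ 21 ≤ h * h ^ 21 := by gcongr
    _ = h ^ 22 := by ring
    _ ≤ _ := pow_le_exp h0.le 22
    _ ≤ _ := Real.exp_le_exp.2 (by push_cast; nlinarith)

theorem sum_inv_le (N : ℕ) : ∑ i ∈ range N, 1 / ((i : ℝ) + 1) ≤ 1 + Real.log N := by
  have h := harmonic_le_one_add_log N
  refine le_trans (le_of_eq ?_) h
  simp [harmonic]

end NNAux

open NNAux in
theorem nn (hM : MertensStmt) (hS : SieveStmt) (hSm : SmoothStmt) : NNStmt := by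
  obtain ⟨C, hC0, hC⟩ := hM
  filter_upwards [part1 hC hS hSm, eventually_ge_atTop (100 : ℝ),
    eventually_ge_atTop (2 * C + 4), ev_exp2 (12 * Real.exp C)] with h hp h100 hhC hexp
  refine ⟨hp, ?_⟩
  have h0 : 0 < h := by linarith
  have h1 : 1 ≤ h := by linarith
  have h12 : h ≤ h ^ 12 := le_self_pow₀ h1 (by norm_num)
  have h21 : h ≤ h ^ 21 := le_self_pow₀ h1 (by norm_num)
  have hs : h ^ 12 / 2 ≤ Real.exp (h ^ 12 - C) := by
    have := Real.add_one_le_exp (h ^ 12 - C)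
    linarith
  have hl2 := Real.log_two_gt_d9
  have hl2' := Real.log_two_lt_d9
  refine Mass_le_ofReal (fun q hq => by have := hq.1.two_le; omega) fun A hA => ?_
  have hq3 : ∀ q ∈ A, 3 ≤ q := by
    intro q hq
    by_contra hlt
    have hp := (hA q hq).1.two_le
    have : q = 2 := by omega
    have h4 := log_ge hC hs (hA q hq).1 (hA q hq).2.2
    rw [this] at h4
    push_cast at h4
    linarith
  -- the dyadic block of `q`
  have hlo : ∀ q ∈ A, 2 ^ Nat.log 2 (q - 1) ≤ q - 1 := fun q hq =>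
    Nat.pow_log_le_self 2 (by have := hq3 q hq; omega)
  have hhi : ∀ q ∈ A, q ≤ 2 ^ (Nat.log 2 (q - 1) + 1) := fun q hq => by
    have := Nat.lt_pow_succ_log_self (by norm_num : 1 < 2) (q - 1)
    have := hq3 q hq
    simp only [Nat.succ_eq_add_one] at *
    omega
  have hlogX : ∀ i : ℕ, Real.log ((2 ^ (i + 1) : ℕ) : ℝ) = (i + 1) * Real.log 2 := by
    intro i; push_cast; rw [Real.log_pow]; push_cast; ring
  have hX2 : ∀ i : ℕ, 2 ≤ 2 ^ (i + 1) := fun i => by
    rw [pow_succ]; have := Nat.one_le_two_pow (n := i); omega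
  have hll : ∀ q ∈ A, Real.log ((Nat.log 2 (q - 1) + 1) * Real.log 2) ≤ h ^ 21 + C + 1 := by
    intro q hq
    have a3 := hq3 q hq
    have a3r : (3 : ℝ) ≤ q := by exact_mod_cast a3
    have a1 : 2 ^ (Nat.log 2 (q - 1) + 1) ≤ q ^ 2 := by
      have := hlo q hq
      rw [pow_succ]
      have : 2 ^ Nat.log 2 (q - 1) ≤ q := by omega
      nlinarith
    have a2 : Real.log ((2 ^ (Nat.log 2 (q - 1) + 1) : ℕ) : ℝ) ≤ Real.log ((q ^ 2 : ℕ) : ℝ) :=
      Real.log_le_log (by positivity) (by exact_mod_cast a1)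
    rw [hlogX] at a2
    push_cast at a2
    rw [Real.log_pow] at a2
    have hlq : 0 < Real.log q := Real.log_pos (by linarith)
    have a4 := Real.log_le_log (by positivity) a2
    rw [Real.log_mul (by norm_num) hlq.ne'] at a4
    have a5 := (abs_le.1 (hC q (by omega))).1
    have a6 := (hA q hq).2.1
    push_cast at a4
    linarith
  set N := ⌈2 * Real.exp (h ^ 21 + C + 1)⌉₊ with hN
  have hmaps : ∀ q ∈ A, Nat.log 2 (q - 1) ∈ range N := by
    intro q hq
    rw [mem_range]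
    have a1 := Real.exp_le_exp.2 (hll q hq)
    rw [Real.exp_log (by positivity)] at a1
    have a2 := Nat.le_ceil (2 * Real.exp (h ^ 21 + C + 1))
    have a3 : (0 : ℝ) ≤ Nat.log 2 (q - 1) := Nat.cast_nonneg _
    have : (Nat.log 2 (q - 1) : ℝ) < N := by rw [hN]; nlinarith
    exact_mod_cast this
  rw [← sum_fiberwise_of_maps_to hmaps]
  have hblk : ∀ i ∈ range N, ∑ q ∈ A with Nat.log 2 (q - 1) = i, 1 / ((q - 1 : ℕ) : ℝ) ≤
      4 * Real.exp C * Real.exp (-h ^ 2) * (1 / ((i : ℝ) + 1)) := by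
    intro i _
    set S := A.filter fun q => Nat.log 2 (q - 1) = i with hSd
    rcases S.eq_empty_or_nonempty with he | ⟨q₀, hq₀⟩
    · rw [he, sum_empty]; positivity
    have b0 := abs_le.1 (hC (2 ^ (i + 1)) (hX2 i))
    rw [hlogX] at b0
    have b1 := hll q₀ (mem_filter.1 hq₀).1
    rw [(mem_filter.1 hq₀).2] at b1
    have b2 := hp (2 ^ (i + 1)) S (by linarith [b0.2]) (by
      intro q hq
      obtain ⟨hq, hqi⟩ := mem_filter.1 hq
      exact ⟨(hA q hq).1, hqi ▸ hhi q hq, (hA q hq).2.2⟩)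
    have b3 : ∀ q ∈ S, 1 / ((q - 1 : ℕ) : ℝ) ≤ 1 / (2 : ℝ) ^ i := by
      intro q hq
      obtain ⟨hq, hqi⟩ := mem_filter.1 hq
      have := hlo q hq
      rw [hqi] at this
      exact one_div_le_one_div_of_le (by positivity) (by exact_mod_cast this)
    refine (sum_le_card_nsmul _ _ _ b3).trans ?_
    rw [nsmul_eq_mul]
    have hi : (0 : ℝ) < i + 1 := by positivity
    have b4 : Real.exp (-(ys (2 ^ (i + 1)) : ℝ) - h ^ 2) ≤
        Real.exp C * Real.exp (-h ^ 2) * (2 / ((i : ℝ) + 1)) := by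
      have c1 : Real.exp (-(ys (2 ^ (i + 1)) : ℝ) - h ^ 2) ≤
          Real.exp (C + -h ^ 2 - Real.log ((i + 1) * Real.log 2)) :=
        Real.exp_le_exp.2 (by linarith [b0.1])
      rw [Real.exp_sub (C + -h ^ 2), Real.exp_add, Real.exp_log (by positivity)] at c1
      refine c1.trans ?_
      rw [div_eq_mul_one_div]
      refine mul_le_mul_of_nonneg_left ?_ (by positivity)
      rw [div_le_div_iff₀ (by positivity) hi]
      nlinarith
    calc _ ≤ ((2 ^ (i + 1) : ℕ) : ℝ) * (Real.exp C * Real.exp (-h ^ 2) * (2 / ((i : ℝ) + 1))) *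
          (1 / (2 : ℝ) ^ i) := by
          gcongr
          exact b2.trans (by gcongr)
      _ = _ := by push_cast; field_simp; ring
  refine (sum_le_sum hblk).trans ?_
  rw [← mul_sum]
  have hNle : (N : ℝ) ≤ Real.exp (h ^ 21 + C + 3) := by
    have a1 := (Nat.ceil_lt_add_one (by positivity : 0 ≤ 2 * Real.exp (h ^ 21 + C + 1))).le
    have a2 : 1 ≤ Real.exp (h ^ 21 + C + 1) := Real.one_le_exp (by positivity)
    have a3 : Real.exp (h ^ 21 + C + 3) = Real.exp (h ^ 21 + C + 1) * Real.exp 2 := by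
      rw [← Real.exp_add]; congr 1; ring
    have a4 := Real.add_one_le_exp 2
    rw [a3, hN]
    nlinarith
  have hN0 : (0 : ℝ) < N := by
    have a2 := Nat.le_ceil (2 * Real.exp (h ^ 21 + C + 1))
    have : 0 < Real.exp (h ^ 21 + C + 1) := Real.exp_pos _
    rw [hN]; linarith
  have hlN : Real.log N ≤ h ^ 21 + C + 3 := by
    have := Real.log_le_log hN0 hNle
    rwa [Real.log_exp] at this
  have hsum : ∑ i ∈ range N, 1 / ((i : ℝ) + 1) ≤ 3 * h ^ 21 := by
    have := sum_inv_le N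
    linarith
  calc _ ≤ 4 * Real.exp C * Real.exp (-h ^ 2) * (3 * h ^ 21) := by gcongr
    _ = 12 * Real.exp C * h ^ 21 * Real.exp (-h ^ 2) := by ring
    _ ≤ Real.exp (h ^ 2 / 2) * Real.exp (-h ^ 2) := by gcongr
    _ = _ := by rw [← Real.exp_add]; congr 1; ring

end Crest.Agent.R20
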