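import Crest.Agent.R20.Basic

/-!
# Row 20: passage from the main family to the ordered family
-/

set_option autoImplicit false

noncomputable section

namespace Crest.Agent.R20

open Crest.NumberTheoryR.TotientScale Finset Filter Topology MeasureTheory
open scoped ENNReal ArithmeticFunction.Omega

namespace OrdAux

theorem tm_nonpos (p : Par) {h₀ : ℝ} (hh : 0 ≤ h₀) (j : ℕ) : p.tm h₀ j ≤ 0 := by
  have := le_trans hh (p.le_h hh j)
  unfold Par.tm
  have : 0 ≤ p.h h₀ j ^ 19 := by positivity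
  linarith

theorem tm_le_tp (p : Par) {h₀ : ℝ} (hh : 0 ≤ h₀) (j : ℕ) : p.tm h₀ j ≤ p.tp h₀ j := by
  have := le_trans hh (p.le_h hh j)
  unfold Par.tm Par.tp
  have : 0 ≤ p.h h₀ j ^ 19 := by positivity
  linarith

/-- either the sizes are ordered or some slack is large. -/
theorem ordered_or_Fl {m M : ℕ} (hM : M + 2 ≤ m) {B : ℝ} (hB : 0 < B) {t Y : ℕ → ℝ}
    (ht : ∀ j, t j ≤ 0) (h0 : ∀ i, 0 ≤ Y i) (hc : Con m M B t Y) :
    ((∀ a b, a < b → b ≤ M → Y b < Y a) ∧ Y 0 ≤ 9 / 10 * B) ∨ ∃ k ≤ M, Fl m k Y := by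
  by_cases h1 : ∀ k < M, Y (k + 1) < Y k
  · by_cases h2 : Y 0 ≤ 9 / 10 * B
    · left
      refine ⟨fun a b hab hb => ?_, h2⟩
      induction b, hab using Nat.le_induction with
      | base => exact h1 a (by omega)
      | succ b _ ih => exact (h1 b (by omega)).trans (ih (by omega))
    · right
      refine ⟨0, Nat.zero_le _, Fl_of_le h0 (by omega) ?_⟩
      have h3 := hc.1
      have h4 : range m = insert 0 (Ioo 0 m) := by
        ext i
        simp only [mem_range, mem_insert, mem_Ioo]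
        omega
      rw [h4, sum_insert (by simp)] at h3
      have h5 := ht m
      have h6 := aCoef_one.1
      have h7 : 0 ≤ aCoef (0 + 1) * Y 0 - 0.386 * Y 0 := by
        rw [← sub_mul]
        exact mul_nonneg (by simpa using h6) (h0 0)
      simp only [Nat.sub_zero]
      have h8 := not_le.1 h2
      norm_num at h7 h3 ⊢
      linarith
  · right
    push Not at h1
    obtain ⟨k, hk, hY⟩ := h1
    refine ⟨k + 1, hk, Fl_of_le h0 (by omega) ?_⟩
    have h3 := hc.2 k hk
    have h5 := ht (m - 1 - k)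
    refine le_trans ?_ (le_trans h3 (by linarith))
    calc ∑ i ∈ Ioo (k + 1) m, aCoef (i - (k + 1) + 1) * Y i
        = ∑ i ∈ Ioo (k + 1) m, aCoef (i - k) * Y i := by
          refine sum_congr rfl fun i hi => ?_
          have := (mem_Ioo.1 hi).1
          congr 2
          omega
      _ ≤ _ := by
          refine sum_le_sum_of_subset_of_nonneg (Ioo_subset_Ioo_left (Nat.le_succ k))
            fun i hi _ => mul_nonneg (aCoef_pos ?_).le (h0 i)
          have := (mem_Ioo.1 hi).1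
          omega

/-- extension of a tuple up to the first bad level. -/
theorem exists_ext (p : Par) {h₀ : ℝ} (hh : 0 ≤ h₀) {m K M : ℕ} (hK : 2 ≤ K) (hM : M + K = m)
    {B : ℝ} (q : Fin M → ℕ) (hq : ∀ i, (q i).Prime) {r : ℕ} (hr : r ∈ p.R h₀ K)
    (hc : Con m M B (p.tm h₀) (sq q r)) {k : ℕ} (hF : Fl m k (sq q r)) :
    ∃ κ < K, (∀ i < κ, pr r (i + 1) < pr r i) ∧
      (blk (zq q r) 0 (M + κ), (D^[κ] r).totient) ∈ p.X h₀ m (M + κ) k B := by
  classical
  have hex : ∃ κ : ℕ, 1 ≤ κ ∧ (M + κ = m - 1 ∨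
      ¬ Good (p.h h₀ (m - 1 - (M + κ))) (m - 1 - (M + κ)) (D^[κ] r)) :=
    ⟨K - 1, by omega, Or.inl (by omega)⟩
  have hle : Nat.find hex ≤ K - 1 := Nat.find_min' hex ⟨by omega, Or.inl (by omega)⟩
  obtain ⟨h1, h2⟩ := Nat.find_spec hex
  have hmin : ∀ i < Nat.find hex, ¬ (1 ≤ i ∧ (M + i = m - 1 ∨
      ¬ Good (p.h h₀ (m - 1 - (M + i))) (m - 1 - (M + i)) (D^[i] r))) :=
    fun i hi => Nat.find_min hex hi
  generalize Nat.find hex = κ at hle h1 h2 hmin
  have hr0 : Good (p.h h₀ (K - 1 - 0)) (K - 1 - 0) (D^[0] r) := hr 0 (Nat.zero_le _)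
  have hg : ∀ i < κ, Good (p.h h₀ (m - 1 - (M + i))) (m - 1 - (M + i)) (D^[i] r) := by
    intro i hi
    rcases Nat.eq_zero_or_pos i with rfl | hi0
    · have : m - 1 - (M + 0) = K - 1 - 0 := by omega
      rw [this]
      exact hr0
    · by_contra hcon
      exact hmin i hi ⟨hi0, Or.inr hcon⟩
  have hsq : sq (blk (zq q r) 0 (M + κ)) (D^[κ] r) = sq q r := by
    funext i
    rw [sq_eq_zq, sq_eq_zq, zq_blk]
  refine ⟨κ, by omega, fun i hi => ?_, fun i => ?_, D^[κ] r, iterate_D_pos hr0.pos κ, rfl, h2,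
    ?_, fun _ => ?_⟩
  · have := (hg i hi).lt
    rw [P_D_iterate] at this
    exact this
  · change (zq q r (0 + i)).Prime
    rw [zero_add]
    by_cases hi : (i : ℕ) < M
    · rw [zq_lt q r hi]
      exact hq _
    · have h3 : (i : ℕ) = M + (i - M) := by omega
      have h4 := i.2
      rw [h3, zq_add]
      exact (hg (i - M) (by omega)).prime
  · change Con m (M + κ) B (p.tp h₀) (sq (blk (zq q r) 0 (M + κ)) (D^[κ] r))
    rw [hsq]
    have hc' := hc.mono le_rfl (tm_le_tp p hh)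
    refine ⟨hc'.1, fun l hl => ?_⟩
    by_cases hlM : l < M
    · exact hc'.2 l hlM
    · obtain ⟨i, rfl⟩ : ∃ i, l = M + i := ⟨l - M, by omega⟩
      have h3 := Good.con' (m := m) (k := M + i) (by omega) (hg i (by omega)) (Y := sq q r)
        fun s => by rw [add_assoc, sq_add, pr_iterate]
      refine h3.trans ?_
      have h4 := le_trans hh (p.le_h hh (m - 1 - (M + i)))
      have h5 : 0 ≤ p.h h₀ (m - 1 - (M + i)) ^ 19 := by positivity
      unfold Par.tp
      linarith
  · change Fl m k (sq (blk (zq q r) 0 (M + κ)) (D^[κ] r))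
    rw [hsq]
    exact hF

/-- the tuples whose extension by `κ` levels lies in `X`. -/
def Ext (p : Par) (h₀ : ℝ) (m M κ k : ℕ) (B : ℝ) : Set ((Fin M → ℕ) × ℕ) :=
  {τ | ∃ r : ℕ, r.totient = τ.2 ∧ (∀ i < κ, pr r (i + 1) < pr r i) ∧
    (blk (zq τ.1 r) 0 (M + κ), (D^[κ] r).totient) ∈ p.X h₀ m (M + κ) k B}

theorem Tu_subset (p : Par) {h₀ : ℝ} (hh : 0 ≤ h₀) {m K : ℕ} (hK : 2 ≤ K) (hm : K ≤ m)
    {B : ℝ} (hB : 0 < B) :
    Tu (p.R h₀ K) m K B (p.tm h₀) ⊆ To (p.R h₀ K) m K B (p.tm h₀) ∪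
      ⋃ k ∈ range (m - K + 1), ⋃ κ ∈ range K, Ext p h₀ m (m - K) κ k B := by
  rintro ⟨q, w⟩ ⟨hq, r, hr, hw, hc⟩
  dsimp only at hq hw hc
  rcases ordered_or_Fl (by omega) hB (tm_nonpos p hh) (sq_nonneg' q r) hc with
    ⟨h1, h2⟩ | ⟨k, hk, hF⟩
  · left
    refine ⟨hq, fun a b hab => ?_, fun i => ?_, r, hr, hw, fun i => ?_, hc⟩
    · have := h1 a b hab b.2.le
      rw [sq_fin, sq_fin] at this
      exact lt_of_ys_lt (by exact_mod_cast this)
    · change (ys (q i) : ℝ) ≤ _
      rw [← sq_fin q r i]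
      rcases Nat.eq_zero_or_pos i with h0 | h0
      · rw [h0]
        exact h2
      · exact (h1 0 i h0 i.2.le).le.trans h2
    · have := h1 i (m - K + 0) i.2 le_rfl
      rw [sq_fin, sq_add] at this
      exact lt_of_ys_lt (by exact_mod_cast this)
  · right
    obtain ⟨κ, hκ, h1, h2⟩ := exists_ext p hh hK (by omega : m - K + K = m) q hq hr hc hF
    simp only [Set.mem_iUnion, mem_range]
    exact ⟨k, by omega, κ, hκ, r, hw, h1, h2⟩

end OrdAux

open OrdAux in
theorem ord (hMa : MasterStmt) (hG : GsumStmt) : OrdStmt := by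
  intro p
  obtain ⟨c, hc, hMa⟩ := hMa p
  filter_upwards [hMa, eventually_ge_atTop 0] with h₀ ⟨C, hC, hMa⟩ hh ε hε
  have hC0 : 0 < C := by linarith
  filter_upwards [(hG p).2.2.1 c (ε / C) hc (by positivity), eventually_ge_atTop 2] with K hK h2
  filter_upwards [hMa, eventually_ge_atTop K] with m hm hKm B hSc
  refine (Mass_mono (Tu_subset p hh h2 hKm hSc.1)).trans ((Mass_union_le _ _).trans
    (add_le_add le_rfl ?_))
  have hpos : ∀ L k : ℕ, 0 ≤ C * G L B / (1 + c) ^ (L - 1 - k) := by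
    intro L k
    have := G_pos L hSc.1
    positivity
  calc Mass tv (⋃ k ∈ range (m - K + 1), ⋃ κ ∈ range K, Ext p h₀ m (m - K) κ k B)
      ≤ ∑ k ∈ range (m - K + 1), ∑ κ ∈ range K,
          ENNReal.ofReal (C * G (m - K + κ) B / (1 + c) ^ (m - K + κ - 1 - k)) := by
        refine (Mass_biUnion_le _ _).trans (sum_le_sum fun k _ => ?_)
        refine (Mass_biUnion_le _ _).trans (sum_le_sum fun κ hκ => ?_)
        have := mem_range.1 hκ
        exact (Mass_ext rfl fun τ hτ => hτ).trans (hm B hSc _ (by omega) k)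
    _ = ENNReal.ofReal (∑ k ∈ range (m - K + 1), ∑ κ ∈ range K,
          C * G (m - K + κ) B / (1 + c) ^ (m - K + κ - 1 - k)) := by
        rw [ENNReal.ofReal_sum_of_nonneg fun k _ => sum_nonneg fun κ _ => hpos _ _]
        refine sum_congr rfl fun k _ => ?_
        rw [ENNReal.ofReal_sum_of_nonneg fun κ _ => hpos _ _]
    _ ≤ ENNReal.ofReal (ε * G m B) := by
        refine ENNReal.ofReal_le_ofReal ?_
        have h3 := mul_le_mul_of_nonneg_left (hK m B hSc hKm) hC0.le
        have h4 : C * (ε / C * G m B) = ε * G m B := by field_simp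
        rw [h4, mul_sum] at h3
        refine le_trans (le_of_eq (sum_congr rfl fun k _ => ?_)) h3
        rw [sum_Ico_eq_sum_range, mul_sum, (by omega : m - (m - K) = K)]
        refine sum_congr rfl fun κ _ => ?_
        rw [mul_div_assoc]

end Crest.Agent.R20
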