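import Crest.Agent.R20.PosAux

/-!
# Row 20: the positive lower bound for the mass of the ordered family
-/

set_option autoImplicit false

noncomputable section

namespace Crest.Agent.R20

open Crest.NumberTheoryR.TotientScale Finset Filter Topology MeasureTheory
open scoped ENNReal ArithmeticFunction.Omega

namespace PosAux

theorem sum_Ioo_succ {j M : ℕ} (h : j + 1 < M) (F : ℕ → ℝ) :
    ∑ i ∈ Ioo j M, F i = F (j + 1) + ∑ i ∈ Ioo (j + 1) M, F i := by
  have : Ioo j M = insert (j + 1) (Ioo (j + 1) M) := by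
    ext i; simp only [mem_Ioo, mem_insert]; omega
  rw [this, sum_insert (by simp)]

theorem sum_range_zero' {M : ℕ} (h : 0 < M) (F : ℕ → ℝ) :
    ∑ i ∈ range M, F i = F 0 + ∑ i ∈ Ioo 0 M, F i := by
  have : range M = insert 0 (Ioo 0 M) := by
    ext i; simp only [mem_Ioo, mem_insert, mem_range]; omega
  rw [this, sum_insert (by simp)]

/-- the lower bound for the last slack variable -/
def ct (N : ℕ) (t : ℝ) (k : ℕ) : ℝ := if k = N + 1 then t else 0

theorem At_le (N k : ℕ) {i : ℕ} (h : k < i) : 0.614 * At N k k i ≤ aCoef (i - k + 1) := by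
  unfold At Ab
  by_cases hi : i = k + 1
  · subst hi
    rw [if_pos (⟨rfl, rfl⟩ : k = k ∧ k + 1 = k + 1), Nat.add_sub_cancel_left]
    have := aCoef_one.2
    have := aCoef_two.1
    split_ifs <;> norm_num <;> linarith
  · rw [if_neg (by omega), if_neg (by omega), add_zero]
    have h1 := aCoef_pos (s := i - k) (by omega)
    have h2 := aCoef_mono (Nat.le_succ (i - k))
    linarith

theorem At_le_zero {N : ℕ} (hN : 1 ≤ N) {i : ℕ} (h : 0 < i) : At N 0 0 i ≤ aCoef (i + 1) := by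
  unfold At Ab
  rw [if_neg (by omega), Nat.sub_zero]
  split_ifs with hi
  · rw [hi.2]
    have := aCoef_one.2
    have := aCoef_two.1
    norm_num
    linarith
  · rw [add_zero]; exact aCoef_mono (Nat.le_succ i)

/-- the properties of the good region -/
structure Nice (M : ℕ) (e : ℕ → ℝ) (B' B : ℝ) (S : ℕ → ℝ) : Prop where
  pos : ∀ k < M, 0 < S k
  gap : ∀ k, k + 1 < M → S (k + 1) + 2 ≤ S k
  top : S 0 + 2 ≤ 9 / 10 * B
  row : ∀ k < M, e k + ∑ i ∈ Ioo k M, aCoef (i - k) * S i ≤ S k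
  bud : ∑ i ∈ range M, aCoef (i + 1) * S i ≤ B'

theorem nice {N : ℕ} (hN : 1 ≤ N) {e : ℕ → ℝ} (he : ∀ k, 2 ≤ e k) {t B' B : ℝ} (ht : 0 ≤ t)
    (hB' : B' ≤ B) (hB : 12 ≤ B) {s : Fin (N + 2) → ℝ}
    (hs : s ∈ Sx (N + 2) (Ab N) (fun k => e k + ct N t k) B')
    (hf : ∀ k ≤ N, s ∉ Sx (N + 2) (At N k) (ct N t) B) : Nice (N + 2) e B' B (ext s) := by
  obtain ⟨hrow, hbud⟩ := hs
  have hct : ∀ k, 0 ≤ ct N t k := fun k => by unfold ct; split_ifs; exacts [ht, le_rfl]
  have hpos : ∀ k < N + 2, 0 < ext s k := by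
    have : ∀ j k, N + 2 ≤ k + j → k < N + 2 → 0 < ext s k := by
      intro j
      induction j with
      | zero => intro k h1 h2; omega
      | succ j ih =>
        intro k h1 h2
        have h3 : 0 ≤ ∑ i ∈ Ioo k (N + 2), Ab N k i * ext s i :=
          sum_nonneg fun i hi => mul_nonneg (Ab_nonneg N k i (mem_Ioo.1 hi).1)
            (ih i (by have := (mem_Ioo.1 hi).1; omega) (mem_Ioo.1 hi).2).le
        have := hrow k h2
        have := he k
        have := hct k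
        linarith
    exact fun k hk => this (N + 2) k (by omega) hk
  have hrow' : ∀ k < N + 2, e k + ∑ i ∈ Ioo k (N + 2), aCoef (i - k) * ext s i ≤ ext s k := by
    intro k hk
    have h1 : ∑ i ∈ Ioo k (N + 2), aCoef (i - k) * ext s i ≤
        ∑ i ∈ Ioo k (N + 2), Ab N k i * ext s i :=
      sum_le_sum fun i hi => mul_le_mul_of_nonneg_right (le_Ab N k i) (hpos i (mem_Ioo.1 hi).2).le
    have := hrow k hk
    have := hct k
    linarith
  have hnf : ∀ k ≤ N, ext s k < ∑ i ∈ Ioo k (N + 2), At N k k i * ext s i := by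
    intro k hk
    by_contra hcon
    refine hf k hk ⟨fun j hj => ?_, hbud.trans hB'⟩
    by_cases hjk : j = k
    · subst hjk
      rw [ct, if_neg (by omega), zero_add]
      exact not_lt.1 hcon
    · have e1 : ∀ i, At N k j i = Ab N j i := fun i => by
        rw [At, if_neg (fun h => hjk h.1), add_zero]
      simp only [e1]
      have := hrow j hj
      have := he j
      linarith
  refine ⟨hpos, fun k hk => ?_, ?_, hrow', hbud⟩
  · rcases Nat.lt_or_ge k N with h | h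
    · by_contra hcon
      have h1 := hrow' k (by omega)
      rw [sum_Ioo_succ hk, Nat.add_sub_cancel_left] at h1
      have h2 := hnf (k + 1) (by omega)
      have h3 : 0.614 * ∑ i ∈ Ioo (k + 1) (N + 2), At N (k + 1) (k + 1) i * ext s i ≤
          ∑ i ∈ Ioo (k + 1) (N + 2), aCoef (i - k) * ext s i := by
        rw [mul_sum]
        refine sum_le_sum fun i hi => ?_
        have hi' := mem_Ioo.1 hi
        rw [← mul_assoc]
        refine mul_le_mul_of_nonneg_right ?_ (hpos i hi'.2).le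
        have := At_le N (k + 1) hi'.1
        rwa [show i - (k + 1) + 1 = i - k by omega] at this
      have h4 := mul_le_mul_of_nonneg_right aCoef_one.1 (hpos (k + 1) hk).le
      have := he k
      have := not_le.1 hcon
      linarith
    · obtain rfl : k = N := by omega
      have h1 := hrow k (by omega)
      rw [sum_Ioo_succ hk, Ab, if_pos ⟨rfl, rfl⟩, sum_eq_zero (fun i hi => by
        have := mem_Ioo.1 hi; omega)] at h1
      have := he k
      have := hct k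
      linarith
  · by_contra hcon
    have h1 := hbud
    rw [sum_range_zero' (by omega), zero_add] at h1
    have h2 := hnf 0 (by omega)
    have h3 : ∑ i ∈ Ioo 0 (N + 2), At N 0 0 i * ext s i ≤
        ∑ i ∈ Ioo 0 (N + 2), aCoef (i + 1) * ext s i :=
      sum_le_sum fun i hi => mul_le_mul_of_nonneg_right (At_le_zero hN (mem_Ioo.1 hi).1)
        (hpos i (mem_Ioo.1 hi).2).le
    have h4 := mul_le_mul_of_nonneg_right aCoef_one.1 (hpos 0 (by omega)).le
    have := not_le.1 hcon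
    linarith

theorem region (hS : SimplexStmt) {ρ c₀ : ℝ} (hρ : 0 < ρ) (hρ1 : ρ < 1) (hc : 0 < c₀)
    (hg : ∀ k, c₀ ≤ gSeq k * ρ ^ k ∧ gSeq k * ρ ^ k ≤ 1) {c₁ A : ℝ}
    (hc₁ : c₁ = 0.4 * c₀ ^ 2 * ρ / (1 + 1 / c₀)) (hA : 0 ≤ A)
    (hA1 : Real.exp (3 - A * c₁) ≤ c₁ / 2) {N : ℕ} (hN : 1 ≤ N) {e : ℕ → ℝ} (he : ∀ k, 2 ≤ e k)
    {ε B m : ℝ} (hε : 0 ≤ ε) (hB : 12 ≤ B) (hm : A + 1 ≤ m)
    (herr : ε + ∑ k ∈ range (N + 2), gr (Ab N) k * e k ≤ B / m)
    (h1 : Real.exp (-A - 2) ≤ (1 - (A + 1) / m) ^ (N + 2))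
    (h2 : A * (1 + c₁) - 1 ≤ A * (1 + c₁) / m * (N + 2 : ℕ)) :
    ∃ R : Set (Fin (N + 2) → ℝ),
      ENNReal.ofReal (Real.exp (-A - 2) / (2 * (1 + 1 / c₀)) * G (N + 2) B) ≤ volume R ∧
      ∀ s ∈ R, Nice (N + 2) e (B - ε) B (ext s) := by
  have hc1 : 0 < c₁ := by rw [hc₁]; positivity
  have hm0 : 0 < m := by linarith
  have hB0 : 0 < B := by linarith
  have hgl : 0 < gr (Ab N) (N + 1) := gr_pos (Ab_nonneg N) _
  set t : ℝ := A * B / (m * gr (Ab N) (N + 1)) with htdef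
  have ht : 0 ≤ t := by positivity
  have hgt : gr (Ab N) (N + 1) * t = A * B / m := by rw [htdef]; field_simp
  set Pb : ℝ := ∏ i ∈ range (N + 2), gr (Ab N) i with hPb
  have hPb0 : 0 < Pb := prod_pos fun i _ => gr_pos (Ab_nonneg N) i
  set X : ℝ := Real.exp (-A - 2) / 2 * (B ^ (N + 2) / (N + 2).factorial / Pb) with hX
  have hX0 : 0 ≤ X := by positivity
  have hsum : ∀ g : ℕ → ℝ, ∑ k ∈ range (N + 2), g k * ct N t k = g (N + 1) * t := by
    intro g
    rw [sum_range_succ, sum_eq_zero (fun k hk => by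
      have := mem_range.1 hk
      rw [ct, if_neg (by omega), mul_zero]), ct, if_pos rfl, zero_add]
  refine ⟨Sx (N + 2) (Ab N) (fun k => e k + ct N t k) (B - ε) \
    ⋃ k ∈ range (N + 1), Sx (N + 2) (At N k) (ct N t) B, ?_, fun s hs => ?_⟩
  swap
  · refine nice hN he ht (by linarith) hB hs.1 fun k hk hmem => hs.2 ?_
    exact Set.mem_biUnion (mem_range.2 (by omega)) hmem
  have vb : ENNReal.ofReal X + ENNReal.ofReal X ≤
      volume (Sx (N + 2) (Ab N) (fun k => e k + ct N t k) (B - ε)) := by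
    rw [vol_Sx hS _ (Ab_nonneg N), ← ENNReal.ofReal_add hX0 hX0]
    refine ENNReal.ofReal_le_ofReal ?_
    have a0 : 0 ≤ 1 - (A + 1) / m := by rw [sub_nonneg, div_le_one hm0]; exact hm
    have a1 : B * (1 - (A + 1) / m) ≤
        B - ε - ∑ k ∈ range (N + 2), gr (Ab N) k * (e k + ct N t k) := by
      simp only [mul_add]
      rw [sum_add_distrib, hsum, hgt]
      have : B * (1 - (A + 1) / m) = B - A * B / m - B / m := by field_simp; ring
      linarith
    have a2 := le_sv (N + 2) (by positivity) a1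
    rw [mul_pow] at a2
    calc X + X = Real.exp (-A - 2) * B ^ (N + 2) / (N + 2).factorial / Pb := by rw [hX]; ring
      _ ≤ B ^ (N + 2) * (1 - (A + 1) / m) ^ (N + 2) / (N + 2).factorial / Pb := by
          rw [mul_comm]; gcongr
      _ ≤ _ := div_le_div_of_nonneg_right a2 hPb0.le
  have vf : ∀ k ∈ range (N + 1), volume (Sx (N + 2) (At N k) (ct N t) B) ≤
      ENNReal.ofReal (1 / (1 + c₁) ^ (N + 1 - k) * (c₁ * X)) := by
    intro k hk
    have hk := mem_range.1 hk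
    rw [vol_Sx hS _ (At_nonneg N k)]
    refine ENNReal.ofReal_le_ofReal ?_
    have a1 : (1 + c₁) * gr (Ab N) (N + 1) ≤ gr (At N k) (N + 1) := by
      rw [hc₁]; exact gr_ratio hρ hρ1 hc hg N hk (by omega)
    have a2 : B - ∑ j ∈ range (N + 2), gr (At N k) j * ct N t j ≤ B * (1 - A * (1 + c₁) / m) := by
      rw [hsum]
      have := mul_le_mul_of_nonneg_right a1 ht
      rw [mul_assoc, hgt] at this
      have e1 : B * (1 - A * (1 + c₁) / m) = B - (1 + c₁) * (A * B / m) := by field_simp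
      linarith
    have a3 := sv_le (N + 2) hB0.le a2
    have a4 : (1 + c₁) ^ (N + 1 - k) * Pb ≤ ∏ i ∈ range (N + 2), gr (At N k) i := by
      rw [hc₁]; exact prod_At_ge hρ hρ1 hc hg N (by omega)
    have a5 : Real.exp (-(A * (1 + c₁) / m * (N + 2 : ℕ))) ≤ c₁ * (Real.exp (-A - 2) / 2) := by
      calc _ ≤ Real.exp ((3 - A * c₁) + (-A - 2)) := Real.exp_le_exp.2 (by linarith)
        _ = Real.exp (3 - A * c₁) * Real.exp (-A - 2) := Real.exp_add _ _
        _ ≤ c₁ / 2 * Real.exp (-A - 2) := mul_le_mul_of_nonneg_right hA1 (Real.exp_pos _).le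
        _ = _ := by ring
    calc _ ≤ B ^ (N + 2) * (c₁ * (Real.exp (-A - 2) / 2)) / (N + 2).factorial /
          ((1 + c₁) ^ (N + 1 - k) * Pb) := by
          refine div_le_div₀ (by positivity) (a3.trans ?_) (by positivity) a4
          gcongr
      _ = _ := by rw [hX]; field_simp
  have vF : volume (⋃ k ∈ range (N + 1), Sx (N + 2) (At N k) (ct N t) B) ≤ ENNReal.ofReal X := by
    refine (measure_biUnion_finset_le _ _).trans ((sum_le_sum vf).trans ?_)
    rw [← ENNReal.ofReal_sum_of_nonneg (fun k _ => by positivity), ← sum_mul]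
    refine ENNReal.ofReal_le_ofReal ?_
    calc _ ≤ 1 / c₁ * (c₁ * X) := mul_le_mul_of_nonneg_right (geo_le hc1 N) (by positivity)
      _ = X := by field_simp
  have hGX : Real.exp (-A - 2) / (2 * (1 + 1 / c₀)) * G (N + 2) B ≤ X := by
    have a1 := prod_Ab_le hρ hρ1 hc hg N
    have a2 : 0 < ∏ i ∈ range (N + 2), gSeq (i + 1) := prod_pos fun i _ => gSeq_pos _
    calc _ = Real.exp (-A - 2) / 2 * (B ^ (N + 2) / (N + 2).factorial /
          ((1 + 1 / c₀) * ∏ i ∈ range (N + 2), gSeq (i + 1))) := by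
          unfold G; field_simp
      _ ≤ X := by rw [hX]; gcongr
  refine (ENNReal.ofReal_le_ofReal hGX).trans ?_
  refine (ENNReal.add_le_add_iff_right (a := ENNReal.ofReal X) ENNReal.ofReal_ne_top).1 ?_
  refine vb.trans ((tsub_le_iff_right.1 (le_measure_sdiff
    (s₂ := ⋃ k ∈ range (N + 1), Sx (N + 2) (At N k) (ct N t) B))).trans ?_)
  exact add_le_add le_rfl vF

/-- the tolerance at the level with `j` further levels -/
def ee (p : Par) (h₀ : ℝ) (j : ℕ) : ℝ := 2 * p.h h₀ j ^ 19 + 2 + 2 * ((j : ℝ) + 1) ^ 2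

theorem h_nonneg (p : Par) {h₀ : ℝ} (h : 1 ≤ h₀) (j : ℕ) : 0 ≤ p.h h₀ j :=
  (by linarith : (0 : ℝ) ≤ h₀).trans (p.le_h (by linarith) j)

theorem two_le_ee (p : Par) {h₀ : ℝ} (h : 1 ≤ h₀) (j : ℕ) : 2 ≤ ee p h₀ j := by
  have := h_nonneg p h j
  unfold ee
  have h1 : 0 ≤ 2 * p.h h₀ j ^ 19 := by positivity
  have h2 : 0 ≤ 2 * ((j : ℝ) + 1) ^ 2 := by positivity
  linarith

theorem summable_ee (p : Par) (h₀ : ℝ) : Summable fun j => p.ρ ^ j * ee p h₀ j := by
  have hρ := p.ρ_pos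
  have hϱ : 0 < p.ϱ := by linarith [p.one_lt]
  have h1 : p.ρ * p.ϱ ^ 19 < 1 := by
    have : p.ρ * p.ϱ ^ 19 * p.ϱ = 1 := by rw [← p.pow]; ring
    have h0 : 0 < p.ρ * p.ϱ ^ 19 := by positivity
    nlinarith [p.one_lt]
  have hn : ‖p.ρ‖ < 1 := by rw [Real.norm_of_nonneg hρ.le]; exact p.ρ_lt
  have s1 := (summable_geometric_of_lt_one (by positivity) h1).mul_left (2 * h₀ ^ 19)
  have s2 := (summable_geometric_of_lt_one hρ.le p.ρ_lt).mul_left 4
  have s3 := (summable_pow_mul_geometric_of_norm_lt_one 1 hn).mul_left 4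
  have s4 := (summable_pow_mul_geometric_of_norm_lt_one 2 hn).mul_left 2
  refine (((s1.add s2).add s3).add s4).congr fun j => ?_
  unfold ee Par.h
  rw [mul_pow, mul_pow, ← pow_mul, ← pow_mul, mul_comm 19 j]
  ring

theorem err_le (p : Par) {h₀ : ℝ} (h : 1 ≤ h₀) {c₀ : ℝ} (hc : 0 < c₀)
    (hg : ∀ k, c₀ ≤ gSeq k * p.ρ ^ k ∧ gSeq k * p.ρ ^ k ≤ 1) :
    ∀ᶠ K : ℕ in atTop, ∀ (N m : ℕ) (B : ℝ), m = N + 2 + K → p.Sc m B →
      ee p h₀ m + ∑ k ∈ range (N + 2), gr (Ab N) k * ee p h₀ (m - 1 - k) ≤ B / m := by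
  have hρ := p.ρ_pos
  have hw : ∀ j, 0 ≤ p.ρ ^ j * ee p h₀ j := fun j =>
    mul_nonneg (by positivity) (by linarith [two_le_ee p h j])
  have ht := (tendsto_sum_nat_add fun j => p.ρ ^ j * ee p h₀ j).const_mul ((1 + 1 / c₀) * |p.κ₂|)
  rw [mul_zero] at ht
  filter_upwards [ht.eventually (gt_mem_nhds one_pos)] with K hK N m B hm hB
  obtain ⟨hB0, -, hB2⟩ := hB
  have hm0 : (0 : ℝ) < m := by rw [hm]; positivity
  have hC : (1 : ℝ) ≤ 1 + 1 / c₀ := le_add_of_nonneg_right (by positivity)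
  have h1 : ∑ j ∈ range (N + 3), p.ρ ^ (j + K) * ee p h₀ (j + K) ≤
      ∑' j, p.ρ ^ (j + K) * ee p h₀ (j + K) :=
    ((summable_nat_add_iff K).2 (summable_ee p h₀)).sum_le_tsum _ (fun j _ => hw _)
  have h2 : (ee p h₀ m + ∑ k ∈ range (N + 2), gr (Ab N) k * ee p h₀ (m - 1 - k)) * p.ρ ^ m ≤
      (1 + 1 / c₀) * ∑ j ∈ range (N + 3), p.ρ ^ (j + K) * ee p h₀ (j + K) := by
    rw [sum_range_succ _ (N + 2), ← hm, add_mul, mul_add, add_comm, ← sum_range_reflect, sum_mul,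
      mul_sum]
    refine add_le_add (sum_le_sum fun j hj => ?_) ?_
    · have hj := mem_range.1 hj
      have a1 := gr_Ab_mul_le hρ p.ρ_lt hc hg N (i := N + 2 - 1 - j) (by omega)
      have a2 : p.ρ ^ m = p.ρ ^ (N + 2 - 1 - j + 1) * p.ρ ^ (j + K) := by
        rw [← pow_add]; congr 1; omega
      rw [show m - 1 - (N + 2 - 1 - j) = j + K by omega, a2]
      have := mul_le_mul_of_nonneg_right a1 (hw (j + K))
      linarith
    · have := mul_le_mul_of_nonneg_right hC (hw m)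
      linarith
  have h3 : (m : ℝ) ≤ |p.κ₂| * (p.ρ ^ m * B) := by
    have := hB2.trans (le_abs_self _)
    unfold kap at this
    rwa [div_le_iff₀ (by positivity)] at this
  have h4 := h2.trans (mul_le_mul_of_nonneg_left h1 (by linarith))
  have h5 : 0 ≤ ee p h₀ m + ∑ k ∈ range (N + 2), gr (Ab N) k * ee p h₀ (m - 1 - k) :=
    add_nonneg (by linarith [two_le_ee p h m]) (sum_nonneg fun k _ =>
      mul_nonneg (gr_pos (Ab_nonneg N) k).le (by linarith [two_le_ee p h (m - 1 - k)]))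
  rw [le_div_iff₀ hm0]
  generalize ee p h₀ m + ∑ k ∈ range (N + 2), gr (Ab N) k * ee p h₀ (m - 1 - k) = E at h4 h5 ⊢
  generalize ∑' j, p.ρ ^ (j + K) * ee p h₀ (j + K) = η at h4 hK
  calc E * m ≤ E * (|p.κ₂| * (p.ρ ^ m * B)) := mul_le_mul_of_nonneg_left h3 h5
    _ = E * p.ρ ^ m * (|p.κ₂| * B) := by ring
    _ ≤ (1 + 1 / c₀) * η * (|p.κ₂| * B) := mul_le_mul_of_nonneg_right h4 (by positivity)
    _ = (1 + 1 / c₀) * |p.κ₂| * η * B := by ring
    _ ≤ 1 * B := mul_le_mul_of_nonneg_right hK.le hB0.le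
    _ = B := one_mul B

theorem sum_cut {M m : ℕ} (hM : M ≤ m) {Y : ℕ → ℝ} (hY : ∀ i, M ≤ i → Y i = 0) (a : ℕ → ℝ)
    (k : ℕ) : ∑ i ∈ Ioo k m, a i * Y i = ∑ i ∈ Ioo k M, a i * Y i := by
  symm
  refine sum_subset (Ioo_subset_Ioo_right hM) fun i hi hi' => ?_
  rw [hY i (by simp only [mem_Ioo] at hi hi'; omega), mul_zero]

theorem sum_shift {s : Finset ℕ} {a S Y : ℕ → ℝ} {n : ℝ} (ha : ∀ i ∈ s, 0 ≤ a i ∧ a i ≤ n)
    (hs : (s.card : ℝ) ≤ n) (hY : ∀ i ∈ s, Y i ≤ S i + 2) :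
    ∑ i ∈ s, a i * Y i ≤ ∑ i ∈ s, a i * S i + 2 * n ^ 2 := by
  have hn : 0 ≤ n := (Nat.cast_nonneg _).trans hs
  calc ∑ i ∈ s, a i * Y i ≤ ∑ i ∈ s, (a i * S i + 2 * n) := sum_le_sum fun i hi => by
        have := mul_le_mul_of_nonneg_left (hY i hi) (ha i hi).1
        have := (ha i hi).2
        linarith
    _ = ∑ i ∈ s, a i * S i + s.card * (2 * n) := by
        rw [sum_add_distrib, sum_const, nsmul_eq_mul]
    _ ≤ _ := by nlinarith

theorem con_of_nice (p : Par) (h₀ : ℝ) {M m : ℕ} (hM : M ≤ m) {B : ℝ} {S Y : ℕ → ℝ}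
    (h : Nice M (fun k => ee p h₀ (m - 1 - k)) (B - ee p h₀ m) B S)
    (hY : ∀ i < M, S i ≤ Y i ∧ Y i ≤ S i + 2) (hY0 : ∀ i, M ≤ i → Y i = 0) :
    Con m M B (p.tm h₀) Y := by
  refine ⟨?_, fun k hk => ?_⟩
  · have e1 : ∑ i ∈ range m, aCoef (i + 1) * Y i = ∑ i ∈ range M, aCoef (i + 1) * Y i := by
      symm
      refine sum_subset (range_subset_range.2 hM) fun i _ hi' => ?_
      rw [hY0 i (by simpa using hi'), mul_zero]
    have h1 := sum_shift (s := range M) (a := fun i => aCoef (i + 1)) (S := S) (Y := Y)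
      (n := (m : ℝ) + 1) (fun i hi => ⟨(aCoef_pos (by omega)).le, (aCoef_le _).trans (by
        have := mem_range.1 hi
        exact_mod_cast (by omega : i + 1 ≤ m + 1))⟩)
      (by rw [card_range]; exact_mod_cast (by omega : M ≤ m + 1))
      (fun i hi => (hY i (mem_range.1 hi)).2)
    have h2 := h.bud
    unfold ee at h2
    rw [e1, Par.tm]
    linarith
  · have h1 := sum_shift (s := Ioo k M) (a := fun i => aCoef (i - k)) (S := S) (Y := Y)
      (n := ((m - 1 - k : ℕ) : ℝ) + 1)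
      (fun i hi => ⟨(aCoef_pos (by have := mem_Ioo.1 hi; omega)).le, (aCoef_le _).trans (by
        have := mem_Ioo.1 hi
        exact_mod_cast (by omega : i - k ≤ m - 1 - k + 1))⟩)
      (by rw [Nat.card_Ioo]; exact_mod_cast (by omega : M - k - 1 ≤ m - 1 - k + 1))
      (fun i hi => (hY i (mem_Ioo.1 hi).2).2)
    have h2 := h.row k hk
    unfold ee at h2
    rw [sum_cut hM hY0 (fun i => aCoef (i - k)), Par.tm]
    have := (hY k hk).1
    linarith

theorem Nice.chain {M : ℕ} {e : ℕ → ℝ} {B' B : ℝ} {S : ℕ → ℝ} (h : Nice M e B' B S) {i j : ℕ}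
    (hij : i < j) (hj : j < M) : S j + 2 ≤ S i := by
  induction j, hij using Nat.le_induction with
  | base => exact h.gap i hj
  | succ j _ ih =>
    have := h.gap j hj
    have := ih (by omega)
    linarith

theorem mass_ge (hC : CoupleStmt) (p : Par) (h₀ : ℝ) (m K : ℕ) (B : ℝ)
    (R : Set (Fin (m - K) → ℝ))
    (hR : ∀ s ∈ R, Nice (m - K) (fun k => ee p h₀ (m - 1 - k)) (B - ee p h₀ m) B (ext s)) :
    volume R ≤ Mass tv (To {1} m K B (p.tm h₀)) := by
  refine le_trans ((hC (m - K) {q | (q, 1) ∈ To {1} m K B (p.tm h₀)} R).2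
    (fun s hs i => ?_) (fun s hs q hq => ?_)) ?_
  · rw [← ext_fin s i]; exact (hR s hs).pos i i.2
  · have hn := hR s hs
    refine ⟨fun i => (hq i).1, fun i j hij => ?_, fun i => ?_, 1, rfl, Nat.totient_one,
      fun i => ?_, ?_⟩
    · have h1 := hn.chain (i := i) (j := j) hij j.2
      rw [ext_fin, ext_fin] at h1
      have h2 : (ys (q j) : ℝ) < ys (q i) := by linarith [(hq j).2.2, (hq i).2.1]
      exact lt_of_ys_lt (by exact_mod_cast h2)
    · have h1 : s i ≤ ext s 0 := by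
        rcases Nat.eq_zero_or_pos i with h | h
        · rw [← h, ext_fin]
        · have := hn.chain h i.2
          rw [ext_fin] at this
          linarith
      have := hn.top
      have := (hq i).2.2
      show (ys (q i) : ℝ) ≤ _
      linarith
    · rw [P_one]; exact (hq i).1.one_lt
    · refine con_of_nice p h₀ (Nat.sub_le m K) hn (fun i hi => ?_) (fun i hi => ?_)
      · have e1 := sq_fin q 1 ⟨i, hi⟩
        have e2 := ext_fin s ⟨i, hi⟩
        simp only at e1 e2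
        rw [e1, e2]
        exact ⟨(hq _).2.1, (hq _).2.2.le⟩
      · obtain ⟨n, rfl⟩ := Nat.exists_eq_add_of_le hi
        show sq q 1 (m - K + n) = 0
        rw [sq_add, pr_one, ys_one, Nat.cast_zero]
  · refine Mass_le_of_injOn (fun q => (q, 1)) (fun q _ q' _ h => congrArg Prod.fst h)
      (fun q hq => hq) (fun q _ => ?_)
    simp [tv]

end PosAux

open PosAux in
theorem pos (hR : RenewStmt) (hS : SimplexStmt) (hC : CoupleStmt) : PosStmt := by
  intro p
  obtain ⟨c₀, hc, hg⟩ := (hR.2 p).1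
  have hρ := p.ρ_pos
  obtain ⟨c₁, hc₁⟩ : ∃ c₁ : ℝ, c₁ = 0.4 * c₀ ^ 2 * p.ρ / (1 + 1 / c₀) := ⟨_, rfl⟩
  have hc1 : 0 < c₁ := by rw [hc₁]; positivity
  obtain ⟨A, hAdef⟩ : ∃ A : ℝ, A = (3 + 2 / c₁) / c₁ := ⟨_, rfl⟩
  have hA : 0 ≤ A := by rw [hAdef]; positivity
  have hA1 : Real.exp (3 - A * c₁) ≤ c₁ / 2 := by
    have e : 3 - A * c₁ = -(2 / c₁) := by rw [hAdef]; field_simp; ring
    rw [e, Real.exp_neg, ← inv_div 2 c₁]
    refine inv_anti₀ (by positivity) ?_
    linarith [Real.add_one_le_exp (2 / c₁)]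
  refine ⟨Real.exp (-A - 2) / (2 * (1 + 1 / c₀)), by positivity, fun h₀ hh => ?_⟩
  filter_upwards [err_le p hh hc hg] with K hK
  have t1 : ∀ᶠ m : ℕ in atTop, Real.exp (-A - 2) < (1 + -(A + 1) / m) ^ m :=
    (Real.tendsto_one_add_div_pow_exp (-(A + 1))).eventually
      (lt_mem_nhds (Real.exp_lt_exp.2 (by linarith)))
  filter_upwards [t1, eventually_ge_atTop (K + 3), p.eventually_top hh 12,
    tendsto_natCast_atTop_atTop.eventually_ge_atTop (A + 1),
    tendsto_natCast_atTop_atTop.eventually_ge_atTop (A * (1 + c₁) * K)] with m m1 m2 m3 m4 m5 B hB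
  obtain ⟨N, hN⟩ : ∃ N, m - K = N + 2 := ⟨m - K - 2, by omega⟩
  have hm1 : (1 : ℝ) ≤ m := by exact_mod_cast (by omega : 1 ≤ m)
  have hm0 : (0 : ℝ) < m := by linarith
  have hB12 : 12 ≤ B := by
    have := (m3 B hB).2.2
    nlinarith
  have a0 : 0 ≤ 1 - (A + 1) / m := by rw [sub_nonneg, div_le_one hm0]; exact m4
  have a1 : 1 - (A + 1) / m ≤ 1 := sub_le_self _ (by positivity)
  have h1 : Real.exp (-A - 2) ≤ (1 - (A + 1) / m) ^ (N + 2) := by
    rw [neg_div, ← sub_eq_add_neg] at m1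
    exact m1.le.trans (pow_le_pow_of_le_one a0 a1 (by omega))
  have h2 : A * (1 + c₁) - 1 ≤ A * (1 + c₁) / m * (N + 2 : ℕ) := by
    have e : ((N + 2 : ℕ) : ℝ) = m - K := by
      rw [← hN, Nat.cast_sub (by omega)]
    rw [e, div_mul_eq_mul_div, le_div_iff₀ hm0]
    nlinarith
  have key := region hS hρ p.ρ_lt hc hg hc₁ hA hA1 (N := N) (by omega)
    (e := fun k => ee p h₀ (m - 1 - k)) (fun k => two_le_ee p hh _) (ε := ee p h₀ m)
    (by linarith [two_le_ee p hh m]) hB12 m4 (hK N m B (by omega) hB) h1 h2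
  rw [← hN] at key
  obtain ⟨R, hR1, hR2⟩ := key
  exact hR1.trans (mass_ge hC p h₀ m K B R hR2)

end Crest.Agent.R20
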