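import Crest.Agent.R20.Basic

/-!
# Row 20: the root `ρ` and the renewal theorem for `gSeq k * ρ ^ k`
-/

set_option autoImplicit false

noncomputable section

namespace Crest.Agent.R20

open Crest.NumberTheoryR.TotientScale Finset Filter Topology MeasureTheory
open scoped ENNReal ArithmeticFunction.Omega

namespace RenewAux

/-- dominated convergence for truncated sums. -/
theorem dct {F : Filter ℕ} {g w : ℕ → ℝ} (hg : Summable g) (hg0 : ∀ i, 0 ≤ g i)
    {N : ℕ → ℕ} (hN : Tendsto N F atTop) {a : ℕ → ℕ → ℝ} (ha : ∀ n i, |a n i| ≤ 1)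
    (hw : ∀ i, Tendsto (fun n => a n i) F (𝓝 (w i))) :
    Tendsto (fun n => ∑ i ∈ range (N n), g i * a n i) F (𝓝 (∑' i, g i * w i)) := by
  have h1 : ∀ n, ∑ i ∈ range (N n), g i * a n i =
      ∑' i, if i < N n then g i * a n i else 0 := by
    intro n
    rw [tsum_eq_sum (s := range (N n)) (fun i hi => if_neg (by simpa using hi))]
    exact sum_congr rfl fun i hi => (if_pos (mem_range.1 hi)).symm
  simp_rw [h1]
  refine tendsto_tsum_of_dominated_convergence hg (fun i => ?_) (Eventually.of_forall fun n i => ?_)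
  · refine ((hw i).const_mul (g i)).congr' ?_
    filter_upwards [hN.eventually_gt_atTop i] with n hn
    rw [if_pos hn]
  · split_ifs
    · rw [Real.norm_eq_abs, abs_mul, abs_of_nonneg (hg0 i)]
      exact mul_le_of_le_one_right (hg0 i) (ha n i)
    · simpa using hg0 i

variable {f u : ℕ → ℝ}

theorem bounds (hf : ∀ d, 0 < f d) (hs : HasSum f 1) (h0 : u 0 = 1)
    (hu : ∀ k, u (k + 1) = ∑ d ∈ range (k + 1), f d * u (k - d)) (k : ℕ) :
    0 < u k ∧ u k ≤ 1 := by
  induction k using Nat.strong_induction_on with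
  | _ k ih =>
    rcases k with _ | k
    · rw [h0]; norm_num
    · rw [hu]
      refine ⟨sum_pos (fun d _ => mul_pos (hf d) (ih _ (by omega)).1) nonempty_range_add_one, ?_⟩
      calc ∑ d ∈ range (k + 1), f d * u (k - d) ≤ ∑ d ∈ range (k + 1), f d :=
            sum_le_sum fun d _ => mul_le_of_le_one_right (hf d).le (ih _ (by omega)).2
        _ ≤ 1 := sum_le_hasSum _ (fun d _ => (hf d).le) hs

theorem ident (h0 : u 0 = 1)
    (hu : ∀ k, u (k + 1) = ∑ d ∈ range (k + 1), f d * u (k - d)) (n : ℕ) :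
    ∑ i ∈ range (n + 1), (1 - ∑ d ∈ range i, f d) * u (n - i) = 1 := by
  induction n with
  | zero => simp [h0]
  | succ n ih =>
    rw [sum_range_succ']
    have h1 : ∀ i ∈ range (n + 1), (1 - ∑ d ∈ range (i + 1), f d) * u (n + 1 - (i + 1)) =
        (1 - ∑ d ∈ range i, f d) * u (n - i) - f i * u (n - i) := by
      intro i _
      rw [sum_range_succ, Nat.add_sub_add_right]
      ring
    rw [sum_congr rfl h1, sum_sub_distrib, ih, ← hu]
    simp

theorem cluster (hf : ∀ d, 0 < f d) (hs : HasSum f 1) (h0 : u 0 = 1)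
    (hu : ∀ k, u (k + 1) = ∑ d ∈ range (k + 1), f d * u (k - d))
    (hr : Summable fun i => 1 - ∑ d ∈ range i, f d) {x : ℝ} (hx : MapClusterPt x atTop u)
    (hext : (∀ y, MapClusterPt y atTop u → y ≤ x) ∨ ∀ y, MapClusterPt y atTop u → x ≤ y) :
    (∑' i, (1 - ∑ d ∈ range i, f d)) * x = 1 := by
  have hb := bounds hf hs h0 hu
  have habs : ∀ k, |u k| ≤ 1 := fun k => abs_le.2 ⟨by linarith [(hb k).1], (hb k).2⟩
  obtain ⟨U, hU, hUx⟩ := mapClusterPt_iff_ultrafilter.1 hx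
  have hex : ∀ i : ℕ, ∃ y ∈ Set.Icc (0 : ℝ) 1, Tendsto (fun n => u (n - i)) U (𝓝 y) := by
    intro i
    exact isCompact_Icc.ultrafilter_le_nhds' (U.map fun n => u (n - i))
      (Ultrafilter.mem_map.2 (univ_mem' fun n => ⟨(hb _).1.le, (hb _).2⟩))
  choose w hw01 hw using hex
  have hw0 : w 0 = x := tendsto_nhds_unique (hw 0) (by simpa using hUx)
  have hcl : ∀ i, MapClusterPt (w i) atTop u := by
    intro i
    refine mapClusterPt_iff_ultrafilter.2 ⟨U.map fun n => n - i, ?_, hw i⟩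
    exact (tendsto_sub_atTop_nat i).mono_left hU
  have hid : Tendsto (fun n : ℕ => n) U atTop := hU
  have e1 : x = ∑' d, f d * w (d + 1) := by
    have h1 := dct hs.summable (fun d => (hf d).le) hid
      (a := fun n d => u (n - (d + 1))) (fun n d => habs _) (fun d => hw (d + 1))
    refine tendsto_nhds_unique hUx (h1.congr' ?_)
    filter_upwards [hid.eventually_ge_atTop 1] with n hn
    obtain ⟨k, rfl⟩ : ∃ k, n = k + 1 := ⟨n - 1, by omega⟩
    rw [hu]
    exact sum_congr rfl fun d _ => by rw [Nat.add_sub_add_right]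
  have hr0 : ∀ i, 0 ≤ 1 - ∑ d ∈ range i, f d := fun i =>
    sub_nonneg.2 (sum_le_hasSum _ (fun d _ => (hf d).le) hs)
  have e2 : ∑' i, (1 - ∑ d ∈ range i, f d) * w i = 1 := by
    have h1 := dct hr hr0 ((tendsto_add_atTop_nat 1).mono_left hU)
      (a := fun n d => u (n - d)) (fun n d => habs _) hw
    simp_rw [ident h0 hu] at h1
    exact tendsto_nhds_unique h1 tendsto_const_nhds
  have hsw : Summable fun d => f d * w (d + 1) :=
    Summable.of_nonneg_of_le (fun d => mul_nonneg (hf d).le (hw01 _).1)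
      (fun d => mul_le_of_le_one_right (hf d).le (hw01 _).2) hs.summable
  have e3 : HasSum (fun d => f d * (x - w (d + 1))) 0 := by
    have h1 := (hs.mul_right x).sub hsw.hasSum
    rw [← e1, one_mul, sub_self] at h1
    simpa only [mul_sub] using h1
  have e4 : ∀ d, f d * (x - w (d + 1)) = 0 := by
    rcases hext with h | h
    · have := (hasSum_zero_iff_of_nonneg fun d =>
        mul_nonneg (hf d).le (sub_nonneg.2 (h _ (hcl (d + 1))))).1 e3
      exact fun d => congrFun this d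
    · have h1 := e3.neg
      rw [neg_zero] at h1
      have := (hasSum_zero_iff_of_nonneg fun d => neg_nonneg.2
        (mul_nonpos_of_nonneg_of_nonpos (hf d).le (sub_nonpos.2 (h _ (hcl (d + 1)))))).1 h1
      exact fun d => neg_eq_zero.1 (congrFun this d)
  have e5 : ∀ i, w i = x := by
    rintro (_ | i)
    · exact hw0
    · rcases mul_eq_zero.1 (e4 i) with h | h
      · exact absurd h (hf i).ne'
      · linarith
  simp_rw [e5] at e2
  rwa [tsum_mul_right] at e2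

/-- the renewal theorem. -/
theorem renewal (hf : ∀ d, 0 < f d) (hs : HasSum f 1) (h0 : u 0 = 1)
    (hu : ∀ k, u (k + 1) = ∑ d ∈ range (k + 1), f d * u (k - d))
    (hr : Summable fun i => 1 - ∑ d ∈ range i, f d) :
    ∃ γ : ℝ, 0 < γ ∧ Tendsto u atTop (𝓝 γ) := by
  have hb := bounds hf hs h0 hu
  have b1 : IsBoundedUnder (· ≤ ·) atTop u := isBoundedUnder_of ⟨1, fun k => (hb k).2⟩
  have b2 : IsBoundedUnder (· ≥ ·) atTop u := isBoundedUnder_of ⟨0, fun k => (hb k).1.le⟩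
  have c1 := isGreatest_mapClusterPt_limsup b2.isCoboundedUnder_le b1
  have c2 := isLeast_mapClusterPt_liminf b1.isCoboundedUnder_ge b2
  have e1 := cluster hf hs h0 hu hr c1.1 (Or.inl fun y hy => c1.2 hy)
  have e2 := cluster hf hs h0 hu hr c2.1 (Or.inr fun y hy => c2.2 hy)
  have hμ0 : 0 ≤ ∑' i, (1 - ∑ d ∈ range i, f d) := tsum_nonneg fun i =>
    sub_nonneg.2 (sum_le_hasSum _ (fun d _ => (hf d).le) hs)
  have hμ : 0 < ∑' i, (1 - ∑ d ∈ range i, f d) := by
    rcases hμ0.eq_or_lt with h | h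
    · rw [← h] at e1; simp at e1
    · exact h
  refine ⟨limsup u atTop, ?_, tendsto_of_liminf_eq_limsup ?_ rfl b1 b2⟩
  · by_contra hc
    have := mul_nonpos_of_nonneg_of_nonpos hμ0 (not_lt.1 hc)
    linarith
  · exact mul_left_cancel₀ hμ.ne' (e2.trans e1.symm)

theorem lower {γ : ℝ} (hγ : 0 < γ) (hp : ∀ k, 0 < u k) (h : Tendsto u atTop (𝓝 γ)) :
    ∃ c : ℝ, 0 < c ∧ ∀ k, c ≤ u k := by
  obtain ⟨N, hN⟩ := eventually_atTop.1 (h.eventually_const_le (half_lt_self hγ))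
  obtain ⟨j, -, hj⟩ := exists_min_image (range (N + 1)) u nonempty_range_add_one
  refine ⟨min (γ / 2) (u j), lt_min (half_pos hγ) (hp j), fun k => ?_⟩
  rcases le_or_gt N k with hk | hk
  · exact (min_le_left _ _).trans (hN k hk)
  · exact (min_le_right _ _).trans (hj k (mem_range.2 (by omega)))

theorem summ {ρ : ℝ} (h0 : 0 ≤ ρ) (h1 : ρ < 1) : Summable fun j : ℕ => ((j : ℝ) + 1) * ρ ^ j := by
  have hn : ‖ρ‖ < 1 := by rwa [Real.norm_eq_abs, abs_of_nonneg h0]
  have := (hasSum_coe_mul_geometric_of_norm_lt_one hn).summable.add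
    (summable_geometric_of_lt_one h0 h1)
  simpa only [add_mul, one_mul] using this

theorem term_le {ρ : ℝ} (h0 : 0 ≤ ρ) (h1 : ρ ≤ 1) (j : ℕ) :
    aCoef (j + 1) * ρ ^ (j + 1) ≤ ((j : ℝ) + 1) * ρ ^ j := by
  have h2 : aCoef (j + 1) ≤ (j : ℝ) + 1 := by exact_mod_cast aCoef_le (j + 1)
  exact mul_le_mul h2 (pow_le_pow_of_le_one h0 h1 (Nat.le_succ j)) (pow_nonneg h0 _)
    (by positivity)

theorem exists_root : ∃ ρ : ℝ, 0 < ρ ∧ ρ < 1 ∧
    HasSum (fun j : ℕ => aCoef (j + 1) * ρ ^ (j + 1)) 1 := by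
  have hb : ∀ (j : ℕ) (x : ℝ), x ∈ Set.Icc (0 : ℝ) 0.9 →
      ‖aCoef (j + 1) * x ^ (j + 1)‖ ≤ ((j : ℝ) + 1) * (0.9 : ℝ) ^ j := by
    intro j x hx
    rw [Real.norm_eq_abs, abs_of_nonneg (mul_nonneg (aCoef_pos (by omega)).le (pow_nonneg hx.1 _))]
    refine (term_le hx.1 (hx.2.trans (by norm_num)) j).trans ?_
    exact mul_le_mul_of_nonneg_left (pow_le_pow_left₀ hx.1 hx.2 j) (by positivity)
  have hs := summ (ρ := 0.9) (by norm_num) (by norm_num)
  have hc : ContinuousOn (fun x : ℝ => ∑' j : ℕ, aCoef (j + 1) * x ^ (j + 1)) (Set.Icc 0 0.9) :=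
    continuousOn_tsum (fun j => by fun_prop) hs hb
  have hsum : ∀ x ∈ Set.Icc (0 : ℝ) 0.9, Summable fun j : ℕ => aCoef (j + 1) * x ^ (j + 1) :=
    fun x hx => Summable.of_norm_bounded hs fun j => hb j x hx
  have h1 : (1 : ℝ) ≤ ∑' j : ℕ, aCoef (j + 1) * (0.9 : ℝ) ^ (j + 1) := by
    refine le_trans ?_ ((hsum 0.9 ⟨by norm_num, le_rfl⟩).sum_le_tsum (range 2) fun j _ =>
      mul_nonneg (aCoef_pos (by omega)).le (by positivity))
    rw [sum_range_succ, sum_range_one]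
    have := aCoef_one.1
    have := aCoef_two.1
    norm_num at *
    linarith
  obtain ⟨ρ, hρ, he⟩ := intermediate_value_Icc (by norm_num : (0 : ℝ) ≤ 0.9) hc
    (show (1 : ℝ) ∈ _ from ⟨by simp, h1⟩)
  refine ⟨ρ, ?_, hρ.2.trans_lt (by norm_num), ?_⟩
  · rcases hρ.1.eq_or_lt with h | h
    · subst h; simp at he
    · exact h
  · have := (hsum ρ hρ).hasSum
    rwa [show ∑' j : ℕ, aCoef (j + 1) * ρ ^ (j + 1) = 1 from he] at this

theorem tail_summable {ρ : ℝ} (h0 : 0 < ρ) (h1 : ρ < 1)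
    (hs : HasSum (fun j : ℕ => aCoef (j + 1) * ρ ^ (j + 1)) 1) :
    Summable fun i => 1 - ∑ d ∈ range i, aCoef (d + 1) * ρ ^ (d + 1) := by
  have hS := summ h0.le h1
  refine Summable.of_nonneg_of_le (fun i => sub_nonneg.2 (sum_le_hasSum _
    (fun d _ => mul_nonneg (aCoef_pos (by omega)).le (by positivity)) hs)) (fun i => ?_)
    (hS.mul_right (∑' j : ℕ, ((j : ℝ) + 1) * ρ ^ j))
  have h2 := (hasSum_nat_add_iff' i).2 hs
  refine hasSum_le (fun d => ?_) h2 (hS.hasSum.mul_left (((i : ℝ) + 1) * ρ ^ i))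
  refine (term_le h0.le h1.le (d + i)).trans ?_
  have h3 : ((d + i : ℕ) : ℝ) + 1 ≤ ((i : ℝ) + 1) * ((d : ℝ) + 1) := by
    push_cast
    nlinarith [mul_nonneg (Nat.cast_nonneg (α := ℝ) i) (Nat.cast_nonneg (α := ℝ) d)]
  calc (((d + i : ℕ) : ℝ) + 1) * ρ ^ (d + i) ≤ ((i : ℝ) + 1) * ((d : ℝ) + 1) * ρ ^ (d + i) :=
        mul_le_mul_of_nonneg_right h3 (by positivity)
    _ = _ := by rw [pow_add]; ring

end RenewAux

theorem renew : RenewStmt := by
  refine ⟨RenewAux.exists_root, fun p => ?_⟩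
  have hρ := p.ρ_pos
  have hf : ∀ d : ℕ, 0 < aCoef (d + 1) * p.ρ ^ (d + 1) := fun d =>
    mul_pos (aCoef_pos (by omega)) (by positivity)
  have h0 : gSeq 0 * p.ρ ^ 0 = 1 := by simp
  have hu : ∀ k, gSeq (k + 1) * p.ρ ^ (k + 1) = ∑ d ∈ range (k + 1),
      aCoef (d + 1) * p.ρ ^ (d + 1) * (gSeq (k - d) * p.ρ ^ (k - d)) := by
    intro k
    rw [gSeq_succ, sum_mul]
    refine sum_congr rfl fun d hd => ?_
    have : k + 1 = d + 1 + (k - d) := by have := mem_range.1 hd; omega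
    rw [this, pow_add _ (d + 1)]
    ring
  have hb := RenewAux.bounds (u := fun k => gSeq k * p.ρ ^ k) hf p.sum h0 hu
  obtain ⟨γ, hγ, ht⟩ := RenewAux.renewal (u := fun k => gSeq k * p.ρ ^ k) hf p.sum h0 hu
    (RenewAux.tail_summable p.ρ_pos p.ρ_lt p.sum)
  obtain ⟨c, hc, hck⟩ := RenewAux.lower hγ (fun k => (hb k).1) ht
  exact ⟨⟨c, hc, fun k => ⟨hck k, (hb k).2⟩⟩, γ, hγ, ht⟩

end Crest.Agent.R20
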