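import Crest.Agent.R20.Basic

/-! # Row 20: the sieve in terms of sizes, and smooth numbers -/

set_option autoImplicit false

noncomputable section

namespace Crest.Agent.R20

open Crest.NumberTheoryR.TotientScale Finset Filter Topology MeasureTheory
open scoped ENNReal ArithmeticFunction.Omega

namespace SieveAux

variable {CM : ℝ}

theorem log_pos' {n : ℕ} (hn : 2 ≤ n) : 0 < Real.log n :=
  Real.log_pos (by exact_mod_cast hn)

theorem log_ge (hM : ∀ n : ℕ, 2 ≤ n → |(ys n : ℝ) - Real.log (Real.log n)| ≤ CM) {n c : ℕ}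
    (hn : 2 ≤ n) (hc : c ≤ ys n) : Real.exp (c - CM) ≤ Real.log n := by
  have h1 := (abs_le.1 (hM n hn)).2
  have h2 : (c : ℝ) ≤ ys n := by exact_mod_cast hc
  rw [← Real.exp_log (log_pos' hn)]
  exact Real.exp_le_exp.2 (by linarith)

theorem loglog_le (h0 : 0 ≤ CM)
    (hM : ∀ n : ℕ, 2 ≤ n → |(ys n : ℝ) - Real.log (Real.log n)| ≤ CM) {n T : ℕ}
    (hn : 0 < n) (hc : ys n ≤ T) : Real.log (Real.log n) ≤ T + CM := by
  rcases Nat.lt_or_ge n 2 with h | h
  · obtain rfl : n = 1 := by omega
    simp only [Nat.cast_one, Real.log_one, Real.log_zero]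
    positivity
  · have h1 := (abs_le.1 (hM n h)).1
    have h2 : (ys n : ℝ) ≤ T := by exact_mod_cast hc
    linarith

/-- Brun's bound at the largest element -/
theorem core (h0 : 0 ≤ CM)
    (hM : ∀ n : ℕ, 2 ≤ n → |(ys n : ℝ) - Real.log (Real.log n)| ≤ CM) (hB : BrunStmt) :
    ∃ C : ℝ, 0 < C ∧ ∀ (T : ℕ) (A S : Finset ℕ) (X : ℕ), 1 ≤ T → A.card ≤ 2 →
      (∀ a ∈ A, 0 < a ∧ ys a ≤ T) → (∀ l ∈ S, l.Prime ∧ l ≤ X ∧ ∀ a ∈ A, (a * l + 1).Prime) →
      2 ≤ X → ys X ≤ T → (S.card : ℝ) ≤ C * (T : ℝ) ^ 6 * X / Real.log X ^ (A.card + 1) := by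
  obtain ⟨C, hC, hB⟩ := hB
  refine ⟨C * (1 + CM) ^ 6, by positivity, fun T A S X hT hA ha hS hX hXT => ?_⟩
  have hT' : (1 : ℝ) ≤ T := by exact_mod_cast hT
  have hle : (T : ℝ) + CM ≤ (1 + CM) * T := by nlinarith
  have h1 := hB ((1 + CM) * T) X A (by nlinarith) hX
    ((loglog_le h0 hM (by omega) hXT).trans hle) hA
    (fun a h => ⟨(ha a h).1, (loglog_le h0 hM (ha a h).1 (ha a h).2).trans hle⟩)
  have h2 : S ⊆ (range (X + 1)).filter fun l => l.Prime ∧ ∀ a ∈ A, (a * l + 1).Prime :=
    fun l hl => mem_filter.2 ⟨mem_range.2 (Nat.lt_succ_of_le (hS l hl).2.1), (hS l hl).1,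
      (hS l hl).2.2⟩
  have h3 : (S.card : ℝ) ≤
      (((range (X + 1)).filter fun l => l.Prime ∧ ∀ a ∈ A, (a * l + 1).Prime).card : ℝ) := by
    exact_mod_cast card_le_card h2
  refine (h3.trans h1).trans (le_of_eq ?_)
  rw [mul_pow]
  ring

theorem tele (a E : ℝ) (ha : 0 < a) (hE : 0 < E) (N : ℕ) :
    ∑ i ∈ range N, 1 / (((i : ℝ) + 1) * a + E) ^ 2 ≤ 1 / (a * E) - 1 / (a * (N * a + E)) := by
  induction N with
  | zero => simp
  | succ N ih =>
    rw [sum_range_succ]
    have h1 : 0 < (N : ℝ) * a + E := by positivity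
    have h2 : 1 / (((N : ℝ) + 1) * a + E) ^ 2 ≤
        1 / (a * (N * a + E)) - 1 / (a * ((N + 1) * a + E)) := by
      have e : 1 / (a * (N * a + E)) - 1 / (a * ((N + 1) * a + E)) =
          1 / ((N * a + E) * ((N + 1) * a + E)) := by
        field_simp
        ring
      rw [e]
      apply one_div_le_one_div_of_le (by positivity)
      nlinarith
    push_cast
    linarith

theorem exp_pow_ge (h0 : 0 ≤ CM) (c : ℝ) {k : ℕ} (hk : k ≤ 3) :
    1 / Real.exp (c - CM) ^ k ≤ Real.exp (3 * CM) * Real.exp (-(k * c)) := by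
  rw [← Real.exp_nat_mul, one_div, ← Real.exp_neg, ← Real.exp_add, Real.exp_le_exp]
  have : (k : ℝ) ≤ 3 := by exact_mod_cast hk
  nlinarith

theorem cheb (S : Finset ℕ) (X : ℕ) (hX : 2 ≤ X) (hS : ∀ l ∈ S, l.Prime ∧ l ≤ X) :
    (S.card : ℝ) ≤ 5 * X / Real.log X := by
  have hX' : (2 : ℝ) ≤ X := by exact_mod_cast hX
  have h1 := Chebyshev.pi_le_log4_mul_div (x := X) (by linarith)
  rw [Nat.floor_natCast, Real.log_sqrt (by linarith)] at h1
  have h2 : S.card ≤ Nat.primeCounting X := by
    rw [Nat.primeCounting, Nat.primeCounting', Nat.count_eq_card_filter_range]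
    exact card_le_card fun l hl =>
      mem_filter.2 ⟨mem_range.2 (Nat.lt_succ_of_le (hS l hl).2), (hS l hl).1⟩
  have h3 : (S.card : ℝ) ≤ Nat.primeCounting X := by exact_mod_cast h2
  have hl := log_pos' hX
  have h4 : Real.log 4 ≤ 3 / 2 := by
    rw [show (4 : ℝ) = 2 ^ 2 by norm_num, Real.log_pow]
    have := Real.log_two_lt_d9
    push_cast
    linarith
  have hs : 0 < Real.sqrt X := Real.sqrt_pos.2 (by linarith)
  have h5 : Real.log X ≤ 2 * Real.sqrt X := by
    have a1 := Real.log_le_sub_one_of_pos hs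
    rw [Real.log_sqrt (by linarith)] at a1
    linarith
  have h6 : Real.sqrt X ≤ 2 * X / Real.log X := by
    rw [le_div_iff₀ hl]
    have := Real.mul_self_sqrt (show (0 : ℝ) ≤ X by linarith)
    nlinarith
  have h7 : Real.log 4 * X / (Real.log X / 2) ≤ 3 * X / Real.log X := by
    rw [div_le_div_iff₀ (by linarith) hl]
    have : 0 < (X : ℝ) * Real.log X := by positivity
    nlinarith
  have e : 5 * (X : ℝ) / Real.log X = 3 * X / Real.log X + 2 * X / Real.log X := by ring
  linarith

theorem exp_third : Real.exp (1 / 3) ≤ 7 / 5 := by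
  by_contra h
  push Not at h
  have h1 : (7 / 5 : ℝ) ^ 3 ≤ Real.exp (1 / 3) ^ 3 := pow_le_pow_left₀ (by norm_num) h.le 3
  rw [← Real.exp_nat_mul] at h1
  norm_num at h1
  have := Real.exp_one_lt_d9
  linarith

theorem smooth1 (h0 : 0 ≤ CM)
    (hM : ∀ n : ℕ, 2 ≤ n → |(ys n : ℝ) - Real.log (Real.log n)| ≤ CM) (c : ℕ) (Z : ℝ)
    (hZ : 1 ≤ Z) : H {n | n ∈ Sm c ∧ Z ≤ n} ≤ ENNReal.ofReal
      (Real.exp (3 * c - Real.exp (-CM) / 3 * Real.log Z * Real.exp (-(c : ℝ)))) := by
  set δ : ℝ := Real.exp (-CM) / 3 * Real.exp (-(c : ℝ)) with hδ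
  have hδ0 : 0 < δ := by positivity
  have hF : ∀ l ∈ Pr c, Real.exp (δ * Real.log l) ≤ 7 / 5 := by
    intro l hl
    obtain ⟨hp, hc⟩ := mem_Pr.1 hl
    have h1 := loglog_le h0 hM hp.pos hc
    have h2 : Real.log l ≤ Real.exp (c + CM) := by
      rw [← Real.exp_log (log_pos' hp.two_le)]
      exact Real.exp_le_exp.2 h1
    have h3 : δ * Real.exp (c + CM) = 1 / 3 := by
      rw [hδ, Real.exp_add, Real.exp_neg, Real.exp_neg]
      field_simp
    refine le_trans (Real.exp_le_exp.2 ?_) exp_third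
    rw [← h3]
    exact mul_le_mul_of_nonneg_left h2 hδ0.le
  have h2 : ∀ l ∈ Pr c, (2 : ℝ) ≤ l := fun l hl => by
    exact_mod_cast (mem_Pr.1 hl).1.two_le
  have h := rankin (fun l => δ * Real.log l) c (fun l hl => by linarith [hF l hl, h2 l hl])
    (δ * Real.log Z)
  have hsub : {n : ℕ | n ∈ Sm c ∧ Z ≤ n} ⊆
      {n | n ∈ Sm c ∧ δ * Real.log Z ≤ Ad (fun l => δ * Real.log l) n} := by
    intro n hn
    refine ⟨hn.1, ?_⟩
    rw [Ad_const_mul, Ad_log hn.1.1]
    exact mul_le_mul_of_nonneg_left (Real.log_le_log (by linarith) hn.2) hδ0.le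
  refine le_trans (Mass_mono hsub) (h.trans (ENNReal.ofReal_le_ofReal ?_))
  · rw [Real.exp_le_exp]
    have h3 : ∑ l ∈ Pr c, Real.exp (δ * Real.log l) / (l - Real.exp (δ * Real.log l)) ≤
        ∑ l ∈ Pr c, 3 * (1 / ((l : ℝ) - 1)) := by
      refine sum_le_sum fun l hl => ?_
      have a1 := hF l hl
      have a2 := h2 l hl
      rw [mul_one_div, div_le_div_iff₀ (by linarith) (by linarith)]
      nlinarith
    rw [← mul_sum] at h3
    have h4 := sum_Pr_le c
    have e : Real.exp (-CM) / 3 * Real.log Z * Real.exp (-(c : ℝ)) = δ * Real.log Z := by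
      rw [hδ]; ring
    rw [e]
    linarith

end SieveAux

open SieveAux in
theorem sieve (hM : MertensStmt) (hB : BrunStmt) : SieveStmt := by
  obtain ⟨CM, h0, hM⟩ := hM
  obtain ⟨C, hC, hcore⟩ := core h0 hM hB
  have he3 : 0 < Real.exp (3 * CM) := Real.exp_pos _
  have he1 : 0 < Real.exp CM := Real.exp_pos _
  refine ⟨1 + 12 * (C * Real.exp (3 * CM)) + 5 * Real.exp CM, by
    have : 0 < C * Real.exp (3 * CM) := by positivity
    linarith, ?_, ?_⟩
  · intro T c A S hT hA ha hS
    have hT0 : (0 : ℝ) < (T : ℝ) ^ 6 := by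
      have : (0 : ℝ) < T := by exact_mod_cast hT
      positivity
    have hE : 0 < Real.exp ((c : ℝ) - CM) := Real.exp_pos _
    constructor
    · intro X hX hSX
      rcases S.eq_empty_or_nonempty with rfl | hne
      · simp only [card_empty, Nat.cast_zero]
        positivity
      have hm := S.max'_mem hne
      set m := S.max' hne
      obtain ⟨m1, m2, m3, -⟩ := hS m hm
      have h1 := hcore T A S m hT hA ha
        (fun l hl => ⟨(hS l hl).1, S.le_max' l hl, (hS l hl).2.2.2⟩) m1.two_le m3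
      have h2 := log_ge hM m1.two_le m2
      have h3 := exp_pow_ge h0 (c : ℝ) (k := A.card + 1) (by omega)
      have h4 : 1 / Real.log m ^ (A.card + 1) ≤ 1 / Real.exp (c - CM) ^ (A.card + 1) :=
        one_div_le_one_div_of_le (by positivity) (pow_le_pow_left₀ hE.le h2 _)
      have h5 := hSX m hm
      calc (S.card : ℝ) ≤ C * (T : ℝ) ^ 6 * m * (1 / Real.log m ^ (A.card + 1)) := by
            rw [mul_one_div]; exact h1
        _ ≤ C * (T : ℝ) ^ 6 * X *
            (Real.exp (3 * CM) * Real.exp (-((A.card + 1 : ℕ) * c : ℝ))) := by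
            have := log_pos' m1.two_le
            gcongr
            exact h4.trans h3
        _ = (C * Real.exp (3 * CM)) *
            ((T : ℝ) ^ 6 * X * Real.exp (-((A.card + 1 : ℕ) * c : ℝ))) := by ring
        _ ≤ (1 + 12 * (C * Real.exp (3 * CM)) + 5 * Real.exp CM) *
            ((T : ℝ) ^ 6 * X * Real.exp (-((A.card + 1 : ℕ) * c : ℝ))) := by
            refine mul_le_mul_of_nonneg_right ?_ (by positivity)
            have : 0 < C * Real.exp (3 * CM) := by positivity
            linarith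
        _ = _ := by ring
    · intro hAne
      obtain ⟨j, hj⟩ : ∃ j, A.card = j + 1 := ⟨A.card - 1, by have := hAne.card_pos; omega⟩
      set E := Real.exp ((c : ℝ) - CM) with hEdef
      have hl2 : 0 < Real.log 2 := Real.log_pos (by norm_num)
      have hmap : ∀ l ∈ S, Nat.log 2 l - 1 ∈ range (S.sup id + 1) := fun l hl =>
        mem_range.2 (Nat.lt_succ_of_le (((Nat.sub_le _ _).trans (Nat.log_le_self 2 l)).trans
          (le_sup (f := id) hl)))
      rw [← sum_fiberwise_of_maps_to hmap]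
      have hblock : ∀ i ∈ range (S.sup id + 1),
          ∑ l ∈ S.filter (fun l => Nat.log 2 l - 1 = i), (1 : ℝ) / l ≤
            8 * C * (T : ℝ) ^ 6 / E ^ j * (1 / (((i : ℝ) + 1) * Real.log 2 + E) ^ 2) := by
        intro i _
        set S' := S.filter (fun l => Nat.log 2 l - 1 = i) with hS'
        rcases S'.eq_empty_or_nonempty with hem | hne
        · rw [hem, sum_empty]
          positivity
        have hlog : ∀ l ∈ S', 2 ^ (i + 1) ≤ l ∧ l < 2 ^ (i + 1 + 1) := by
          intro l hl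
          obtain ⟨l1, l2⟩ := mem_filter.1 hl
          have hp := (hS l l1).1
          have a1 : 1 ≤ Nat.log 2 l := Nat.le_log_of_pow_le (by norm_num) (by simpa using hp.two_le)
          have a2 : Nat.log 2 l = i + 1 := by omega
          rw [← a2]
          exact ⟨Nat.pow_log_le_self 2 hp.ne_zero, Nat.lt_pow_succ_log_self (by norm_num) l⟩
        have hm := S'.max'_mem hne
        set m := S'.max' hne
        obtain ⟨m1, m2, m3, -⟩ := hS m (mem_filter.1 hm).1
        have h1 := hcore T A S' m hT hA ha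
          (fun l hl => ⟨(hS l (mem_filter.1 hl).1).1, S'.le_max' l hl,
            (hS l (mem_filter.1 hl).1).2.2.2⟩) m1.two_le m3
        have h2 : E ≤ Real.log m := log_ge hM m1.two_le m2
        have h3 : ((i : ℝ) + 1) * Real.log 2 ≤ Real.log m := by
          have b1 : ((2 : ℝ) ^ (i + 1)) ≤ m := by exact_mod_cast (hlog m hm).1
          have b2 := Real.log_le_log (by positivity) b1
          rw [Real.log_pow] at b2
          push_cast at b2
          exact b2
        have h4 : (m : ℝ) ≤ 2 * 2 ^ (i + 1) := by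
          have b1 : (m : ℝ) ≤ (2 : ℝ) ^ (i + 1 + 1) := by exact_mod_cast (hlog m hm).2.le
          rw [pow_succ] at b1
          linarith
        have h5 : ∑ l ∈ S', (1 : ℝ) / l ≤ S'.card * (1 / 2 ^ (i + 1)) := by
          rw [← nsmul_eq_mul]
          refine sum_le_card_nsmul _ _ _ fun l hl => ?_
          apply one_div_le_one_div_of_le (by positivity)
          exact_mod_cast (hlog l hl).1
        have hlm := log_pos' m1.two_le
        have h6 : E ^ j * ((((i : ℝ) + 1) * Real.log 2 + E) ^ 2 / 4) ≤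
            Real.log m ^ (A.card + 1) := by
          rw [hj, show j + 1 + 1 = j + 2 by ring, pow_add]
          refine mul_le_mul (pow_le_pow_left₀ hE.le h2 _) ?_ (by positivity) (by positivity)
          have b1 : (((i : ℝ) + 1) * Real.log 2 + E) ^ 2 ≤ (2 * Real.log m) ^ 2 :=
            pow_le_pow_left₀ (by positivity) (by linarith) 2
          linarith [show (2 * Real.log m) ^ 2 = 4 * Real.log m ^ 2 by ring]
        calc ∑ l ∈ S', (1 : ℝ) / l ≤ S'.card * (1 / 2 ^ (i + 1)) := h5
          _ ≤ C * (T : ℝ) ^ 6 * (2 * 2 ^ (i + 1)) /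
              (E ^ j * ((((i : ℝ) + 1) * Real.log 2 + E) ^ 2 / 4)) * (1 / 2 ^ (i + 1)) := by
              refine mul_le_mul_of_nonneg_right (h1.trans ?_) (by positivity)
              gcongr
          _ = _ := by
              field_simp
              ring
      refine (sum_le_sum hblock).trans ?_
      rw [← mul_sum]
      have h7 := tele (Real.log 2) E hl2 hE (S.sup id + 1)
      have h8 : ∑ i ∈ range (S.sup id + 1), 1 / (((i : ℝ) + 1) * Real.log 2 + E) ^ 2 ≤
          3 / 2 * (1 / E) := by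
        have b1 : 0 ≤ 1 / (Real.log 2 * (((S.sup id + 1 : ℕ) : ℝ) * Real.log 2 + E)) := by
          positivity
        have b2 : 1 / (Real.log 2 * E) ≤ 3 / 2 * (1 / E) := by
          rw [mul_one_div, div_le_div_iff₀ (by positivity) hE]
          have := Real.log_two_gt_d9
          nlinarith
        linarith
      have h9 := exp_pow_ge h0 (c : ℝ) (k := A.card) (by omega)
      calc 8 * C * (T : ℝ) ^ 6 / E ^ j *
            ∑ i ∈ range (S.sup id + 1), 1 / (((i : ℝ) + 1) * Real.log 2 + E) ^ 2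
          ≤ 8 * C * (T : ℝ) ^ 6 / E ^ j * (3 / 2 * (1 / E)) :=
            mul_le_mul_of_nonneg_left h8 (by positivity)
        _ = 12 * C * (T : ℝ) ^ 6 * (1 / E ^ A.card) := by
            rw [hj, pow_succ]
            field_simp
            ring
        _ ≤ 12 * C * (T : ℝ) ^ 6 * (Real.exp (3 * CM) * Real.exp (-(A.card * c : ℝ))) :=
            mul_le_mul_of_nonneg_left h9 (by positivity)
        _ = 12 * (C * Real.exp (3 * CM)) * ((T : ℝ) ^ 6 * Real.exp (-(A.card * c : ℝ))) := by
            ring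
        _ ≤ (1 + 12 * (C * Real.exp (3 * CM)) + 5 * Real.exp CM) *
            ((T : ℝ) ^ 6 * Real.exp (-(A.card * c : ℝ))) := by
            refine mul_le_mul_of_nonneg_right ?_ (by positivity)
            linarith
        _ = _ := by ring
  · intro c S X hX hS
    rcases S.eq_empty_or_nonempty with rfl | hne
    · simp only [card_empty, Nat.cast_zero]
      positivity
    have hm := S.max'_mem hne
    set m := S.max' hne
    obtain ⟨m1, m2, m3⟩ := hS m hm
    have h1 := cheb S m m1.two_le (fun l hl => ⟨(hS l hl).1, S.le_max' l hl⟩)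
    have h2 := log_ge hM m1.two_le m2
    calc (S.card : ℝ) ≤ 5 * m / Real.log m := h1
      _ ≤ 5 * X / Real.exp (c - CM) := by gcongr
      _ = 5 * Real.exp CM * (X * Real.exp (-(c : ℝ))) := by
          rw [Real.exp_sub, Real.exp_neg]
          field_simp
      _ ≤ (1 + 12 * (C * Real.exp (3 * CM)) + 5 * Real.exp CM) * (X * Real.exp (-(c : ℝ))) := by
          refine mul_le_mul_of_nonneg_right ?_ (by positivity)
          have : 0 < C * Real.exp (3 * CM) := by positivity
          linarith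
      _ = _ := by ring

open SieveAux in
theorem smooth (hM : MertensStmt) : SmoothStmt := by
  obtain ⟨CM, h0, hM⟩ := hM
  have he : Real.exp (-CM) ≤ 1 := Real.exp_le_one_iff.2 (by linarith)
  have he0 : 0 < Real.exp (-CM) := Real.exp_pos _
  refine ⟨Real.exp (-CM) / 3 * (Real.exp (-CM) / 2), by positivity, fun c Z hZ => ?_,
    fun X d S hS => ?_⟩
  · refine (smooth1 h0 hM c Z hZ).trans (ENNReal.ofReal_le_ofReal (Real.exp_le_exp.2 ?_))
    have h1 : 0 ≤ Real.log Z := Real.log_nonneg hZ
    have h2 : 0 ≤ Real.exp (-CM) / 3 * Real.log Z * Real.exp (-(c : ℝ)) := by positivity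
    nlinarith
  · rw [← card_filter_add_card_filter_not (s := S) (fun n : ℕ => (n : ℝ) ≤ Real.sqrt X)]
    push_cast
    refine add_le_add ?_ ?_
    · have h1 : S.filter (fun n : ℕ => (n : ℝ) ≤ Real.sqrt X) ⊆ Icc 1 ⌊Real.sqrt X⌋₊ :=
        fun n hn => mem_Icc.2 ⟨(hS n (mem_filter.1 hn).1).1, Nat.le_floor (mem_filter.1 hn).2⟩
      have h2 := card_le_card h1
      rw [Nat.card_Icc, Nat.add_sub_cancel] at h2
      exact (Nat.cast_le.2 h2).trans (Nat.floor_le (Real.sqrt_nonneg _))
    · set S' := S.filter (fun n : ℕ => ¬ (n : ℝ) ≤ Real.sqrt X) with hS'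
      rcases S'.eq_empty_or_nonempty with hem | ⟨n, hn⟩
      · rw [hem, card_empty, Nat.cast_zero]
        positivity
      obtain ⟨n1, n2⟩ := mem_filter.1 hn
      obtain ⟨a1, a2, a3⟩ := hS n n1
      have hX : 2 ≤ X := by
        by_contra hc
        have b1 : X = 1 := by omega
        have b2 : n = 1 := by omega
        rw [b1, b2] at n2
        simp at n2
      have hX' : (2 : ℝ) ≤ X := by exact_mod_cast hX
      obtain ⟨c, hc⟩ : ∃ c, ys X = c + d := ⟨ys X - d, by omega⟩
      have hs1 : 1 ≤ Real.sqrt X := Real.one_le_sqrt.2 (by linarith)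
      have h1 := sum_le_of_Mass_le (Real.exp_pos _).le (smooth1 h0 hM c _ hs1) S'
        (fun k hk => ⟨⟨(hS k (mem_filter.1 hk).1).1, by
          have := (hS k (mem_filter.1 hk).1).2.2
          omega⟩, (not_le.1 (mem_filter.1 hk).2).le⟩)
      have h2 : (S'.card : ℝ) * (1 / X) ≤ ∑ k ∈ S', 1 / ((id k : ℕ) : ℝ) := by
        rw [← nsmul_eq_mul]
        refine card_nsmul_le_sum _ _ _ fun k hk => ?_
        obtain ⟨k1, k2, -⟩ := hS k (mem_filter.1 hk).1
        exact one_div_le_one_div_of_le (by exact_mod_cast k1) (by exact_mod_cast k2)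
      have h3 := h2.trans h1
      rw [mul_one_div, div_le_iff₀ (by linarith), mul_comm] at h3
      refine h3.trans (mul_le_mul_of_nonneg_left (Real.exp_le_exp.2 ?_) (by linarith))
      have h4 := log_ge hM hX (le_refl (ys X))
      rw [Real.log_sqrt (by linarith)]
      have h5 : Real.exp (-CM) * Real.exp d ≤ Real.log X * Real.exp (-(c : ℝ)) := by
        have e : Real.exp (-CM) * Real.exp d = Real.exp (ys X - CM) * Real.exp (-(c : ℝ)) := by
          rw [← Real.exp_add, ← Real.exp_add, hc]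
          push_cast
          ring_nf
        rw [e]
        exact mul_le_mul_of_nonneg_right h4 (Real.exp_pos _).le
      have h6 : (c : ℝ) ≤ ys X := by exact_mod_cast (by omega : c ≤ ys X)
      have h7 := mul_le_mul_of_nonneg_left h5 he0.le
      nlinarith

end Crest.Agent.R20
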