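import Crest.Agent.R20.Basic

/-!
# Row 20: volume of the simplex and the coupling of primes with Lebesgue measure
-/

set_option autoImplicit false

noncomputable section

namespace Crest.Agent.R20

open Crest.NumberTheoryR.TotientScale Finset Filter Topology MeasureTheory
open scoped ENNReal ArithmeticFunction.Omega

namespace SimplexAux

/-- the unitriangular matrix. -/
def mat {L : ℕ} (A : Fin L → Fin L → ℝ) : Matrix (Fin L) (Fin L) ℝ :=
  Matrix.of fun k i => if k = i then 1 else if k < i then -A k i else 0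

theorem mat_det {L : ℕ} (A : Fin L → Fin L → ℝ) : (mat A).det = 1 := by
  rw [Matrix.det_of_isUpperTriangular]
  · simp [mat]
  · intro i j hij
    have h1 : i ≠ j := ne_of_gt hij
    have h2 : ¬ i < j := not_lt.2 (le_of_lt hij)
    simp [mat, h1, h2]

theorem mat_apply {L : ℕ} (A : Fin L → Fin L → ℝ) (s : Fin L → ℝ) :
    Matrix.toLin' (mat A) s = fun k => s k - ∑ i ∈ Ioi k, A k i * s i := by
  funext k
  rw [Matrix.toLin'_apply, Matrix.mulVec, dotProduct]
  have h : ∀ i, mat A k i * s i =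
      (if k = i then s i else 0) - (if i ∈ Ioi k then A k i * s i else 0) := by
    intro i
    simp only [mat, Matrix.of_apply, mem_Ioi]
    by_cases h1 : k = i
    · subst h1; simp
    · by_cases h2 : k < i <;> simp [h1, h2]
  simp only [h, sum_sub_distrib, sum_ite_eq, mem_univ, if_true]
  rw [sum_ite_mem, univ_inter]

theorem vol_preimage {L : ℕ} (A : Fin L → Fin L → ℝ) (R : Set (Fin L → ℝ)) :
    volume {s : Fin L → ℝ | (fun k => s k - ∑ i ∈ Ioi k, A k i * s i) ∈ R} = volume R := by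
  have hd : LinearMap.det (Matrix.toLin' (mat A)) = 1 := by
    rw [LinearMap.det_toLin', mat_det]
  have h := Measure.addHaar_preimage_linearMap (volume : Measure (Fin L → ℝ))
    (f := Matrix.toLin' (mat A)) (by rw [hd]; exact one_ne_zero) R
  rw [hd] at h
  simp only [inv_one, abs_one, ENNReal.ofReal_one, one_mul] at h
  rw [← h]
  congr 1
  ext s
  simp only [Set.mem_ofPred_eq, Set.mem_preimage, mat_apply]

theorem integral_pow_lin (L : ℕ) {g B : ℝ} (hg : 0 < g) :
    ∫ t in (0 : ℝ)..(B / g), (B - g * t) ^ L = B ^ (L + 1) / ((L + 1) * g) := by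
  have hd : ∀ t ∈ Set.uIcc (0 : ℝ) (B / g),
      HasDerivAt (fun t => -((B - g * t) ^ (L + 1) / ((L + 1) * g))) ((B - g * t) ^ L) t := by
    intro t _
    have h1 : HasDerivAt (fun t => B - g * t) (-g) t := by
      simpa using ((hasDerivAt_id t).const_mul g).const_sub B
    have h2 := ((h1.pow (L + 1)).div_const ((L + 1) * g)).neg
    refine h2.congr_deriv ?_
    have : (L : ℝ) + 1 ≠ 0 := by positivity
    simp only [Nat.add_sub_cancel, Nat.cast_add, Nat.cast_one]
    field_simp
  rw [intervalIntegral.integral_eq_sub_of_hasDerivAt hd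
    (Continuous.intervalIntegrable (by fun_prop) _ _)]
  have : B - g * (B / g) = 0 := by field_simp; ring
  rw [this]
  simp

theorem lint (L : ℕ) {g B Q : ℝ} (hg : 0 < g) (hQ : 0 < Q) :
    ∫⁻ t : ℝ, (if 0 ≤ t then ENNReal.ofReal (sv L (B - g * t) / Q) else 0) =
      ENNReal.ofReal (sv (L + 1) B / (g * Q)) := by
  by_cases hB : 0 ≤ B
  · have h1 : (fun t : ℝ => if 0 ≤ t then ENNReal.ofReal (sv L (B - g * t) / Q) else 0) =
        (Set.Icc 0 (B / g)).indicator
          fun t => ENNReal.ofReal ((B - g * t) ^ L / (L.factorial * Q)) := by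
      funext t
      by_cases h0 : 0 ≤ t
      · by_cases h2 : t ≤ B / g
        · have h3 : 0 ≤ B - g * t := by
            rw [le_div_iff₀ hg] at h2; linarith
          rw [if_pos h0, Set.indicator_of_mem (Set.mem_Icc.2 ⟨h0, h2⟩), sv, if_pos h3, div_div]
        · have h3 : ¬ 0 ≤ B - g * t := by
            rw [le_div_iff₀ hg] at h2; intro h; apply h2; linarith
          rw [if_pos h0, Set.indicator_of_notMem (fun h => h2 h.2), sv, if_neg h3]
          simp
      · rw [if_neg h0, Set.indicator_of_notMem (fun h => h0 h.1)]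
    rw [h1, lintegral_indicator measurableSet_Icc, ← ofReal_integral_eq_lintegral_ofReal]
    · congr 1
      rw [integral_Icc_eq_integral_Ioc, ← intervalIntegral.integral_of_le (div_nonneg hB hg.le),
        intervalIntegral.integral_div, integral_pow_lin L hg, sv, if_pos hB, Nat.factorial_succ]
      have : (L.factorial : ℝ) ≠ 0 := by positivity
      have : (L : ℝ) + 1 ≠ 0 := by positivity
      push_cast
      field_simp
    · exact Continuous.integrableOn_Icc (by fun_prop)
    · refine (ae_restrict_iff' measurableSet_Icc).2 (Eventually.of_forall fun t ht => ?_)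
      have h2 := ht.2
      have h3 : 0 ≤ B - g * t := by
        rw [le_div_iff₀ hg] at h2; linarith
      simp only [Pi.zero_apply]
      positivity
  · have h1 : (fun t : ℝ => if 0 ≤ t then ENNReal.ofReal (sv L (B - g * t) / Q) else 0) =
        fun _ => 0 := by
      funext t
      by_cases h0 : 0 ≤ t
      · have h3 : ¬ 0 ≤ B - g * t := by
          intro h; apply hB; nlinarith [mul_nonneg hg.le h0]
        rw [if_pos h0, sv, if_neg h3]; simp
      · rw [if_neg h0]
    rw [h1, sv, if_neg hB]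
    simp

theorem vol_simplex (L : ℕ) : ∀ (g : Fin L → ℝ) (B : ℝ), (∀ i, 0 < g i) →
    volume {v : Fin L → ℝ | (∀ k, 0 ≤ v k) ∧ ∑ k, g k * v k ≤ B} =
      ENNReal.ofReal (sv L B / ∏ i, g i) := by
  induction L with
  | zero =>
    intro g B _
    by_cases hB : 0 ≤ B
    · have : {v : Fin 0 → ℝ | (∀ k, 0 ≤ v k) ∧ ∑ k, g k * v k ≤ B} = Set.univ := by
        ext v; simp [hB]
      rw [this, sv, if_pos hB]
      simp [volume_pi]
    · have : {v : Fin 0 → ℝ | (∀ k, 0 ≤ v k) ∧ ∑ k, g k * v k ≤ B} = ∅ := by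
        ext v; simp [hB]
      rw [this, sv, if_neg hB]
      simp
  | succ L ih =>
    intro g B hg
    set T : Set (ℝ × (Fin L → ℝ)) :=
      {p | 0 ≤ p.1 ∧ (∀ k, 0 ≤ p.2 k) ∧ ∑ k, g k.succ * p.2 k ≤ B - g 0 * p.1} with hT
    have hTm : MeasurableSet T := by
      have h1 : MeasurableSet {p : ℝ × (Fin L → ℝ) | 0 ≤ p.1} :=
        measurableSet_le measurable_const measurable_fst
      have h2 : MeasurableSet (⋂ k : Fin L, {p : ℝ × (Fin L → ℝ) | 0 ≤ p.2 k}) :=
        MeasurableSet.iInter fun k => measurableSet_le measurable_const (by fun_prop)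
      have h3 : MeasurableSet
          {p : ℝ × (Fin L → ℝ) | ∑ k, g k.succ * p.2 k ≤ B - g 0 * p.1} :=
        measurableSet_le (by fun_prop) (by fun_prop)
      convert h1.inter (h2.inter h3) using 1
      ext p; simp [hT, Set.mem_iInter]
    have hpre : {v : Fin (L + 1) → ℝ | (∀ k, 0 ≤ v k) ∧ ∑ k, g k * v k ≤ B} =
        (MeasurableEquiv.piFinSuccAbove (fun _ : Fin (L + 1) => ℝ) 0) ⁻¹' T := by
      ext v
      simp only [Set.mem_ofPred_eq, Set.mem_preimage, hT, MeasurableEquiv.piFinSuccAbove_apply,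
        Fin.insertNthEquiv_zero, Fin.consEquiv_symm_apply, Fin.tail, Fin.forall_fin_succ,
        Fin.sum_univ_succ]
      constructor
      · rintro ⟨⟨h1, h2⟩, h3⟩; exact ⟨h1, h2, by linarith⟩
      · rintro ⟨h1, h2, h3⟩; exact ⟨⟨h1, h2⟩, by linarith⟩
    rw [hpre, (volume_preserving_piFinSuccAbove (fun _ : Fin (L + 1) => ℝ) 0).measure_preimage_equiv,
      Measure.volume_eq_prod, Measure.prod_apply hTm]
    have hQ : 0 < ∏ i : Fin L, g i.succ := prod_pos fun i _ => hg _
    rw [Fin.prod_univ_succ, ← lint L (hg 0) hQ]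
    congr 1
    funext t
    by_cases h0 : 0 ≤ t
    · rw [if_pos h0, ← ih (fun i => g i.succ) (B - g 0 * t) fun i => hg _]
      congr 1
      ext v; simp [hT, h0]
    · rw [if_neg h0]
      have : Prod.mk t ⁻¹' T = ∅ := by
        ext v; simp [hT, h0]
      rw [this, measure_empty]

theorem sum_swap {L : ℕ} (A : Fin L → Fin L → ℝ) (b g s : Fin L → ℝ)
    (h : ∀ i, g i = b i + ∑ k ∈ Iio i, g k * A k i) :
    ∑ k, g k * (s k - ∑ i ∈ Ioi k, A k i * s i) = ∑ i, b i * s i := by
  have h1 : ∑ k, g k * ∑ i ∈ Ioi k, A k i * s i = ∑ i, (∑ k ∈ Iio i, g k * A k i) * s i := by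
    simp only [mul_sum, sum_mul]
    rw [sum_comm' (t' := univ) (s' := fun i => Iio i)]
    · exact sum_congr rfl fun i _ => sum_congr rfl fun k _ => by ring
    · intro k i; simp
  simp only [mul_sub, sum_sub_distrib, h1]
  rw [← sum_sub_distrib]
  refine sum_congr rfl fun i _ => ?_
  have := h i
  rw [← sub_mul]
  congr 1
  linarith

/-! ## the coupling -/

theorem ms_succ (n : ℕ) :
    ms (n + 1) = ms n + if (n + 1).Prime then 1 / (n : ℝ) else 0 := by
  unfold ms
  rw [sum_filter, sum_filter, sum_range_succ (n := n + 1)]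
  congr 1
  split_ifs
  · push_cast; ring
  · rfl

theorem ms_mono : Monotone ms := monotone_nat_of_le_succ fun n => by
  rw [ms_succ]
  split_ifs
  · exact le_add_of_nonneg_right (by positivity)
  · simp

theorem ms_zero : ms 0 = 0 := by
  simp [ms, Nat.not_prime_zero, filter_singleton]

theorem ms_nonneg (n : ℕ) : 0 ≤ ms n := ms_zero ▸ ms_mono (Nat.zero_le n)

theorem exists_le_ms (s : ℝ) : ∃ n, s ≤ ms n := by
  obtain ⟨l, hl, hl'⟩ := (Nat.infinite_setOfPred_prime.sdiff (finite_ys ⌈s⌉₊)).nonempty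
  refine ⟨l, (Nat.le_ceil s).trans (le_of_lt ?_)⟩
  have : ⌈s⌉₊ < ys l := not_le.1 fun h => hl' ⟨hl, h⟩
  exact Nat.lt_ceil.1 this

/-- the interval of a prime. -/
def J (q : ℕ) : Set ℝ := Set.Ioc (ms (q - 1)) (ms q)

theorem ms_prime {q : ℕ} (hq : q.Prime) : ms q = ms (q - 1) + 1 / ((q - 1 : ℕ) : ℝ) := by
  obtain ⟨n, rfl⟩ : ∃ n, q = n + 1 := ⟨q - 1, by have := hq.pos; omega⟩
  rw [ms_succ, if_pos hq, Nat.add_sub_cancel]

theorem vol_J {q : ℕ} (hq : q.Prime) : volume (J q) = (((q - 1 : ℕ) : ℝ≥0∞))⁻¹ := by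
  have h : 0 < q - 1 := by have := hq.two_le; omega
  have h' : (0 : ℝ) < ((q - 1 : ℕ) : ℝ) := by exact_mod_cast h
  rw [J, Real.volume_Ioc, ms_prime hq, add_sub_cancel_left, one_div, ENNReal.ofReal_inv_of_pos h',
    ENNReal.ofReal_natCast]

theorem J_disjoint {q q' : ℕ} (h : q ≠ q') : Disjoint (J q) (J q') := by
  wlog hlt : q < q' generalizing q q'
  · exact (this h.symm (lt_of_le_of_ne (not_lt.1 hlt) h.symm)).symm
  rw [Set.disjoint_left]
  intro s h1 h2
  have := ms_mono (show q ≤ q' - 1 by omega)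
  linarith [h1.2, h2.1]

theorem mem_J {q : ℕ} (hq : q.Prime) {s : ℝ} (hs : s ∈ J q) :
    s ≤ ys q ∧ (ys q : ℝ) < s + 2 := by
  refine ⟨hs.2.trans (Nat.le_ceil _), ?_⟩
  have h1 : (ys q : ℝ) < ms q + 1 := Nat.ceil_lt_add_one (ms_nonneg q)
  have h : 1 ≤ q - 1 := by have := hq.two_le; omega
  have h' : (1 : ℝ) ≤ ((q - 1 : ℕ) : ℝ) := by exact_mod_cast h
  have h2 : 1 / ((q - 1 : ℕ) : ℝ) ≤ 1 := (div_le_one (by linarith)).2 h'
  have h3 := ms_prime hq
  linarith [hs.1]

theorem exists_J {s : ℝ} (hs : 0 < s) : ∃ q, q.Prime ∧ s ∈ J q := by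
  classical
  have hex := exists_le_ms s
  have h1 := Nat.find_spec hex
  have h2 : Nat.find hex ≠ 0 := by
    intro h; rw [h, ms_zero] at h1; linarith
  obtain ⟨n, hn⟩ := Nat.exists_eq_succ_of_ne_zero h2
  have h3 : ms n < s := not_le.1 (Nat.find_min hex (by omega))
  rw [hn] at h1
  refine ⟨n + 1, ?_, by simpa using h3, h1⟩
  by_contra hp
  rw [Nat.succ_eq_add_one, ms_succ, if_neg hp] at h1
  linarith

/-- the box of a tuple. -/
def box {L : ℕ} (q : Fin L → ℕ) : Set (Fin L → ℝ) := Set.pi Set.univ fun i => J (q i)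

theorem vol_box {L : ℕ} {q : Fin L → ℕ} (hq : ∀ i, (q i).Prime) :
    volume (box q) = ((pv q : ℕ) : ℝ≥0∞)⁻¹ := by
  rw [box, volume_pi_pi, pv, Nat.cast_prod, ENNReal.prod_inv_distrib]
  · exact prod_congr rfl fun i _ => vol_J (hq i)
  · intro i _ j _ _
    exact Or.inr (ENNReal.natCast_ne_top _)

theorem box_meas {L : ℕ} (q : Fin L → ℕ) : MeasurableSet (box q) :=
  MeasurableSet.univ_pi fun _ => measurableSet_Ioc

theorem box_disjoint {L : ℕ} {q q' : Fin L → ℕ} (h : q ≠ q') : Disjoint (box q) (box q') := by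
  obtain ⟨i, hi⟩ := Function.ne_iff.1 h
  rw [Set.disjoint_left]
  intro s h1 h2
  exact Set.disjoint_left.1 (J_disjoint hi) (h1 i (Set.mem_univ i)) (h2 i (Set.mem_univ i))

end SimplexAux

open SimplexAux

theorem simplex : SimplexStmt := by
  intro L A
  refine ⟨vol_preimage A, fun b c g B hg h => ?_⟩
  rw [← vol_simplex L g _ hg,
    ← measure_preimage_add volume (-c) {v : Fin L → ℝ | (∀ k, 0 ≤ v k) ∧
      ∑ k, g k * v k ≤ B - ∑ k, g k * c k}, ← vol_preimage A (Set.preimage _ _)]
  congr 1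
  ext s
  simp only [Set.mem_ofPred_eq, Set.mem_preimage, Pi.add_apply, Pi.neg_apply]
  have h1 : ∑ k, g k * (-c k + (s k - ∑ i ∈ Ioi k, A k i * s i)) =
      ∑ i, b i * s i - ∑ k, g k * c k := by
    rw [← sum_swap A b g s h, ← sum_sub_distrib]
    exact sum_congr rfl fun k _ => by ring
  rw [h1]
  constructor
  · rintro ⟨h2, h3⟩
    exact ⟨fun k => by linarith [h2 k], by linarith⟩
  · rintro ⟨h2, h3⟩
    exact ⟨fun k => by linarith [h2 k], by linarith⟩

theorem couple : CoupleStmt := by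
  intro L S R
  constructor
  · intro hp hR
    have h1 : Mass pv S = ∑' a : S, volume (box a.1) :=
      tsum_congr fun a => (vol_box (hp a.1 a.2)).symm
    rw [h1, ← measure_iUnion (fun a b hab => box_disjoint fun h => hab (Subtype.ext h))
      fun a => box_meas _]
    refine measure_mono (Set.iUnion_subset fun a s hs => hR a.1 a.2 s fun i => ?_)
    exact mem_J (hp a.1 a.2 i) (hs i (Set.mem_univ i))
  · intro hpos hS
    classical
    have h1 : R ⊆ ⋃ a : S, if ∀ i, (a.1 i).Prime then box a.1 else ∅ := by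
      intro s hs
      choose q hq hqs using fun i => exists_J (hpos s hs i)
      have hqS : q ∈ S := hS s hs q fun i => ⟨hq i, mem_J (hq i) (hqs i)⟩
      refine Set.mem_iUnion.2 ⟨⟨q, hqS⟩, ?_⟩
      rw [if_pos hq]
      exact fun i _ => hqs i
    refine (measure_mono h1).trans ((measure_iUnion_le _).trans (ENNReal.tsum_le_tsum fun a => ?_))
    split_ifs with h
    · exact (vol_box h).le
    · simp

end Crest.Agent.R20
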