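import Crest.Agent.R20.TopAux

/-!
# Row 20: mass of the top levels
-/

set_option autoImplicit false

noncomputable section

namespace Crest.Agent.R20

open Crest.NumberTheoryR.TotientScale Finset Filter Topology MeasureTheory
open scoped ENNReal ArithmeticFunction.Omega

namespace TopAux

theorem sum_Ioo_split {k L m : ℕ} (hk : k < L) (hL : L < m) {f : ℕ → ℝ} (hf : ∀ i, L < i → 0 ≤ f i) :
    ∑ i ∈ Ioo k L, f i + f L ≤ ∑ i ∈ Ioo k m, f i := by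
  rw [add_comm, ← Finset.sum_insert (by simp)]
  refine Finset.sum_le_sum_of_subset_of_nonneg ?_ ?_
  · intro i hi
    simp only [Finset.mem_insert, Finset.mem_Ioo] at hi ⊢
    omega
  · intro i hi hi'
    simp only [Finset.mem_insert, Finset.mem_Ioo] at hi hi'
    exact hf i (by omega)

/-- the coupling step -/
theorem mass_le (hS : SimplexStmt) (hC : CoupleStmt) {m L : ℕ} (hL : L < m) (k t : ℕ) (B : ℝ)
    (tp : ℕ → ℝ) (htp : ∀ j, 0 ≤ tp j) :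
    Mass pv {q : Fin L → ℕ | (∀ i, (q i).Prime) ∧ ∃ Y : ℕ → ℝ, (∀ i, 0 ≤ Y i) ∧
        (∀ i : Fin L, Y i = ys (q i)) ∧ Y L = t ∧ Con m L B tp Y ∧ (k < L → Fl m k Y)} ≤
      ENNReal.ofReal (sv L (B + tp m - aCoef (L + 1) * t - ∑ k' ∈ range L,
        gt k (1 / 2) k' * (aCoef (L - k') * t - 2 - tp (m - 1 - k'))) /
          ∏ i ∈ range L, gt k (1 / 2) i) := by
  have hv := (hS L (fun k' i => At k (1 / 2) k' i)).2 (fun i => aCoef (i + 1))
    (fun k' => aCoef (L - k') * t - 2 - tp (m - 1 - k')) (fun i => gt k (1 / 2) i)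
    (B + tp m - aCoef (L + 1) * t) (fun i => gt_pos k (by norm_num) i) (fun i => gt_rec_fin k _ i)
  rw [Fin.sum_univ_eq_sum_range (fun k' => gt k (1 / 2) k' *
    (aCoef (L - k') * t - 2 - tp (m - 1 - k'))), Fin.prod_univ_eq_prod_range (gt k (1 / 2))] at hv
  rw [← hv]
  refine (hC L _ _).1 (fun q hq => hq.1) ?_
  rintro q ⟨-, Y, hY0, hYq, hYL, ⟨hc0, hc1⟩, hF⟩ s hs
  have hsY : ∀ i : Fin L, s i ≤ Y i := fun i => by rw [hYq]; exact (hs i).1
  have hYs : ∀ i : Fin L, Y i < s i + 2 := fun i => by rw [hYq]; exact (hs i).2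
  refine ⟨fun k' => ?_, ?_⟩
  · have h1 : ∑ i ∈ Ioi k', At k (1 / 2) k' i * s i ≤ ∑ i ∈ Ioi k', At k (1 / 2) k' i * Y i := by
      refine Finset.sum_le_sum fun i hi => mul_le_mul_of_nonneg_left (hsY i) ?_
      have h2 : (k' : ℕ) < i := Fin.lt_def.1 (Finset.mem_Ioi.1 hi)
      have h3 := aCoef_pos (s := i - k') (by omega)
      unfold At
      split_ifs <;> linarith
    rw [sum_Ioi_fin k' (fun i => At k (1 / 2) k' i * Y i)] at h1
    have h4 := sum_Ioo_split k'.2 hL (f := fun i => aCoef (i - k') * Y i) (fun i hi =>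
      mul_nonneg (aCoef_pos (by have := k'.2; omega)).le (hY0 i))
    simp only [hYL] at h4
    have h5 := hYs k'
    have h6 := htp (m - 1 - k')
    by_cases hk : (k' : ℕ) = k
    · have h7 := hF (hk ▸ k'.2)
      unfold Fl at h7
      have h8 : ∑ i ∈ Ioo (k' : ℕ) L, At k (1 / 2) k' i * Y i ≤
          ∑ i ∈ Ioo (k' : ℕ) L, aCoef (i - k') * Y i + Y (k + 1) / 2 := by
        unfold At
        simp only [add_mul, Finset.sum_add_distrib, hk, true_and, ite_mul, zero_mul,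
          Finset.sum_ite_eq']
        have := hY0 (k + 1)
        split_ifs <;> linarith
      rw [← hk] at h7
      rw [← hk] at h8
      rw [← hk] at h1
      show _ + ∑ i ∈ Ioi k', At k (1 / 2) k' i * s i ≤ _
      rw [← hk]
      linarith
    · have h7 := hc1 k' k'.2
      have h8 : ∑ i ∈ Ioo (k' : ℕ) L, At k (1 / 2) k' i * Y i =
          ∑ i ∈ Ioo (k' : ℕ) L, aCoef (i - k') * Y i := by
        unfold At
        simp only [hk, false_and, if_false, add_zero]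
      show _ + ∑ i ∈ Ioi k', At k (1 / 2) k' i * s i ≤ _
      linarith
  · have h1 : ∑ i : Fin L, aCoef (i + 1) * s i ≤ ∑ i : Fin L, aCoef (i + 1) * Y i :=
      Finset.sum_le_sum fun i _ => mul_le_mul_of_nonneg_left (hsY i) (aCoef_pos (by omega)).le
    rw [Fin.sum_univ_eq_sum_range (fun i => aCoef (i + 1) * Y i)] at h1
    have h2 : ∑ i ∈ range (L + 1), aCoef (i + 1) * Y i ≤ ∑ i ∈ range m, aCoef (i + 1) * Y i :=
      Finset.sum_le_sum_of_subset_of_nonneg (Finset.range_mono (by omega)) fun i _ _ =>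
        mul_nonneg (aCoef_pos (by omega)).le (hY0 i)
    rw [Finset.sum_range_succ, hYL] at h2
    show ∑ i : Fin L, aCoef (i + 1) * s i ≤ _
    linarith

theorem tp_mul (p : Par) (h₀ : ℝ) (j : ℕ) : p.tp h₀ j * p.ρ ^ j = 2 * h₀ ^ 19 * p.ϱ⁻¹ ^ j := by
  have h1 : 0 < p.ϱ := by linarith [p.one_lt]
  have h2 : p.ϱ ^ 19 * p.ρ = p.ϱ⁻¹ := by
    have := p.pow
    field_simp
    linarith
  unfold Par.tp Par.h
  rw [← h2, mul_pow, mul_pow, ← pow_mul, ← pow_mul, mul_comm j 19]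
  ring

theorem two_le_tp (p : Par) {h₀ : ℝ} (h : 1 ≤ h₀) (j : ℕ) : 2 ≤ p.tp h₀ j := by
  unfold Par.tp
  have h1 : 1 ≤ p.h h₀ j := h.trans (p.le_h (by linarith) j)
  have := one_le_pow₀ (n := 19) h1
  linarith

/-- the tolerances cost `O(ρ^{-m})` -/
theorem tol_le (p : Par) {c₀ : ℝ} (hg : ∀ k, c₀ ≤ gSeq k * p.ρ ^ k ∧ gSeq k * p.ρ ^ k ≤ 1)
    {h₀ : ℝ} (h : 1 ≤ h₀) {m L : ℕ} (hL : L < m) (k : ℕ) :
    (p.tp h₀ m + ∑ k' ∈ range L, gt k (1 / 2) k' * (2 + p.tp h₀ (m - 1 - k'))) * p.ρ ^ m ≤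
      2 * h₀ ^ 19 + 8 * h₀ ^ 19 * (1 - p.ϱ⁻¹)⁻¹ := by
  have hρ := p.ρ_pos
  have hr0 : 0 ≤ p.ϱ⁻¹ := by have := p.one_lt; positivity
  have hr1 : p.ϱ⁻¹ < 1 := inv_lt_one_of_one_lt₀ p.one_lt
  have hh : 0 ≤ h₀ ^ 19 := by positivity
  rw [add_mul, tp_mul, Finset.sum_mul]
  have h1 : 2 * h₀ ^ 19 * p.ϱ⁻¹ ^ m ≤ 2 * h₀ ^ 19 :=
    mul_le_of_le_one_right (by positivity) (pow_le_one₀ hr0 hr1.le)
  have h2 : ∀ k' ∈ range L, gt k (1 / 2) k' * (2 + p.tp h₀ (m - 1 - k')) * p.ρ ^ m ≤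
      8 * h₀ ^ 19 * p.ϱ⁻¹ ^ (m - 1 - k') := by
    intro k' hk'
    have h3 := Finset.mem_range.1 hk'
    have h4 : p.ρ ^ m = p.ρ ^ (k' + 1) * p.ρ ^ (m - 1 - k') := by
      rw [← pow_add]; congr 1; omega
    have h5 := gt_upper hρ p.ρ_lt.le hg k k' (e := 1 / 2) (by norm_num)
    have h6 := two_le_tp p h (m - 1 - k')
    have h7 := tp_mul p h₀ (m - 1 - k')
    have h8 : (2 + p.tp h₀ (m - 1 - k')) * p.ρ ^ (m - 1 - k') ≤
        2 * (p.tp h₀ (m - 1 - k') * p.ρ ^ (m - 1 - k')) := by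
      rw [← mul_assoc]; gcongr; linarith
    calc _ = (gt k (1 / 2) k' * p.ρ ^ (k' + 1)) *
          ((2 + p.tp h₀ (m - 1 - k')) * p.ρ ^ (m - 1 - k')) := by rw [h4]; ring
      _ ≤ 2 * (2 * (p.tp h₀ (m - 1 - k') * p.ρ ^ (m - 1 - k'))) :=
          mul_le_mul (by linarith) h8 (by positivity) (by norm_num)
      _ = _ := by rw [h7]; ring
  have h9 : ∑ k' ∈ range L, p.ϱ⁻¹ ^ (m - 1 - k') ≤ (1 - p.ϱ⁻¹)⁻¹ := by
    calc ∑ k' ∈ range L, p.ϱ⁻¹ ^ (m - 1 - k') ≤ ∑ k' ∈ range m, p.ϱ⁻¹ ^ (m - 1 - k') :=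
          Finset.sum_le_sum_of_subset_of_nonneg (Finset.range_mono hL.le) fun _ _ _ => by positivity
      _ = ∑ j ∈ range m, p.ϱ⁻¹ ^ j := Finset.sum_range_reflect (fun j => p.ϱ⁻¹ ^ j) m
      _ ≤ _ := sum_le_hasSum _ (fun _ _ => by positivity) (hasSum_geometric_of_lt_one hr0 hr1)
  have h10 := Finset.sum_le_sum h2
  rw [← Finset.mul_sum] at h10
  have h11 : 8 * h₀ ^ 19 * ∑ k' ∈ range L, p.ϱ⁻¹ ^ (m - 1 - k') ≤
      8 * h₀ ^ 19 * (1 - p.ϱ⁻¹)⁻¹ := by gcongr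
  linarith

/-- the argument of `sv` -/
theorem arg_le (p : Par) {c₀ : ℝ} (hc : 0 < c₀)
    (hg : ∀ k, c₀ ≤ gSeq k * p.ρ ^ k ∧ gSeq k * p.ρ ^ k ≤ 1)
    {h₀ : ℝ} (h : 1 ≤ h₀) {m L : ℕ} (hL : L < m) (k t : ℕ) {B : ℝ} (hB : p.Sc m B) :
    B + p.tp h₀ m - aCoef (L + 1) * t - ∑ k' ∈ range L,
        gt k (1 / 2) k' * (aCoef (L - k') * t - 2 - p.tp h₀ (m - 1 - k')) ≤
      B * (1 + ((2 * h₀ ^ 19 + 8 * h₀ ^ 19 * (1 - p.ϱ⁻¹)⁻¹) * |p.κ₂| -
        c₀ * p.κ₁ * (t / p.h h₀ (m - 1 - L) ^ 20)) / m) := by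
  obtain ⟨hB0, hB1, hB2⟩ := hB
  have hρ := p.ρ_pos
  have hm : (0 : ℝ) < m := by exact_mod_cast (by omega : 0 < m)
  have hρm : 0 < p.ρ ^ m := by positivity
  have hr1 : p.ϱ⁻¹ < 1 := inv_lt_one_of_one_lt₀ p.one_lt
  have hC0 : 0 ≤ 2 * h₀ ^ 19 + 8 * h₀ ^ 19 * (1 - p.ϱ⁻¹)⁻¹ := by
    have : 0 < 1 - p.ϱ⁻¹ := by linarith
    positivity
  have h1 := tol_le p hg h hL k
  set C₀ := 2 * h₀ ^ 19 + 8 * h₀ ^ 19 * (1 - p.ϱ⁻¹)⁻¹ with hC₀
  have hkap : (p.ρ ^ m)⁻¹ = kap p.ρ m B * B / m := by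
    unfold kap; field_simp
  have h2 : p.tp h₀ m + ∑ k' ∈ range L, gt k (1 / 2) k' * (2 + p.tp h₀ (m - 1 - k')) ≤
      C₀ * |p.κ₂| * B / m := by
    rw [← le_div_iff₀ hρm, div_eq_mul_inv C₀, hkap] at h1
    refine h1.trans ?_
    rw [mul_assoc, mul_div_assoc C₀]
    gcongr
    exact hB2.trans (le_abs_self _)
  have hh : 1 ≤ p.h h₀ (m - 1 - L) := h.trans (p.le_h (by linarith) _)
  have h3 : c₀ * p.κ₁ * B / m / p.h h₀ (m - 1 - L) ^ 20 ≤ gSeq (L + 1) := by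
    have h4 := (hg (L + 1)).1
    have h5 := p.h_pow h₀ (m - 1 - L)
    have h6 : p.ρ ^ m = p.ρ ^ (L + 1) * p.ρ ^ (m - 1 - L) := by
      rw [← pow_add]; congr 1; omega
    have h7 : p.κ₁ * B / m ≤ (p.ρ ^ m)⁻¹ := by rw [hkap]; gcongr
    have h8 : 1 ≤ h₀ ^ 20 := one_le_pow₀ h
    have h9 := gSeq_pos (L + 1)
    rw [div_le_iff₀ (by positivity)]
    calc c₀ * p.κ₁ * B / m = c₀ * (p.κ₁ * B / m) := by ring
      _ ≤ (gSeq (L + 1) * p.ρ ^ (L + 1)) * (p.ρ ^ m)⁻¹ := by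
          have := p.κ_pos
          gcongr
      _ = gSeq (L + 1) * (p.ρ ^ (m - 1 - L))⁻¹ * 1 := by rw [h6]; field_simp
      _ ≤ gSeq (L + 1) * (p.ρ ^ (m - 1 - L))⁻¹ * h₀ ^ 20 := by gcongr
      _ = _ := by rw [← h5]; field_simp
  have h10 : gSeq (L + 1) ≤ aCoef (L + 1) + ∑ k' ∈ range L, gt k (1 / 2) k' * aCoef (L - k') := by
    rw [gSeq_succ']
    gcongr with k' hk'
    · exact (aCoef_pos (by have := Finset.mem_range.1 hk'; omega)).le
    · exact g_le_gt k (by norm_num) k'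
  have h11 : ∑ k' ∈ range L, gt k (1 / 2) k' * (aCoef (L - k') * t - 2 - p.tp h₀ (m - 1 - k')) =
      (∑ k' ∈ range L, gt k (1 / 2) k' * aCoef (L - k')) * t -
        ∑ k' ∈ range L, gt k (1 / 2) k' * (2 + p.tp h₀ (m - 1 - k')) := by
    rw [Finset.sum_mul, ← Finset.sum_sub_distrib]
    exact Finset.sum_congr rfl fun _ _ => by ring
  have ht : (0 : ℝ) ≤ t := Nat.cast_nonneg t
  have h12 := mul_le_mul_of_nonneg_right (h3.trans h10) ht
  have h13 : B * (1 + (C₀ * |p.κ₂| - c₀ * p.κ₁ * (t / p.h h₀ (m - 1 - L) ^ 20)) / m) =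
      B + C₀ * |p.κ₂| * B / m - c₀ * p.κ₁ * B / m / p.h h₀ (m - 1 - L) ^ 20 * t := by
    ring
  rw [h11, h13]
  linarith

theorem sv_le {L : ℕ} {x B w : ℝ} (hB : 0 < B) (hx : x ≤ B * (1 + w)) :
    sv L x ≤ B ^ L / L.factorial * Real.exp (L * w) := by
  unfold sv
  split_ifs with h0
  · have h1 : x ≤ B * Real.exp w :=
      hx.trans (mul_le_mul_of_nonneg_left (by linarith [Real.add_one_le_exp w]) hB.le)
    have h2 := pow_le_pow_left₀ h0 h1 L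
    rw [mul_pow, ← Real.exp_nat_mul] at h2
    rw [div_mul_eq_mul_div]
    gcongr
  · positivity

theorem eventually_big (p : Par) {a : ℝ} (ha : 0 < a) (C : ℝ) :
    ∀ᶠ j : ℕ in atTop, 2 * (j : ℝ) + 1 + C ≤ a * p.ϱ ^ j := by
  have h1 := ((tendsto_pow_const_div_const_pow_of_one_lt 1 p.one_lt).const_mul 2).add
    ((tendsto_pow_const_div_const_pow_of_one_lt 0 p.one_lt).const_mul (1 + C))
  simp only [mul_zero, add_zero] at h1
  filter_upwards [h1.eventually_le_const ha] with j hj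
  have h2 : 0 < p.ϱ ^ j := by have := p.one_lt; positivity
  rw [← div_le_iff₀ h2]
  refine le_trans (le_of_eq ?_) hj
  ring

end TopAux

open TopAux in
theorem top (hR : RenewStmt) (hS : SimplexStmt) (hC : CoupleStmt) : TopStmt := by
  intro p
  obtain ⟨⟨c₀, hc₀, hg⟩, -⟩ := hR.2 p
  have hρ := p.ρ_pos
  have hκ := p.κ_pos
  set c := min (1 / 2 * c₀ ^ 2 * p.ρ) (c₀ * p.κ₁ / 2) with hc
  have hc0 : 0 < c := lt_min (by positivity) (by positivity)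
  have hc1 : c ≤ 1 / 2 * c₀ ^ 2 * p.ρ := min_le_left _ _
  have hc2 : c ≤ c₀ * p.κ₁ / 2 := min_le_right _ _
  refine ⟨c, hc0, fun h₀ hh₀ => ?_⟩
  set C₁ := (2 * h₀ ^ 19 + 8 * h₀ ^ 19 * (1 - p.ϱ⁻¹)⁻¹) * |p.κ₂| with hC₁
  have hC1 : 0 ≤ C₁ := by
    have : 0 < 1 - p.ϱ⁻¹ := by linarith [inv_lt_one_of_one_lt₀ p.one_lt]
    positivity
  refine ⟨Real.exp C₁, Real.one_le_exp hC1, ?_⟩
  obtain ⟨j₀, hj₀⟩ := eventually_atTop.1 (eventually_big p (mul_pos hc₀ hκ) C₁)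
  filter_upwards [eventually_ge_atTop (2 * j₀ + 1)] with m hm B hB L hL k t
  have hB0 := hB.1
  have hm0 : (0 : ℝ) < m := by exact_mod_cast (by omega : 0 < m)
  have hLm : (L : ℝ) ≤ m := by exact_mod_cast hL.le
  have hL0 : (0 : ℝ) ≤ L := Nat.cast_nonneg L
  refine (mass_le hS hC hL k t B (p.tp h₀)
    (fun j => le_trans (by norm_num) (two_le_tp p hh₀ j))).trans (ENNReal.ofReal_le_ofReal ?_)
  have harg := arg_le p hc₀ hg hh₀ hL k t hB
  rw [← hC₁] at harg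
  have hh : 1 ≤ p.h h₀ (m - 1 - L) := hh₀.trans (p.le_h (by linarith) _)
  set h := p.h h₀ (m - 1 - L) with hhdef
  set x := B + p.tp h₀ m - aCoef (L + 1) * t - ∑ k' ∈ range L,
        gt k (1 / 2) k' * (aCoef (L - k') * t - 2 - p.tp h₀ (m - 1 - k')) with hx
  have hG := G_pos L hB0
  have hθ : 0 ≤ (t : ℝ) / h ^ 20 := by positivity
  have key : sv L x ≤ B ^ L / L.factorial * (Real.exp C₁ *
      if (t : ℝ) ≤ h ^ 21 then 1 else Real.exp (-(c * t / h ^ 20))) := by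
    have h1 := sv_le (L := L) hB0 harg
    have h2 : (L : ℝ) * (C₁ / m) ≤ C₁ := by
      rw [← mul_div_assoc, div_le_iff₀ hm0]; nlinarith
    have h3 : (L : ℝ) * ((C₁ - c₀ * p.κ₁ * (t / h ^ 20)) / m) =
        L * (C₁ / m) - L / m * (c₀ * p.κ₁ * (t / h ^ 20)) := by ring
    split_ifs with ht
    · refine h1.trans ?_
      rw [mul_one]
      gcongr
      have : 0 ≤ L / m * (c₀ * p.κ₁ * (t / h ^ 20)) := by positivity
      linarith
    · by_cases h4 : m ≤ 2 * L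
      · refine h1.trans ?_
        rw [← Real.exp_add]
        gcongr
        have h5 : (1 : ℝ) / 2 ≤ L / m := by
          rw [div_le_div_iff₀ (by norm_num) hm0]
          have : (m : ℝ) ≤ 2 * L := by exact_mod_cast h4
          linarith
        have h6 : 1 / 2 * (c₀ * p.κ₁ * (t / h ^ 20)) ≤ L / m * (c₀ * p.κ₁ * (t / h ^ 20)) := by
          gcongr
        have h7 : c * (t / h ^ 20) ≤ c₀ * p.κ₁ / 2 * (t / h ^ 20) := by gcongr
        rw [mul_div_assoc]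
        linarith
      · have h5 := hj₀ (m - 1 - L) (by omega)
        have h6 : (m : ℝ) ≤ 2 * ((m - 1 - L : ℕ) : ℝ) + 1 := by
          exact_mod_cast (by omega : m ≤ 2 * (m - 1 - L) + 1)
        have h7 : p.ϱ ^ (m - 1 - L) ≤ h := by
          rw [hhdef]; unfold Par.h
          exact le_mul_of_one_le_left (by have := p.one_lt; positivity) hh₀
        have h8 : h < t / h ^ 20 := by
          rw [lt_div_iff₀ (by positivity)]
          have := not_le.1 ht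
          rwa [show h * h ^ 20 = h ^ 21 by ring]
        have h9 : c₀ * p.κ₁ * p.ϱ ^ (m - 1 - L) < c₀ * p.κ₁ * (t / h ^ 20) :=
          mul_lt_mul_of_pos_left (h7.trans_lt h8) (by positivity)
        have h10 : 1 + (C₁ - c₀ * p.κ₁ * (t / h ^ 20)) / m < 0 := by
          have : (C₁ - c₀ * p.κ₁ * (t / h ^ 20)) / m < -1 := by
            rw [div_lt_iff₀ hm0]; linarith
          linarith
        have h11 : x < 0 := harg.trans_lt (mul_neg_of_pos_of_neg hB0 h10)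
        unfold sv
        rw [if_neg (not_le.2 h11)]
        positivity
  have hprod := prod_gt hρ hc₀ hg k (e := 1 / 2) (by norm_num) L
  have hpg : 0 < ∏ i ∈ range L, gSeq (i + 1) := Finset.prod_pos fun i _ => gSeq_pos _
  have hprod' : (1 + c) ^ (L - 1 - k) * ∏ i ∈ range L, gSeq (i + 1) ≤
      ∏ i ∈ range L, gt k (1 / 2) i := by
    refine le_trans ?_ hprod
    gcongr
  have hI : 0 ≤ (if (t : ℝ) ≤ h ^ 21 then 1 else Real.exp (-(c * t / h ^ 20))) := by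
    split_ifs <;> positivity
  calc sv L x / ∏ i ∈ range L, gt k (1 / 2) i ≤ (B ^ L / L.factorial * (Real.exp C₁ *
        if (t : ℝ) ≤ h ^ 21 then 1 else Real.exp (-(c * t / h ^ 20)))) /
        ((1 + c) ^ (L - 1 - k) * ∏ i ∈ range L, gSeq (i + 1)) :=
        div_le_div₀ (by positivity) key (by positivity) hprod'
    _ = _ := by
      unfold G
      field_simp

end Crest.Agent.R20
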