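import Crest.Agent.R20.Basic

/-!
# Row 20: the upper bound
-/

set_option autoImplicit false

noncomputable section

namespace Crest.Agent.R20

open Crest.NumberTheoryR.TotientScale Finset Filter Topology MeasureTheory
open scoped ENNReal ArithmeticFunction.Omega

namespace UpperAux

theorem tendsto_bigB : Tendsto bigB atTop atTop :=
  Real.tendsto_log_atTop.comp Real.tendsto_log_atTop

/-- uniform prime counting bound. -/
theorem pi_le (hPi : PiStmt) {δ θ : ℝ} (hδ : 0 < δ) (hθ : θ < 1) : ∀ᶠ x : ℝ in atTop, ∀ w : ℕ,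
    0 < w → (w : ℝ) ≤ x ^ θ → (Nat.primeCounting ⌊x / w + 1⌋₊ : ℝ) ≤
      (1 + δ) ^ 2 / (1 - θ) * (x / Real.log x) * (1 / w) := by
  have h1 : ∀ᶠ z : ℝ in atTop, (Nat.primeCounting ⌊z⌋₊ : ℝ) * Real.log z / z ≤ 1 + δ :=
    hPi.eventually (eventually_le_nhds (by linarith))
  obtain ⟨z₀, hz₀⟩ := eventually_atTop.1 h1
  have h2 : Tendsto (fun x : ℝ => x ^ (1 - θ)) atTop atTop := tendsto_rpow_atTop (by linarith)
  filter_upwards [h2.eventually_ge_atTop z₀, h2.eventually_ge_atTop (1 / δ),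
    eventually_gt_atTop 1] with x hx1 hx2 hx w hw hwx
  have hx0 : 0 < x := by linarith
  have hw0 : (0 : ℝ) < w := by exact_mod_cast hw
  have hl : 0 < Real.log x := Real.log_pos hx
  have hp : 0 < x ^ (1 - θ) := Real.rpow_pos_of_pos hx0 _
  have h3 : x ^ (1 - θ) ≤ x / w := by
    rw [Real.rpow_sub hx0, Real.rpow_one]
    exact div_le_div_of_nonneg_left hx0.le hw0 hwx
  set y := x / w with hy
  have hy0 : 0 < y := by positivity
  have h4 : (1 - θ) * Real.log x ≤ Real.log (y + 1) := by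
    rw [← Real.log_rpow hx0]
    exact Real.log_le_log hp (by linarith)
  have h5 : 0 < (1 - θ) * Real.log x := mul_pos (by linarith) hl
  have h6 : y + 1 ≤ (1 + δ) * y := by
    have := (div_le_iff₀ hδ).1 (hx2.trans h3)
    linarith
  have h7 := hz₀ (y + 1) (by linarith)
  rw [div_le_iff₀ (by linarith)] at h7
  have h8 : (1 + δ) ^ 2 / (1 - θ) * (x / Real.log x) * (1 / w) =
      (1 + δ) ^ 2 * y / ((1 - θ) * Real.log x) := by
    have : (1 - θ) ≠ 0 := by linarith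
    rw [hy]
    field_simp
  rw [h8, le_div_iff₀ h5]
  have h9 : (0 : ℝ) ≤ Nat.primeCounting ⌊y + 1⌋₊ := Nat.cast_nonneg _
  have h10 := mul_le_mul_of_nonneg_left h4 h9
  have h11 := mul_le_mul_of_nonneg_left h6 (by linarith : 0 ≤ 1 + δ)
  nlinarith

/-- the cofactors `φ (D n)` of the non-exceptional values. -/
def Cof (m : ℕ) (x β : ℝ) (n : ℕ) : Prop :=
  0 < n ∧ (n.totient : ℝ) ≤ x ^ (4 / 5 : ℝ) ∧ ∑ i ∈ range m, aCoef (i + 1) * ys (pr n i) ≤ β

theorem ys_le {C : ℝ} (hC : ∀ n : ℕ, 2 ≤ n → |(ys n : ℝ) - Real.log (Real.log n)| ≤ C) {x : ℝ}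
    (hx : 3 ≤ x) {q : ℕ} (hq : 2 ≤ q) (h : (q : ℝ) ≤ x + 1) : (ys q : ℝ) ≤ bigB x + 1 + C := by
  have h1 := (abs_le.1 (hC q hq)).2
  have hq' : (2 : ℝ) ≤ q := by exact_mod_cast hq
  have hl : 0 < Real.log x := Real.log_pos (by linarith)
  have h2 : Real.log q ≤ 2 * Real.log x := by
    have : Real.log (x ^ 2) = 2 * Real.log x := by rw [Real.log_pow]; norm_num
    rw [← this]
    exact Real.log_le_log (by linarith) (by nlinarith)
  have h3 : Real.log (Real.log q) ≤ Real.log (2 * Real.log x) :=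
    Real.log_le_log (Real.log_pos (by linarith)) h2
  rw [Real.log_mul two_ne_zero hl.ne'] at h3
  have := Real.log_two_lt_d9
  unfold bigB
  linarith

open Classical in
theorem count {C C₀ τ β x c₁ A₁ A₂ : ℝ} {m : ℕ} {S₁ S₂ : Set ℕ}
    (hC : ∀ n : ℕ, 2 ≤ n → |(ys n : ℝ) - Real.log (Real.log n)| ≤ C) (hx : 3 ≤ x)
    (hβ : bigB x + 1 + C + τ ≤ β)
    (hex : ∀ S : Finset ℕ, (∀ v ∈ S, (v : ℝ) ≤ x ∧ ∃ n : ℕ, 0 < n ∧ n.totient = v ∧
      ¬ (P (D n) < P n ∧ ∑ s ∈ range (m + 1), aCoef s * ys (pr n s) ≤ τ ∧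
        ((D n).totient : ℝ) ≤ x ^ (4 / 5 : ℝ))) → (S.card : ℝ) ≤ C₀ * x / Real.log x)
    (hpi : ∀ w : ℕ, 0 < w → (w : ℝ) ≤ x ^ (4 / 5 : ℝ) →
      (Nat.primeCounting ⌊x / w + 1⌋₊ : ℝ) ≤ 20 * (x / Real.log x) * (1 / w))
    (hc₁ : 0 ≤ c₁) (hA₁ : 0 ≤ A₁) (hA₂ : 0 ≤ A₂) (h₁ : H S₁ ≤ ENNReal.ofReal A₁)
    (h₂ : H S₂ ≤ ENNReal.ofReal A₂)
    (hW : ∀ n, Cof m x β n → (n.totient ∈ S₁ ∧ (Nat.primeCounting ⌊x / n.totient + 1⌋₊ : ℝ) ≤
      c₁ * (x / Real.log x) * (1 / n.totient)) ∨ n.totient ∈ S₂) :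
    (totientCount x : ℝ) ≤ x / Real.log x * (C₀ + c₁ * A₁ + 20 * A₂) := by
  have hx0 : 0 ≤ x := by linarith
  have hl : 0 < Real.log x := Real.log_pos (by linarith)
  have hq0 : 0 ≤ x / Real.log x := by positivity
  set V : Finset ℕ := (range (⌊x⌋₊ + 1)).filter fun v => ∃ n : ℕ, 0 < n ∧ n.totient = v with hV
  have hVc : totientCount x = V.card := by
    rw [totientCount, ← Set.ncard_coe_finset]
    congr 1
    ext v
    simp [hV, Nat.le_floor_iff hx0]
  set E : Finset ℕ := V.filter fun v => ∃ n : ℕ, 0 < n ∧ n.totient = v ∧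
    ¬ (P (D n) < P n ∧ ∑ s ∈ range (m + 1), aCoef s * ys (pr n s) ≤ τ ∧
      ((D n).totient : ℝ) ≤ x ^ (4 / 5 : ℝ)) with hE
  have hVx : ∀ v ∈ V, (v : ℝ) ≤ x := fun v hv => by
    have := mem_range.1 (mem_filter.1 hv).1
    exact (Nat.le_floor_iff hx0).1 (by omega)
  have hEc := hex E fun v hv => ⟨hVx v (mem_filter.1 hv).1, (mem_filter.1 hv).2⟩
  set W : Finset ℕ := (range (⌊x⌋₊ + 1)).filter fun w => ∃ n, Cof m x β n ∧ n.totient = w with hWd
  have hsub : V ⊆ E ∪ W.biUnion fun w =>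
      ((range (⌊x / w + 1⌋₊ + 1)).filter Nat.Prime).image fun q => (q - 1) * w := by
    intro v hv
    by_cases he : v ∈ E
    · exact mem_union_left _ he
    refine mem_union_right _ ?_
    obtain ⟨n, hn, rfl⟩ := (mem_filter.1 hv).2
    have hg : P (D n) < P n ∧ ∑ s ∈ range (m + 1), aCoef s * ys (pr n s) ≤ τ ∧
        ((D n).totient : ℝ) ≤ x ^ (4 / 5 : ℝ) := by
      by_contra hc
      exact he (mem_filter.2 ⟨hv, n, hn, rfl, hc⟩)
    obtain ⟨g1, g2, g3⟩ := hg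
    have hp : (P n).Prime := (P_prime_of_one_lt ((one_le_P _).trans_lt g1)).1
    have hw : 0 < (D n).totient := Nat.totient_pos.2 (D_pos hn)
    have hw' : (1 : ℝ) ≤ (D n).totient := by exact_mod_cast hw
    have he := totient_eq g1
    have hle := hVx _ hv
    rw [he, Nat.cast_mul, Nat.cast_sub hp.one_le, Nat.cast_one] at hle
    have hp2 : (2 : ℝ) ≤ P n := by exact_mod_cast hp.two_le
    have hq : (P n : ℝ) ≤ x / (D n).totient + 1 := by
      rw [← sub_le_iff_le_add, le_div_iff₀ (by linarith)]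
      exact hle
    have hy := ys_le hC hx hp.two_le (by nlinarith)
    refine mem_biUnion.2 ⟨(D n).totient, mem_filter.2 ⟨mem_range.2 (Nat.lt_succ_of_le
      (Nat.le_floor (by nlinarith))), D n, ⟨D_pos hn, g3, ?_⟩, rfl⟩, mem_image.2 ⟨P n,
        mem_filter.2 ⟨mem_range.2 (Nat.lt_succ_of_le (Nat.le_floor hq)), hp⟩, he.symm⟩⟩
    rw [sum_range_succ', aCoef_zero, pr_zero] at g2
    simp only [pr_D]
    linarith
  have h3 : (V.card : ℝ) ≤ E.card + ∑ w ∈ W, (Nat.primeCounting ⌊x / w + 1⌋₊ : ℝ) := by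
    have := (card_le_card hsub).trans ((card_union_le _ _).trans (Nat.add_le_add_left
      (card_biUnion_le.trans (sum_le_sum fun w _ => card_image_le)) _))
    simp only [Nat.primeCounting, Nat.primeCounting', Nat.count_eq_card_filter_range]
    exact_mod_cast this
  have h4 : ∑ w ∈ W, (Nat.primeCounting ⌊x / w + 1⌋₊ : ℝ) ≤
      c₁ * (x / Real.log x) * A₁ + 20 * (x / Real.log x) * A₂ := by
    rw [← sum_filter_add_sum_filter_not W (fun w => w ∉ S₂)]
    refine add_le_add ?_ ?_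
    · have hm : ∀ w ∈ W.filter (fun w => w ∉ S₂), w ∈ S₁ ∧
          (Nat.primeCounting ⌊x / w + 1⌋₊ : ℝ) ≤ c₁ * (x / Real.log x) * (1 / w) := fun w hw => by
        obtain ⟨hw1, hw2⟩ := mem_filter.1 hw
        obtain ⟨n, hn, rfl⟩ := (mem_filter.1 hw1).2
        exact (hW n hn).resolve_right hw2
      refine (sum_le_sum fun w hw => (hm w hw).2).trans ?_
      rw [← mul_sum]
      exact mul_le_mul_of_nonneg_left (sum_le_of_Mass_le hA₁ h₁ _ fun w hw => (hm w hw).1)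
        (by positivity)
    · refine (sum_le_sum (g := fun w : ℕ => 20 * (x / Real.log x) * (1 / w)) fun w hw => ?_).trans ?_
      · obtain ⟨n, hn, rfl⟩ := (mem_filter.1 (mem_filter.1 hw).1).2
        exact hpi _ (Nat.totient_pos.2 hn.1) hn.2.1
      · rw [← mul_sum]
        exact mul_le_mul_of_nonneg_left
          (sum_le_of_Mass_le hA₂ h₂ _ fun w hw => not_not.1 (mem_filter.1 hw).2) (by positivity)
  rw [hVc]
  rw [mul_div_assoc] at hEc
  linarith

theorem H_union_le (s : Finset ℕ) (T : ∀ L : ℕ, Set ((Fin L → ℕ) × ℕ)) (f : ℕ → ℝ)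
    (hf : ∀ L ∈ s, 0 ≤ f L) (h : ∀ L ∈ s, Mass tv (T L) ≤ ENNReal.ofReal (f L)) :
    H (⋃ L ∈ s, tv '' T L) ≤ ENNReal.ofReal (∑ L ∈ s, f L) := by
  rw [ENNReal.ofReal_sum_of_nonneg hf]
  exact (Mass_biUnion_le s _).trans (sum_le_sum fun L hL => (H_image_le _ _).trans (h L hL))

variable (p : Par) {h₀ : ℝ}

/-- the levels below `L` are good. -/
def GoodTo (h₀ : ℝ) (m L n : ℕ) : Prop :=
  ∀ i < L, Good (p.h h₀ (m - 1 - i)) (m - 1 - i) (D^[i] n)

theorem first_bad (h₀ : ℝ) {m : ℕ} (hm : 1 ≤ m) (n : ℕ) : ∃ L < m, GoodTo p h₀ m L n ∧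
    (L = m - 1 ∨ ¬ Good (p.h h₀ (m - 1 - L)) (m - 1 - L) (D^[L] n)) := by
  classical
  have hex : ∃ L, L = m - 1 ∨ ¬ Good (p.h h₀ (m - 1 - L)) (m - 1 - L) (D^[L] n) :=
    ⟨m - 1, .inl rfl⟩
  refine ⟨Nat.find hex, ?_, fun i hi => ?_, Nat.find_spec hex⟩
  · have := Nat.find_min' hex (.inl rfl)
    omega
  · have := Nat.find_min hex hi
    rw [not_or, not_not] at this
    exact this.2

variable {p}

theorem GoodTo.mono {m L L' n : ℕ} (h : GoodTo p h₀ m L n) (hL : L' ≤ L) : GoodTo p h₀ m L' n :=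
  fun i hi => h i (hi.trans_le hL)

theorem GoodTo.tv_eq {m L n : ℕ} (h : GoodTo p h₀ m L n) :
    tv (fun s : Fin L => pr n s, (D^[L] n).totient) = n.totient := by
  rw [totient_iterate (n := n) (L := L) fun i hi => by
    have := (h i hi).lt
    rwa [P_D_iterate] at this, tv, pv]
  exact congrArg (· * _) (Fin.prod_univ_eq_prod_range (fun i => pr n i - 1) L)

theorem GoodTo.con (h1 : 1 ≤ h₀) {m L n : ℕ} {B : ℝ} (h : GoodTo p h₀ m L n) (hL : L ≤ m)
    (hb : ∑ i ∈ range m, aCoef (i + 1) * ys (pr n i) ≤ B + p.tp h₀ m) :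
    Con m L B (p.tp h₀) (sq (fun s : Fin L => pr n s) (D^[L] n)) := by
  rw [show sq (fun s : Fin L => pr n s) (D^[L] n) = fun i => (ys (pr n i) : ℝ) from
    funext (sq_pr L n)]
  refine ⟨hb, fun k hk => ?_⟩
  have h2 := (h k hk).con' (by omega) (Y := fun i => (ys (pr n i) : ℝ)) fun s => by
    rw [pr_iterate]
  have h4 := p.le_h (by linarith : 0 ≤ h₀) (m - 1 - k)
  have h3 : 0 ≤ p.h h₀ (m - 1 - k) ^ 19 := pow_nonneg (by linarith) _
  rw [Par.tp]
  linarith

theorem mem_X (h1 : 1 ≤ h₀) {m L k n : ℕ} {B : ℝ} (hn : 0 < n) (h : GoodTo p h₀ m L n) (hL : L < m)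
    (hbad : L = m - 1 ∨ ¬ Good (p.h h₀ (m - 1 - L)) (m - 1 - L) (D^[L] n))
    (hb : ∑ i ∈ range m, aCoef (i + 1) * ys (pr n i) ≤ B + p.tp h₀ m)
    (hF : k < L → Fl m k fun i => (ys (pr n i) : ℝ)) : n.totient ∈ tv '' p.X h₀ m L k B := by
  refine ⟨(fun s : Fin L => pr n s, (D^[L] n).totient), ⟨fun i => (h i i.2).prime, D^[L] n,
    iterate_D_pos hn L, rfl, hbad, h.con h1 hL.le hb, fun hk => ?_⟩, h.tv_eq⟩
  dsimp only
  rw [show sq (fun s : Fin L => pr n s) (D^[L] n) = fun i => (ys (pr n i) : ℝ) from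
    funext (sq_pr L n)]
  exact hF hk

theorem mem_Tu (h1 : 1 ≤ h₀) {m K L n : ℕ} {B : ℝ} (h : GoodTo p h₀ m L n) (hK : K ≤ m)
    (hL : m - K / 2 < L) (hb : ∑ i ∈ range m, aCoef (i + 1) * ys (pr n i) ≤ B + p.tp h₀ m) :
    n.totient ∈ tv '' Tu (p.R h₀ K) m K B (p.tp h₀) := by
  have h' : GoodTo p h₀ m (m - K) n := h.mono (by omega)
  refine ⟨(fun s : Fin (m - K) => pr n s, (D^[m - K] n).totient), ⟨fun i => (h' i i.2).prime,
    D^[m - K] n, fun i hi => ?_, rfl, h'.con h1 (Nat.sub_le _ _) hb⟩, h'.tv_eq⟩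
  have := h (i + (m - K)) (by omega)
  rwa [show m - 1 - (i + (m - K)) = K - 1 - i by omega, Function.iterate_add_apply] at this

theorem fl_zero {m n : ℕ} {B τ : ℝ} (hm : 2 ≤ m) (hτ : 50 * τ ≤ B) (hτ0 : 0 ≤ τ)
    (hb : ∑ i ∈ range m, aCoef (i + 1) * ys (pr n i) ≤ B + τ)
    (hY : 9 / 10 * B < ys (P n)) : Fl m 0 fun i => (ys (pr n i) : ℝ) := by
  refine Fl_of_le (fun _ => Nat.cast_nonneg _) (by omega) ?_
  have h1 : range m = insert 0 (Ioo 0 m) := by
    ext i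
    simp only [mem_range, mem_insert, mem_Ioo]
    omega
  rw [h1, sum_insert (by simp)] at hb
  simp only [Nat.sub_zero, zero_add, pr_zero] at hb ⊢
  have h2 := aCoef_one.1
  have h3 : (0 : ℝ) ≤ ys (P n) := Nat.cast_nonneg _
  nlinarith

theorem small {C η x h : ℝ} (hC : ∀ n : ℕ, 2 ≤ n → |(ys n : ℝ) - Real.log (Real.log n)| ≤ C)
    (hx : 3 ≤ x) {j n : ℕ} (g : Good h j n) (hh : h ^ 21 ≤ bigB x ^ 2)
    (hY : (ys (P n) : ℝ) ≤ 9 / 10 * bigB x)
    (hη : 10 * bigB x ^ 2 * Real.exp C ≤ η * Real.exp (bigB x / 10)) :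
    (n.totient : ℝ) ≤ x ^ η := by
  have hw : 0 < n.totient := Nat.totient_pos.2 g.pos
  have hw' : (0 : ℝ) < n.totient := by exact_mod_cast hw
  have hl : 0 < Real.log x := Real.log_pos (by linarith)
  have hp := g.prime
  have hp2 : (2 : ℝ) ≤ P n := by exact_mod_cast hp.two_le
  have hlp : 0 < Real.log (P n) := Real.log_pos (by linarith)
  have h1 : (n.totient : ℝ) ≤ (P n : ℝ) ^ Ω n.totient := by
    exact_mod_cast (le_P_pow_Omega hw).trans (Nat.pow_le_pow_left (P_totient_le g.pos) _)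
  have h2 := Real.log_le_log hw' h1
  rw [Real.log_pow] at h2
  have h3 : Real.log (P n) ≤ Real.exp (9 / 10 * bigB x + C) := by
    rw [← Real.log_le_iff_le_exp hlp]
    have := (abs_le.1 (hC _ hp.two_le)).1
    linarith
  have h4 : (Ω n.totient : ℝ) ≤ 10 * bigB x ^ 2 := g.om.trans (by linarith)
  have h5 := mul_le_mul h4 h3 hlp.le (by positivity)
  have h6 : Real.exp (bigB x / 10) * Real.exp (9 / 10 * bigB x) = Real.log x := by
    rw [← Real.exp_add, show bigB x / 10 + 9 / 10 * bigB x = bigB x by ring, bigB, Real.exp_log hl]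
  rw [Real.le_rpow_iff_log_le hw' (by linarith), ← h6]
  rw [Real.exp_add] at h5
  have h7 := mul_le_mul_of_nonneg_right hη (Real.exp_pos (9 / 10 * bigB x)).le
  nlinarith

theorem ev_small (C : ℝ) {η : ℝ} (hη : 0 < η) : ∀ᶠ x : ℝ in atTop,
    10 * bigB x ^ 2 * Real.exp C ≤ η * Real.exp (bigB x / 10) := by
  have h1 : Tendsto (fun x => bigB x / 10) atTop atTop := tendsto_bigB.atTop_div_const (by norm_num)
  have h2 := ((Real.tendsto_exp_div_pow_atTop 2).comp h1).eventually_ge_atTop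
    (1000 * Real.exp C / η)
  filter_upwards [h2, h1.eventually_gt_atTop 0] with x hx hx0
  simp only [Function.comp] at hx
  rw [div_le_div_iff₀ hη (by positivity)] at hx
  nlinarith

end UpperAux

open UpperAux in
theorem upper (hM : MertensStmt) (hPi : PiStmt) (hB0 : Bad0Stmt) (hMa : MasterStmt)
    (hG : GsumStmt) : UpperStmt := by
  intro p
  obtain ⟨CM, hCM0, hCM⟩ := hM
  obtain ⟨C₀, hC₀, hB0⟩ := hB0
  obtain ⟨c, hc, hMa⟩ := hMa p
  obtain ⟨⟨CG, hCG, hG1⟩, hG2, hG3, -⟩ := hG p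
  filter_upwards [p.eventually_h hB0, hMa] with h₀ ⟨h1, hh⟩ ⟨C, hC, hMa⟩
  have hpi := pi_le hPi one_pos (show (4 / 5 : ℝ) < 1 by norm_num)
  rw [show ((1 : ℝ) + 1) ^ 2 / (1 - 4 / 5) = 20 by norm_num] at hpi
  -- the common counting step
  have key : ∀ᶠ x : ℝ in atTop, ∀ m, p.Sc m (bigB x) → 3 ≤ x ∧ 2 ≤ m ∧
      100 * p.h h₀ m ^ 19 ≤ bigB x ∧
      (∀ L < m, ∀ k : ℕ, Mass tv (p.X h₀ m L k (bigB x)) ≤
        ENNReal.ofReal (C * G L (bigB x) / (1 + c) ^ (L - 1 - k))) ∧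
      ∀ (c₁ A₁ A₂ : ℝ) (S₁ S₂ : Set ℕ), 0 ≤ c₁ → 0 ≤ A₁ → 0 ≤ A₂ → H S₁ ≤ ENNReal.ofReal A₁ →
        H S₂ ≤ ENNReal.ofReal A₂ →
        (∀ n, Cof m x (bigB x + p.tp h₀ m) n → (n.totient ∈ S₁ ∧
          (Nat.primeCounting ⌊x / n.totient + 1⌋₊ : ℝ) ≤
            c₁ * (x / Real.log x) * (1 / n.totient)) ∨ n.totient ∈ S₂) →
        (totientCount x : ℝ) ≤ x / Real.log x * (C₀ + c₁ * A₁ + 20 * A₂) := by
    have e1 := p.eventually_Sc hMa
    have e2 := p.eventually_Sc (p.eventually_top h1 100)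
    have e3 := p.eventually_Sc (Q := fun m _ => 2 ≤ m ∧ CM + 1 ≤ (m : ℝ)) (by
      filter_upwards [eventually_ge_atTop 2,
        tendsto_natCast_atTop_atTop.eventually_ge_atTop (CM + 1)] with m a b _ _
      exact ⟨a, b⟩)
    filter_upwards [e1, e2, e3, hpi, eventually_ge_atTop 3] with x e1 e2 e3 hpi hx m hm
    obtain ⟨t1, t2, -⟩ := e2 m hm
    obtain ⟨m2, mC⟩ := e3 m hm
    refine ⟨hx, m2, t1, e1 m hm, fun c₁ A₁ A₂ S₁ S₂ a1 a2 a3 a4 a5 a6 => ?_⟩
    have hB := hm.1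
    have hh1 : 1 ≤ p.h h₀ m := h1.trans (p.le_h (by linarith) m)
    have hh2 : p.h h₀ m ≤ p.h h₀ m ^ 19 := le_self_pow₀ hh1 (by norm_num)
    have hh3 := (hh m).2
    have hm0 : (0 : ℝ) ≤ m := Nat.cast_nonneg m
    refine count hCM hx (τ := p.h h₀ m ^ 19) (by rw [Par.tp]; nlinarith)
      (fun S hS => (hh m).1 m x S m2 hh3 hx t1 (by linarith) hS) hpi a1 a2 a3 a4 a5 a6
  have hC0 : 0 ≤ C := by linarith
  refine ⟨⟨(C₀ + 20 * C) * CG, ?_⟩, fun ε hε => ?_⟩
  · filter_upwards [key] with x key m hm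
    obtain ⟨hx, m2, -, hX, hcount⟩ := key m hm
    have hB := hm.1
    have hGp := fun L => (G_pos L hB).le
    have hs := hG1 m _ hm
    have hs1 : 1 ≤ ∑ L ∈ range m, G L (bigB x) := by
      rw [← G_zero (bigB x)]
      exact single_le_sum (f := fun L => G L (bigB x)) (fun L _ => hGp L) (mem_range.2 (by omega))
    have hH := H_union_le (range m) (fun L => p.X h₀ m L L (bigB x)) (fun L => C * G L (bigB x))
      (fun L _ => mul_nonneg hC0 (hGp L)) fun L hL => by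
        simpa [show L - 1 - L = 0 by omega] using hX L (mem_range.1 hL) L
    have := hcount 0 0 _ ∅ _ le_rfl le_rfl (sum_nonneg fun L _ => mul_nonneg hC0 (hGp L))
      (by simp [H]) hH fun n hn => by
        obtain ⟨L, hL, hg, hbad⟩ := first_bad p h₀ (by omega : 1 ≤ m) n
        exact .inr (Set.mem_biUnion (mem_coe.2 (mem_range.2 hL))
          (mem_X h1 hn.1 hg hL hbad hn.2.2 fun hk => absurd hk (lt_irrefl _)))
    refine this.trans ?_
    have hq : 0 ≤ x / Real.log x := div_nonneg (by linarith) (Real.log_nonneg (by linarith))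
    rw [← mul_sum, mul_left_comm _ (x / Real.log x)]
    refine mul_le_mul_of_nonneg_left ?_ hq
    have h2 := mul_le_mul_of_nonneg_left hs (by linarith : 0 ≤ C₀ + 20 * C)
    have h3 := mul_le_mul_of_nonneg_left hs1 (by linarith : 0 ≤ C₀)
    linarith
  · have hden : 0 < C₀ + 40 * C := by linarith
    set ε' := ε / (C₀ + 40 * C) with hε'
    have hε'0 : 0 < ε' := div_pos hε hden
    set η := min ε 1 / 8 with hη
    have hη0 : 0 < η := by positivity
    have hη1 : η ≤ 1 / 8 := by have := min_le_right ε 1; linarith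
    have hηε : 8 * η ≤ ε := by have := min_le_left ε 1; linarith
    have hc₁ : (1 + η) ^ 2 / (1 - η) ≤ 1 + ε := by
      rw [div_le_iff₀ (by linarith)]
      nlinarith
    filter_upwards [(Nat.tendsto_div_const_atTop two_ne_zero).eventually (hG2 ε' hε'0),
      hG3 c ε' hc hε'0, eventually_ge_atTop 2] with K g2 g3 hK
    have e3 := p.eventually_Sc (Q := fun m _ => K ≤ m) (by
      filter_upwards [eventually_ge_atTop K] with m a _ _
      exact a)
    filter_upwards [key, e3, pi_le hPi hη0 (show η < 1 by linarith), ev_small CM hη0] with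
      x key e3 hpi' hsm m hm A hA hTu
    obtain ⟨hx, m2, t1, hX, hcount⟩ := key m hm
    have hKm := e3 m hm
    have hB := hm.1
    have hGp := fun L => (G_pos L hB).le
    have hq : 0 ≤ x / Real.log x := div_nonneg (by linarith) (Real.log_nonneg (by linarith))
    have hs := (g2 m _ hm (by omega)).2
    have hs1 : 1 ≤ ∑ L ∈ range (m - K / 2 + 1), G L (bigB x) := by
      rw [← G_zero (bigB x)]
      exact single_le_sum (f := fun L => G L (bigB x)) (fun L _ => hGp L) (mem_range.2 (by omega))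
    have ht : ∑ L ∈ Ico (m - K) m, G L (bigB x) / (1 + c) ^ (L - 1 - 0) ≤ ε' * G m (bigB x) :=
      (single_le_sum (f := fun k => ∑ L ∈ Ico (m - K) m, G L (bigB x) / (1 + c) ^ (L - 1 - k))
        (fun k _ => sum_nonneg fun L _ => div_nonneg (hGp L) (by positivity))
        (mem_range.2 (Nat.succ_pos _))).trans (g3 m _ hm hKm)
    have hH1 := H_union_le (range (m - K / 2 + 1)) (fun L => p.X h₀ m L L (bigB x))
      (fun L => C * G L (bigB x)) (fun L _ => mul_nonneg hC0 (hGp L)) fun L hL => by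
        have := mem_range.1 hL
        simpa [show L - 1 - L = 0 by omega] using hX L (by omega) L
    have hH2 := H_union_le (Ico (m - K) m) (fun L => p.X h₀ m L 0 (bigB x))
      (fun L => C * (G L (bigB x) / (1 + c) ^ (L - 1 - 0)))
      (fun L _ => mul_nonneg hC0 (div_nonneg (hGp L) (by positivity))) fun L hL => by
        rw [← mul_div_assoc]
        exact hX L (mem_Ico.1 hL).2 0
    rw [← mul_sum] at hH1 hH2
    have hε'G : 0 ≤ C * (ε' * G m (bigB x)) := mul_nonneg hC0 (mul_nonneg hε'0.le (hGp m))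
    have hH := (Mass_union_le _ _).trans (add_le_add
      (hH1.trans (ENNReal.ofReal_le_ofReal (mul_le_mul_of_nonneg_left hs hC0)))
      (hH2.trans (ENNReal.ofReal_le_ofReal (mul_le_mul_of_nonneg_left ht hC0))))
    rw [← ENNReal.ofReal_add hε'G hε'G] at hH
    have hh1 : ∀ j, 1 ≤ p.h h₀ j := fun j => h1.trans (p.le_h (by linarith) j)
    have hp19 : 1 ≤ p.h h₀ m ^ 19 := one_le_pow₀ (hh1 m)
    have := hcount (1 + ε) A _ _ _ (by linarith) hA (add_nonneg hε'G hε'G)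
      ((H_image_le _ _).trans hTu) hH fun n hn => by
        obtain ⟨L, hL, hg, hbad⟩ := first_bad p h₀ (by omega : 1 ≤ m) n
        by_cases hA : L < m - K / 2 + 1
        · exact .inr (.inl (Set.mem_biUnion (mem_coe.2 (mem_range.2 hA))
            (mem_X h1 hn.1 hg hL hbad hn.2.2 fun hk => absurd hk (lt_irrefl _))))
        by_cases hY : 9 / 10 * bigB x < ys (P n)
        · exact .inr (.inr (Set.mem_biUnion (mem_coe.2 (mem_Ico.2 ⟨by omega, hL⟩))
            (mem_X h1 hn.1 hg hL hbad hn.2.2 fun _ => fl_zero m2 (by rw [Par.tp]; linarith)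
              (by rw [Par.tp]; linarith) hn.2.2 hY)))
        refine .inl ⟨mem_Tu h1 hg hKm (by omega) hn.2.2, ?_⟩
        have h21 : p.h h₀ (m - 1 - 0) ^ 21 ≤ bigB x ^ 2 :=
          calc _ ≤ p.h h₀ m ^ 21 := pow_le_pow_left₀ (by linarith [hh1 (m - 1 - 0)])
                (p.h_mono (by linarith) (by omega)) _
            _ ≤ p.h h₀ m ^ (19 * 2) := pow_le_pow_right₀ (hh1 m) (by norm_num)
            _ ≤ _ := by
              rw [pow_mul]
              exact pow_le_pow_left₀ (by linarith) (by linarith) _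
        refine (hpi' _ (Nat.totient_pos.2 hn.1)
          (small hCM hx (hg 0 (by omega)) h21 (not_lt.1 hY) hsm)).trans ?_
        exact mul_le_mul_of_nonneg_right (mul_le_mul_of_nonneg_right hc₁ hq) (by positivity)
    refine this.trans (mul_le_mul_of_nonneg_left ?_ hq)
    have h2 : (C₀ + 40 * C) * ε' = ε := by rw [hε']; field_simp
    have h3 := mul_le_mul_of_nonneg_left (hs1.trans hs) (by linarith : 0 ≤ C₀)
    rw [← h2]
    linarith

end Crest.Agent.R20
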