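import Crest.Agent.R20.Basic

/-!
# Row 20: numbers violating the constraint have few totients (`ViStmt`)
-/

set_option autoImplicit false

noncomputable section

namespace Crest.Agent.R20

open Crest.NumberTheoryR.TotientScale Finset Filter Topology MeasureTheory
open scoped ENNReal ArithmeticFunction.Omega

namespace ViAux

variable {J : ℕ}

/-- number of lines of size `≥ c`. -/
def N (θ : Fin J → ℕ) (c : ℕ) : ℕ := (univ.filter fun i => c ≤ θ i).card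

/-- the weight of the size `c`. -/
def Gc (θ : Fin J → ℕ) (c : ℕ) : ℝ := Real.log (max 1 (N θ c) : ℕ)

/-- the weight of a prime. -/
def F (s : ℕ) (θ : Fin J → ℕ) (l : ℕ) : ℝ := if ys l ≤ s then 0 else Gc θ (ys l)

theorem N_le (θ : Fin J → ℕ) (c : ℕ) : N θ c ≤ J :=
  (card_le_univ _).trans (Fintype.card_fin J).le

theorem N_anti (θ : Fin J → ℕ) : Antitone (N θ) := fun _ _ h =>
  card_le_card fun _ hi => mem_filter.2 ⟨mem_univ _, h.trans (mem_filter.1 hi).2⟩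

theorem one_le_max (θ : Fin J → ℕ) (c : ℕ) : (1 : ℝ) ≤ (max 1 (N θ c) : ℕ) := by
  exact_mod_cast le_max_left _ _

theorem Gc_nonneg (θ : Fin J → ℕ) (c : ℕ) : 0 ≤ Gc θ c := Real.log_nonneg (one_le_max θ c)

theorem Gc_anti (θ : Fin J → ℕ) : Antitone (Gc θ) := fun _ b h =>
  Real.log_le_log (lt_of_lt_of_le one_pos (one_le_max θ b))
    (Nat.cast_le.2 (max_le_max le_rfl (N_anti θ h)))

theorem Gc_le (hJ : 1 ≤ J) (θ : Fin J → ℕ) (c : ℕ) : Gc θ c ≤ Real.log J :=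
  Real.log_le_log (lt_of_lt_of_le one_pos (one_le_max θ c))
    (Nat.cast_le.2 (max_le hJ (N_le θ c)))

theorem N_mul_Gc (θ : Fin J → ℕ) (c : ℕ) : (N θ c : ℝ) * Gc θ c - N θ c = Qf (N θ c) := by
  unfold Qf Gc
  rcases Nat.eq_zero_or_pos (N θ c) with h | h
  · simp [h]
  · rw [max_eq_right h]

theorem F_nonneg (s : ℕ) (θ : Fin J → ℕ) (l : ℕ) : 0 ≤ F s θ l := by
  unfold F
  split_ifs
  · exact le_rfl
  · exact Gc_nonneg _ _

theorem F_le (hJ : 1 ≤ J) (s : ℕ) (θ : Fin J → ℕ) (l : ℕ) : F s θ l ≤ Real.log J := by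
  unfold F
  split_ifs
  · exact Real.log_natCast_nonneg _
  · exact Gc_le hJ _ _

theorem layer {θ : Fin J → ℕ} {T : ℕ} (hT : ∀ i, θ i ≤ T) (g : ℕ → ℝ) :
    ∑ i, ∑ c ∈ Icc 1 (θ i), g c = ∑ c ∈ Icc 1 T, (N θ c : ℝ) * g c := by
  have e : ∀ i, ∑ c ∈ Icc 1 (θ i), g c = ∑ c ∈ Icc 1 T, if c ≤ θ i then g c else 0 := by
    intro i
    rw [← sum_filter]
    congr 1
    ext c
    have := hT i
    simp only [mem_Icc, mem_filter]
    omega
  simp only [e]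
  rw [sum_comm]
  refine sum_congr rfl fun c _ => ?_
  rw [← sum_filter, sum_const, nsmul_eq_mul, N]

theorem layer_one {θ : Fin J → ℕ} {T : ℕ} (hT : ∀ i, θ i ≤ T) :
    ∑ i, (θ i : ℝ) = ∑ c ∈ Icc 1 T, (N θ c : ℝ) := by
  simpa using layer hT fun _ => 1

/-- one normal prime. -/
theorem Ad_prime_ge (hJ : 1 ≤ J) {σ : ℝ} {s q : ℕ} (θ : Fin J → ℕ) (hq : q.Prime)
    (hn : Normal σ q) (hs : (s : ℝ) ≤ σ) (hsq : s ≤ ys q) :
    ∑ c ∈ Icc 1 (ys q), Gc θ c - 3 * σ * Real.log J ≤ Ad (F s θ) (q - 1) := by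
  have hσ : 0 ≤ σ := (Nat.cast_nonneg _).trans hs
  have hL : 0 ≤ Real.log J := Real.log_natCast_nonneg _
  have h1 := (abs_le.1 (hn.abel hq (Gc_anti θ) (Gc_nonneg θ))).1
  have h2 : Ad (fun l => Gc θ (ys l)) (q - 1) ≤
      Ad (fun l => F s θ l + if ys l ≤ s then Real.log J else 0) (q - 1) := by
    refine Ad_le_Ad fun l _ _ => ?_
    unfold F
    split_ifs
    · rw [zero_add]; exact Gc_le hJ _ _
    · rw [add_zero]
  rw [Ad_add, Ad_ite] at h2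
  have h3 := (abs_le.1 (hn s hsq)).2
  have h4 : Real.log J * (Om s (q - 1) : ℝ) ≤ Real.log J * (2 * σ) :=
    mul_le_mul_of_nonneg_left (by linarith) hL
  have h5 : σ * Gc θ 1 ≤ σ * Real.log J := mul_le_mul_of_nonneg_left (Gc_le hJ _ _) hσ
  linarith

/-- the lower bound for the additive function. -/
def bb (σ : ℝ) (T : ℕ) (θ : Fin J → ℕ) : ℝ :=
  ∑ c ∈ Icc 1 T, (N θ c : ℝ) * Gc θ c - J * (3 * σ * Real.log J) - Real.log J

theorem cover {h : ℝ} (h1 : 2 ≤ h) {j : ℕ} (hj : ((j : ℝ) + 1) ^ 2 ≤ h) {v : ℕ} (hv : v ∈ Vi h j) :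
    ∃ θ : Fin (j + 1) → ℕ, Antitone θ ∧ (∀ i, θ i ≤ ⌊h ^ 21⌋₊) ∧
      h ^ 19 - h ^ 13 ≤ ∑ i : Fin (j + 1), aCoef i * θ i ∧ v ∈ Sm (θ 0) ∧
      bb (h ^ 12) ⌊h ^ 21⌋₊ θ ≤ Ad (F ⌊h ^ 12⌋₊ θ) v := by
  classical
  obtain ⟨n, l, hn, hP, hU, hcon, hl, hvl⟩ := hv
  set s := ⌊h ^ 12⌋₊ with hs
  have h0 : 0 < h := by linarith
  have hσ : 0 ≤ h ^ 12 := by positivity
  have hs1 : (s : ℝ) ≤ h ^ 12 := Nat.floor_le hσ
  have hy : Antitone fun i => ys (pr n i) := fun a b hab => ys_mono (pr_antitone hn hab)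
  set θ : Fin (j + 1) → ℕ := fun i => if s < ys (pr n i) then ys (pr n i) else 0 with hθ
  have hanti : Antitone θ := by
    intro a b hab
    have := hy (show (a : ℕ) ≤ b from hab)
    simp only [hθ] at this ⊢
    split_ifs <;> omega
  have hT : ∀ i, θ i ≤ ⌊h ^ 21⌋₊ := by
    intro i
    have a1 : ys (P n) ≤ ⌊h ^ 21⌋₊ := Nat.le_floor hP
    have a2 := hy (Nat.zero_le i)
    simp only [hθ, pr_zero] at a2 ⊢
    split_ifs <;> omega
  have hsum : h ^ 19 - h ^ 13 ≤ ∑ i : Fin (j + 1), aCoef i * θ i := by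
    rw [← Fin.sum_univ_eq_sum_range (fun i => aCoef i * ys (pr n i))] at hcon
    have a1 : ∀ i : Fin (j + 1), aCoef i * ys (pr n i) ≤ aCoef i * θ i + (j + 1) * h ^ 12 := by
      intro i
      simp only [hθ]
      split_ifs with hi
      · have : (0 : ℝ) ≤ (j + 1) * h ^ 12 := by positivity
        linarith
      · have b1 : (ys (pr n i) : ℝ) ≤ h ^ 12 := (Nat.cast_le.2 (not_lt.1 hi)).trans hs1
        have b2 : aCoef i ≤ j + 1 := (aCoef_le i).trans (by exact_mod_cast i.2.le)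
        rw [Nat.cast_zero, mul_zero, zero_add]
        exact (mul_le_mul_of_nonneg_right b2 (Nat.cast_nonneg _)).trans
          (mul_le_mul_of_nonneg_left b1 (by positivity))
    have a2 := sum_le_sum fun i (_ : i ∈ univ) => a1 i
    rw [sum_add_distrib, sum_const, card_univ, Fintype.card_fin, nsmul_eq_mul] at a2
    have a3 : ((j + 1 : ℕ) : ℝ) * ((j + 1) * h ^ 12) ≤ h ^ 13 := by
      calc _ = ((j : ℝ) + 1) ^ 2 * h ^ 12 := by push_cast; ring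
        _ ≤ h * h ^ 12 := mul_le_mul_of_nonneg_right hj hσ
        _ = _ := by ring
    linarith
  have hφ : 0 < n.totient := Nat.totient_pos.2 hn
  have hv0 : 0 < v := Nat.pos_of_mul_pos_right (hvl ▸ hφ)
  have hl0 : 0 < l := Nat.pos_of_mul_pos_left (hvl ▸ hφ)
  have hθ0 : θ 0 = ys (P n) := by
    by_contra hne
    have a1 : θ 0 = 0 := by
      simp only [hθ, Fin.val_zero, pr_zero] at hne ⊢
      split_ifs at hne ⊢ with h'
      · exact absurd rfl hne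
      · rfl
    have a2 : ∀ i, θ i = 0 := fun i => Nat.eq_zero_of_le_zero (a1 ▸ hanti (Fin.zero_le i))
    simp only [a2, Nat.cast_zero, mul_zero, sum_const_zero] at hsum
    have : h ^ 13 < h ^ 19 := pow_lt_pow_right₀ (by linarith) (by norm_num)
    linarith
  refine ⟨θ, hanti, hT, hsum, ⟨hv0, ?_⟩, ?_⟩
  · rw [hθ0]
    exact ys_mono ((P_le_of_dvd hφ ⟨l, hvl.symm⟩).trans (P_totient_le hn))
  have hex : ∃ i, i = j + 1 ∨ ¬ s < ys (pr n i) := ⟨j + 1, Or.inl rfl⟩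
  set L := Nat.find hex with hL
  have hLJ : L ≤ j + 1 := Nat.find_min' hex (Or.inl rfl)
  have hlt : ∀ i < L, s < ys (pr n i) := fun i hi => by
    have := Nat.find_min hex hi
    tauto
  have hge : ∀ i, L ≤ i → i < j + 1 → ¬ s < ys (pr n i) := fun i hi hi' => by
    have a1 := Nat.find_spec hex
    have a2 := hy hi
    rw [← hL] at a1
    simp only at a2
    omega
  have hpr : ∀ i < L, (pr n i).Prime := fun i hi => by
    refine (P_prime_of_one_lt (lt_of_ys_lt ?_)).1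
    have := hlt i hi
    rw [ys_one]
    exact lt_of_le_of_lt (Nat.zero_le _) this
  have hsimple : ∀ i < L, pr n (i + 1) < pr n i := fun i hi => by
    by_contra hc
    have a1 := (hU _ (hpr i hi) (pr_dvd n i)).2 (sq_dvd_of_pr_eq hn hc)
    exact absurd (Nat.le_floor a1) (not_le.2 (hlt i hi))
  have hJ : 1 ≤ j + 1 := by omega
  have hpos : ∀ i ∈ range L, 0 < pr n i - 1 := fun i hi => by
    have := (hpr i (mem_range.1 hi)).two_le
    omega
  have e1 : Ad (F s θ) v + Ad (F s θ) l = ∑ i ∈ range L, Ad (F s θ) (pr n i - 1) +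
      Ad (F s θ) (D^[L] n).totient := by
    rw [← Ad_mul _ hv0 hl0, hvl, totient_iterate hsimple,
      Ad_mul _ (prod_pos hpos) (Nat.totient_pos.2 (iterate_D_pos hn L)), Ad_prod _ _ _ hpos]
  have e2 : Ad (F s θ) l ≤ Real.log (j + 1 : ℕ) := by
    rcases hl with rfl | hl
    · rw [Ad_one]; exact Real.log_natCast_nonneg _
    · rw [Ad_prime _ hl]; exact F_le hJ _ _ _
  have e3 := Ad_nonneg (fun l _ => F_nonneg s θ l) (D^[L] n).totient
  have e4 : ∑ i ∈ range L, (∑ c ∈ Icc 1 (ys (pr n i)), Gc θ c -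
      3 * h ^ 12 * Real.log (j + 1 : ℕ)) ≤ ∑ i ∈ range L, Ad (F s θ) (pr n i - 1) :=
    sum_le_sum fun i hi => Ad_prime_ge hJ θ (hpr i (mem_range.1 hi))
      (hU _ (hpr i (mem_range.1 hi)) (pr_dvd n i)).1 hs1 (hlt i (mem_range.1 hi)).le
  rw [sum_sub_distrib, sum_const, card_range, nsmul_eq_mul] at e4
  have e5 : ∑ i ∈ range L, ∑ c ∈ Icc 1 (ys (pr n i)), Gc θ c =
      ∑ i, ∑ c ∈ Icc 1 (θ i), Gc θ c := by
    rw [show ∑ i, ∑ c ∈ Icc 1 (θ i), Gc θ c = ∑ i ∈ range (j + 1),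
        ∑ c ∈ Icc 1 (if s < ys (pr n i) then ys (pr n i) else 0), Gc θ c from
      Fin.sum_univ_eq_sum_range (fun i =>
        ∑ c ∈ Icc 1 (if s < ys (pr n i) then ys (pr n i) else 0), Gc θ c) (j + 1),
      ← sum_subset (range_mono hLJ) fun i hi hi' => by
        rw [if_neg (hge i (not_lt.1 (mem_range.not.1 hi')) (mem_range.1 hi))]
        simp]
    exact sum_congr rfl fun i hi => by rw [if_pos (hlt i (mem_range.1 hi))]
  rw [e5, layer hT] at e4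
  have e6 : (L : ℝ) * (3 * h ^ 12 * Real.log (j + 1 : ℕ)) ≤
      (j + 1 : ℕ) * (3 * h ^ 12 * Real.log (j + 1 : ℕ)) :=
    mul_le_mul_of_nonneg_right (Nat.cast_le.2 hLJ)
      (mul_nonneg (by positivity) (Real.log_natCast_nonneg _))
  unfold bb
  linarith

theorem pattern {h : ℝ} (h1 : 2 ≤ h) {j : ℕ} (hj : ((j : ℝ) + 1) ^ 2 ≤ h)
    (hbig : ∀ l : ℕ, l.Prime → ⌊h ^ 12⌋₊ < ys l → 2 * h ^ 23 ≤ l)
    {θ : Fin (j + 1) → ℕ} (ha : Antitone θ) (hT : ∀ i, θ i ≤ ⌊h ^ 21⌋₊)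
    (hs : h ^ 19 - h ^ 13 ≤ ∑ i : Fin (j + 1), aCoef i * θ i) :
    H {v | v ∈ Sm (θ 0) ∧ bb (h ^ 12) ⌊h ^ 21⌋₊ θ ≤ Ad (F ⌊h ^ 12⌋₊ θ) v} ≤
      ENNReal.ofReal (Real.exp (6 * h ^ 13 - h ^ 19)) := by
  have h0 : 0 < h := by linarith
  have hJ1 : (1 : ℝ) ≤ (j : ℝ) + 1 := by linarith [Nat.cast_nonneg (α := ℝ) j]
  have hJh : (j : ℝ) + 1 ≤ h := (le_self_pow₀ hJ1 two_ne_zero).trans hj
  have h23 : h ≤ h ^ 23 := le_self_pow₀ (by linarith) (by norm_num)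
  have key : ∀ l ∈ Pr (θ 0), Real.exp (F ⌊h ^ 12⌋₊ θ l) < l ∧
      Real.exp (F ⌊h ^ 12⌋₊ θ l) / (l - Real.exp (F ⌊h ^ 12⌋₊ θ l)) ≤
        (1 + 1 / h ^ 22) * (N θ (ys l) * (1 / ((l : ℝ) - 1))) := by
    intro l hl
    obtain ⟨hl1, hl2⟩ := mem_Pr.1 hl
    have l2 : (2 : ℝ) ≤ l := by exact_mod_cast hl1.two_le
    have hN : 1 ≤ N θ (ys l) := card_pos.2 ⟨0, mem_filter.2 ⟨mem_univ _, hl2⟩⟩
    have hN1 : (1 : ℝ) ≤ N θ (ys l) := by exact_mod_cast hN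
    have hN2 : (N θ (ys l) : ℝ) ≤ h := le_trans (by exact_mod_cast N_le θ (ys l)) hJh
    have hη : 0 < 1 / h ^ 22 := by positivity
    have hi : 0 < 1 / ((l : ℝ) - 1) := one_div_pos.2 (by linarith)
    unfold F
    split_ifs with hc
    · rw [Real.exp_zero]
      refine ⟨by linarith, ?_⟩
      calc _ = 1 * (1 * (1 / ((l : ℝ) - 1))) := by ring
        _ ≤ _ := by gcongr; linarith
    · have b1 := hbig l hl1 (not_le.1 hc)
      rw [Gc, max_eq_right hN, Real.exp_log (by linarith)]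
      have b2 : h ^ 23 ≤ l - N θ (ys l) := by linarith
      have b3 : 0 < (l : ℝ) - N θ (ys l) := by linarith
      refine ⟨by linarith, ?_⟩
      have b4 : h ≤ 1 / h ^ 22 * ((l : ℝ) - N θ (ys l)) := by
        calc h = 1 / h ^ 22 * h ^ 23 := by field_simp
          _ ≤ _ := mul_le_mul_of_nonneg_left b2 hη.le
      have b5 : 1 / ((l : ℝ) - N θ (ys l)) ≤ (1 + 1 / h ^ 22) * (1 / ((l : ℝ) - 1)) := by
        rw [mul_one_div, div_le_div_iff₀ b3 (by linarith)]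
        linarith
      calc _ = N θ (ys l) * (1 / ((l : ℝ) - N θ (ys l))) := by ring
        _ ≤ N θ (ys l) * ((1 + 1 / h ^ 22) * (1 / ((l : ℝ) - 1))) :=
            mul_le_mul_of_nonneg_left b5 (Nat.cast_nonneg _)
        _ = _ := by ring
  refine (rankin _ _ (fun l hl => (key l hl).1) _).trans
    (ENNReal.ofReal_le_ofReal (Real.exp_le_exp.2 ?_))
  have a1 := sum_le_sum fun l hl => (key l hl).2
  rw [← mul_sum] at a1
  have a2 : ∑ l ∈ Pr (θ 0), (N θ (ys l) : ℝ) * (1 / ((l : ℝ) - 1)) ≤ ∑ i, (θ i : ℝ) := by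
    have e : ∀ l : ℕ, (N θ (ys l) : ℝ) * (1 / ((l : ℝ) - 1)) =
        ∑ i, if ys l ≤ θ i then 1 / ((l : ℝ) - 1) else 0 := fun l => by
      rw [← sum_filter, sum_const, nsmul_eq_mul, N]
    simp only [e]
    rw [sum_comm]
    refine sum_le_sum fun i _ => ?_
    rw [← sum_filter]
    refine le_trans (sum_le_sum_of_subset_of_nonneg (fun l hl => ?_) fun l hl _ => ?_)
      (sum_Pr_le (θ i))
    · exact mem_Pr.2 ⟨(mem_Pr.1 (mem_filter.1 hl).1).1, (mem_filter.1 hl).2⟩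
    · have l2 : (2 : ℝ) ≤ l := by exact_mod_cast (mem_Pr.1 hl).1.two_le
      exact one_div_nonneg.2 (by linarith)
  have a3 : ∑ i, (θ i : ℝ) ≤ h ^ 22 := by
    have b1 : ∀ i ∈ (univ : Finset (Fin (j + 1))), (θ i : ℝ) ≤ h ^ 21 := fun i _ =>
      (Nat.cast_le.2 (hT i)).trans (Nat.floor_le (by positivity))
    refine (sum_le_sum b1).trans ?_
    rw [sum_const, card_univ, Fintype.card_fin, nsmul_eq_mul, pow_succ' h 21]
    exact mul_le_mul_of_nonneg_right (by push_cast; exact hJh) (by positivity)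
  have a4 : (1 + 1 / h ^ 22) * ∑ l ∈ Pr (θ 0), (N θ (ys l) : ℝ) * (1 / ((l : ℝ) - 1)) ≤
      ∑ i, (θ i : ℝ) + 1 := by
    refine (mul_le_mul_of_nonneg_left a2 (by positivity)).trans ?_
    have : 1 / h ^ 22 * ∑ i, (θ i : ℝ) ≤ 1 := by
      rw [one_div, inv_mul_le_iff₀ (by positivity), mul_one]; exact a3
    linarith
  have a5 : ∑ c ∈ Icc 1 ⌊h ^ 21⌋₊, (N θ c : ℝ) * Gc θ c - ∑ i, (θ i : ℝ) =
      ∑ i : Fin (j + 1), aCoef i * θ i := by
    rw [layer_one hT, ← sum_sub_distrib, ← sum_Qf ha hT]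
    exact sum_congr rfl fun c _ => N_mul_Gc θ c
  have a6 : Real.log (j + 1 : ℕ) ≤ (j : ℝ) + 1 := by
    push_cast
    exact (Real.log_le_sub_one_of_pos (by linarith)).trans (by linarith)
  have a7 : ((j + 1 : ℕ) : ℝ) * (3 * h ^ 12 * Real.log (j + 1 : ℕ)) ≤ 3 * h ^ 13 := by
    calc _ ≤ ((j + 1 : ℕ) : ℝ) * (3 * h ^ 12 * ((j : ℝ) + 1)) := by gcongr
      _ = 3 * h ^ 12 * ((j : ℝ) + 1) ^ 2 := by push_cast; ring
      _ ≤ 3 * h ^ 12 * h := by gcongr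
      _ = _ := by ring
  have a8 : h ≤ h ^ 13 := le_self_pow₀ (by linarith) (by norm_num)
  unfold bb
  linarith

end ViAux

open ViAux in
theorem vi (hM : MertensStmt) : ViStmt := by
  classical
  obtain ⟨C, hC, hM⟩ := hM
  have hev : ∀ᶠ h : ℝ in atTop, 2 * h ^ 23 ≤ Real.exp h := by
    filter_upwards [((Real.isLittleO_pow_exp_atTop (n := 23)).const_mul_left 2).bound one_pos]
      with h hh
    rw [one_mul, Real.norm_eq_abs, Real.norm_eq_abs, abs_of_pos (Real.exp_pos _)] at hh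
    exact (le_abs_self _).trans hh
  filter_upwards [hev, eventually_ge_atTop C, eventually_ge_atTop 2] with h he hCh h2 j hj
  have h0 : 0 < h := by linarith
  have h1 : 1 ≤ h := by linarith
  have hbig : ∀ l : ℕ, l.Prime → ⌊h ^ 12⌋₊ < ys l → 2 * h ^ 23 ≤ l := by
    intro l hl hs
    have l1 : (1 : ℝ) < l := by exact_mod_cast hl.one_lt
    have a1 : h ^ 12 < ys l := Nat.lt_of_floor_lt hs
    have a2 := (abs_le.1 (hM l hl.two_le)).2
    have a3 : h ^ 2 ≤ h ^ 12 := pow_le_pow_right₀ h1 (by norm_num)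
    have a4 : Real.log (Real.log l) ≤ Real.log l - 1 :=
      Real.log_le_sub_one_of_pos (Real.log_pos l1)
    have a5 : h ≤ Real.log l := by nlinarith
    exact he.trans ((Real.le_log_iff_exp_le (by linarith)).1 a5)
  set T := ⌊h ^ 21⌋₊ with hT
  set Θ : Finset (Fin (j + 1) → ℕ) := (Fintype.piFinset fun _ => range (T + 1)).filter fun θ =>
    Antitone θ ∧ h ^ 19 - h ^ 13 ≤ ∑ i : Fin (j + 1), aCoef i * θ i with hΘ
  have hsub : Vi h j ⊆ ⋃ θ ∈ Θ, {v | v ∈ Sm (θ 0) ∧ bb (h ^ 12) T θ ≤ Ad (F ⌊h ^ 12⌋₊ θ) v} := by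
    intro v hv
    obtain ⟨θ, a1, a2, a3, a4, a5⟩ := cover h2 hj hv
    exact Set.mem_biUnion (x := θ) (mem_coe.2 (mem_filter.2 ⟨Fintype.mem_piFinset.2 fun i =>
      mem_range.2 (Nat.lt_succ_of_le (a2 i)), a1, a3⟩)) ⟨a4, a5⟩
  refine (Mass_mono hsub).trans ((Mass_biUnion_le _ _).trans ?_)
  have hb : ∀ θ ∈ Θ, Mass id {v | v ∈ Sm (θ 0) ∧ bb (h ^ 12) T θ ≤ Ad (F ⌊h ^ 12⌋₊ θ) v} ≤
      ENNReal.ofReal (Real.exp (6 * h ^ 13 - h ^ 19)) := fun θ hθ => by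
    obtain ⟨a1, a2, a3⟩ := mem_filter.1 hθ
    exact pattern h2 hj hbig a2
      (fun i => Nat.le_of_lt_succ (mem_range.1 (Fintype.mem_piFinset.1 a1 i))) a3
  refine (sum_le_sum hb).trans ?_
  rw [sum_const, nsmul_eq_mul, ← ENNReal.ofReal_natCast, ← ENNReal.ofReal_mul (Nat.cast_nonneg _)]
  refine ENNReal.ofReal_le_ofReal ?_
  have hJ1 : (1 : ℝ) ≤ (j : ℝ) + 1 := by linarith [Nat.cast_nonneg (α := ℝ) j]
  have hJh : (j : ℝ) + 1 ≤ h := (le_self_pow₀ hJ1 two_ne_zero).trans hj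
  have c1 : (Θ.card : ℝ) ≤ Real.exp (h ^ 2) := by
    have d1 : Θ.card ≤ (T + 1) ^ (j + 1) := by
      refine (card_filter_le _ _).trans ?_
      simp [Fintype.card_piFinset]
    have d2 : ((T + 1 : ℕ) : ℝ) ≤ Real.exp h := by
      have e1 : (T : ℝ) ≤ h ^ 21 := Nat.floor_le (by positivity)
      have e2 : h ^ 21 ≤ h ^ 23 := pow_le_pow_right₀ h1 (by norm_num)
      have e3 : 1 ≤ h ^ 23 := one_le_pow₀ h1
      push_cast
      linarith
    calc (Θ.card : ℝ) ≤ ((T + 1 : ℕ) : ℝ) ^ (j + 1) := by exact_mod_cast d1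
      _ ≤ Real.exp h ^ (j + 1) := by gcongr
      _ = Real.exp (((j : ℝ) + 1) * h) := by rw [← Real.exp_nat_mul]; push_cast; rfl
      _ ≤ _ := Real.exp_le_exp.2 (by nlinarith)
  refine (mul_le_mul_of_nonneg_right c1 (Real.exp_pos _).le).trans ?_
  rw [← Real.exp_add]
  refine Real.exp_le_exp.2 ?_
  have f1 : h ^ 2 ≤ h ^ 13 := pow_le_pow_right₀ h1 (by norm_num)
  have f2 : 2 ^ 6 ≤ h ^ 6 := pow_le_pow_left₀ (by norm_num) h2 6
  have f3 : h ^ 13 * 2 ^ 6 ≤ h ^ 13 * h ^ 6 := mul_le_mul_of_nonneg_left f2 (by positivity)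
  have f4 : h ^ 13 * h ^ 6 = h ^ 19 := by ring
  have f5 : 0 ≤ h ^ 13 := by positivity
  linarith

end Crest.Agent.R20
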