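import Crest.Agent.R20.Mertens
import Crest.Agent.R20.Brun
import Crest.Agent.R20.Sieve
import Crest.Agent.R20.NN
import Crest.Agent.R20.Vi
import Crest.Agent.R20.L
import Crest.Agent.R20.Bad
import Crest.Agent.R20.Bad0
import Crest.Agent.R20.Mat
import Crest.Agent.R20.Coll
import Crest.Agent.R20.Renew
import Crest.Agent.R20.Gsum
import Crest.Agent.R20.Simplex
import Crest.Agent.R20.Top
import Crest.Agent.R20.Master
import Crest.Agent.R20.Ord
import Crest.Agent.R20.Upper
import Crest.Agent.R20.Clean
import Crest.Agent.R20.Lower
import Crest.Agent.R20.Pos
import Crest.Agent.R20.Psi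
import Crest.Agent.R20.Limit
import Crest.Agent.R20.Main
import Crest.Agent.R20.Final

/-! # Row 20: all interface statements combined -/

namespace Crest.Agent.R20

theorem main_all : MainStmt :=
  have hS := sieve mertens (brun mertens)
  have hSm := smooth mertens
  have hNN := nn mertens hS hSm
  have hVi := vi mertens
  have hL := lstmt mertens hNN hVi
  have hB := bad mertens hVi hL
  have hC := coll (mat hS)
  have hG := gsum renew
  have hT := top renew simplex couple
  have hMa := master hT hB
  mainStmt hG (upper mertens piStmt (bad0 mertens hS hSm hNN hVi hL) hMa hG)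
    (lower mertens piStmt hNN hC (clean hNN hB hC hT)) (ord hMa hG) (pos renew simplex couple)
    (psiStmt renew simplex couple) (limit renew simplex)

end Crest.Agent.R20
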