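import Crest.Agent.R20.Defs

/-!
# Row 20: basic API (sizes, peeling, additive functions, masses, Euler products, parameters)
-/

set_option autoImplicit false

noncomputable section

namespace Crest.Agent.R20

open Crest.NumberTheoryR.TotientScale Finset Filter Topology MeasureTheory
open scoped ENNReal ArithmeticFunction.Omega

/-! ## sizes -/

theorem inv_pred_pos {p : ℕ} (hp : p.Prime) : (0 : ℝ) < 1 / ((p : ℝ) - 1) := by
  have : (2 : ℝ) ≤ p := by exact_mod_cast hp.two_le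
  exact one_div_pos.2 (by linarith)
theorem ms_mono : Monotone ms := by
  intro a b h
  refine sum_le_sum_of_subset_of_nonneg (filter_subset_filter _ (range_mono (by omega))) ?_
  intro p hp _
  exact (inv_pred_pos (mem_filter.1 hp).2).le
theorem ms_nonneg (n : ℕ) : 0 ≤ ms n :=
  sum_nonneg fun _ hp => (inv_pred_pos (mem_filter.1 hp).2).le
theorem ms_succ (n : ℕ) :
    ms (n + 1) = ms n + if (n + 1).Prime then 1 / (((n + 1 : ℕ) : ℝ) - 1) else 0 := by
  rw [ms, ms, sum_filter, sum_filter, sum_range_succ]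

theorem ys_mono : Monotone ys := by
  exact fun a b h => Nat.ceil_mono (ms_mono h)
@[simp] theorem ys_zero : ys 0 = 0 := by
  simp [ys, ms, filter_singleton, Nat.not_prime_zero]
@[simp] theorem ys_one : ys 1 = 0 := by
  have : ms 1 = 0 := by
    rw [ms, sum_filter]; simp [sum_range_succ, Nat.not_prime_zero, Nat.not_prime_one]
  simp [ys, this]
theorem one_le_ys {n : ℕ} (hn : 2 ≤ n) : 1 ≤ ys n := by
  refine le_trans ?_ (ys_mono hn)
  have : ms 2 = 1 := by
    rw [ms, sum_filter]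
    simp [sum_range_succ, Nat.not_prime_zero, Nat.not_prime_one, Nat.prime_two]
    norm_num
  simp [ys, this]
theorem mem_Pr {c l : ℕ} : l ∈ Pr c ↔ l.Prime ∧ ys l ≤ c := by
  simp [Pr]
theorem sum_Pr_le (c : ℕ) : ∑ l ∈ Pr c, 1 / ((l : ℝ) - 1) ≤ c := by
  rcases (Pr c).eq_empty_or_nonempty with h | h
  · simp [h]
  · have hm := mem_Pr.1 ((Pr c).max'_mem h)
    refine le_trans ?_ (Nat.ceil_le.1 hm.2)
    refine sum_le_sum_of_subset_of_nonneg (fun l hl => ?_) fun p hp _ =>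
      (inv_pred_pos (mem_filter.1 hp).2).le
    exact mem_filter.2 ⟨mem_range.2 (Nat.lt_succ_of_le ((Pr c).le_max' l hl)), (mem_Pr.1 hl).1⟩
theorem le_sum_Pr (c : ℕ) : (c : ℝ) - 1 ≤ ∑ l ∈ Pr c, 1 / ((l : ℝ) - 1) := by
  have hex : ∃ n, n.Prime ∧ c < ys n := by
    by_contra hcon
    push Not at hcon
    exact Nat.infinite_setOfPred_prime ((finite_ys c).subset fun l hl => ⟨hl, hcon l hl⟩)
  classical
  obtain ⟨hp, hc⟩ := Nat.find_spec hex
  set n := Nat.find hex with hn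
  have h2 := hp.two_le
  obtain ⟨k, hk⟩ : ∃ k, n = k + 1 := ⟨n - 1, by omega⟩
  have h1 : (c : ℝ) < ms n := Nat.lt_ceil.1 hc
  have h3 : ms n ≤ ms k + 1 := by
    rw [hk, ms_succ]
    split_ifs
    · have : (1 : ℝ) ≤ k := by exact_mod_cast (by omega : 1 ≤ k)
      push_cast
      have : 1 / ((k : ℝ) + 1 - 1) ≤ 1 := by
        rw [div_le_one (by linarith)]; linarith
      linarith
    · linarith
  have h4 : ms k ≤ ∑ l ∈ Pr c, 1 / ((l : ℝ) - 1) := by
    refine sum_le_sum_of_subset_of_nonneg (fun l hl => ?_) fun p hp _ =>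
      (inv_pred_pos (mem_Pr.1 hp).1).le
    obtain ⟨hl1, hl2⟩ := mem_filter.1 hl
    have := Nat.find_min hex (m := l) (by rw [← hn]; have := mem_range.1 hl1; omega)
    exact mem_Pr.2 ⟨hl2, by by_contra h; exact this ⟨hl2, by omega⟩⟩
  linarith
theorem lt_of_ys_lt {a b : ℕ} (h : ys a < ys b) : a < b := by
  exact lt_of_not_ge fun hab => absurd (ys_mono hab) (by omega)

/-! ## peeling -/

@[simp] theorem P_zero : P 0 = 1 := by
  simp [P]
@[simp] theorem P_one : P 1 = 1 := by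
  simp [P]
@[simp] theorem D_one : D 1 = 1 := by
  simp [D]
theorem one_le_P (n : ℕ) : 1 ≤ P n := by
  exact le_max_left _ _
theorem P_prime {n : ℕ} (hn : 2 ≤ n) : (P n).Prime := by
  have hne : n.primeFactors.Nonempty := Nat.nonempty_primeFactors.2 (by omega)
  obtain ⟨q, hq, he⟩ := exists_mem_eq_sup _ hne id
  have hp := Nat.prime_of_mem_primeFactors hq
  rw [P, he, id, max_eq_right hp.one_le]
  exact hp
theorem P_prime_of_one_lt {n : ℕ} (hn : 1 < P n) : (P n).Prime ∧ 2 ≤ n := by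
  have : 2 ≤ n := by
    by_contra h
    obtain rfl | rfl : n = 0 ∨ n = 1 := by omega
    all_goals simp at hn
  exact ⟨P_prime this, this⟩
theorem P_dvd (n : ℕ) : P n ∣ n := by
  rcases Nat.lt_or_ge n 2 with h | hn
  · obtain rfl | rfl : n = 0 ∨ n = 1 := by omega
    all_goals simp
  · have hne : n.primeFactors.Nonempty := Nat.nonempty_primeFactors.2 (by omega)
    obtain ⟨q, hq, he⟩ := exists_mem_eq_sup _ hne id
    rw [P, he, id, max_eq_right (Nat.prime_of_mem_primeFactors hq).one_le]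
    exact Nat.dvd_of_mem_primeFactors hq
theorem le_P {l n : ℕ} (hl : l.Prime) (hn : 0 < n) (h : l ∣ n) : l ≤ P n := by
  exact le_max_of_le_right (le_sup (f := id) (Nat.mem_primeFactors.2 ⟨hl, h, hn.ne'⟩))
theorem P_le {n b : ℕ} (hb : 1 ≤ b) (h : ∀ l, l.Prime → l ∣ n → l ≤ b) : P n ≤ b := by
  exact max_le hb (Finset.sup_le fun l hl =>
    h l (Nat.prime_of_mem_primeFactors hl) (Nat.dvd_of_mem_primeFactors hl))
theorem P_le_self {n : ℕ} (hn : 0 < n) : P n ≤ n := by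
  exact Nat.le_of_dvd hn (P_dvd n)
theorem P_le_of_dvd {a n : ℕ} (hn : 0 < n) (h : a ∣ n) : P a ≤ P n := by
  exact P_le (one_le_P n) fun l hl hla => le_P hl hn (hla.trans h)
theorem P_mul {a b : ℕ} (ha : 0 < a) (hb : 0 < b) : P (a * b) = max (P a) (P b) := by
  refine le_antisymm (P_le (le_max_of_le_left (one_le_P a)) fun l hl h => ?_) (max_le
    (P_le_of_dvd (Nat.mul_pos ha hb) (dvd_mul_right _ _))
    (P_le_of_dvd (Nat.mul_pos ha hb) (dvd_mul_left _ _)))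
  rcases (Nat.Prime.dvd_mul hl).1 h with h | h
  · exact le_max_of_le_left (le_P hl ha h)
  · exact le_max_of_le_right (le_P hl hb h)
theorem P_of_prime {q : ℕ} (hq : q.Prime) : P q = q := by
  exact le_antisymm (P_le_self hq.pos) (le_P hq hq.pos dvd_rfl)
theorem P_mul_D (n : ℕ) : P n * D n = n := by
  exact Nat.mul_div_cancel' (P_dvd n)
theorem D_pos {n : ℕ} (hn : 0 < n) : 0 < D n := by
  exact Nat.div_pos (P_le_self hn) (one_le_P n)
theorem D_dvd (n : ℕ) : D n ∣ n := by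
  exact Dvd.intro_left _ (P_mul_D n)
theorem iterate_D_pos {n : ℕ} (hn : 0 < n) (i : ℕ) : 0 < D^[i] n := by
  induction i with
  | zero => exact hn
  | succ i ih => rw [Function.iterate_succ_apply']; exact D_pos ih
theorem iterate_D_dvd (n i : ℕ) : D^[i] n ∣ n := by
  induction i with
  | zero => exact dvd_rfl
  | succ i ih => rw [Function.iterate_succ_apply']; exact (D_dvd _).trans ih
theorem P_prime_mul {q n : ℕ} (hq : q.Prime) (hn : 0 < n) (h : P n ≤ q) :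
    P (q * n) = q ∧ D (q * n) = n := by
  have h1 : P (q * n) = q := by rw [P_mul hq.pos hn, P_of_prime hq, max_eq_left h]
  exact ⟨h1, by rw [D, h1, Nat.mul_div_cancel_left _ hq.pos]⟩
@[simp] theorem pr_zero (n : ℕ) : pr n 0 = P n := rfl
theorem pr_iterate (n i s : ℕ) : pr (D^[i] n) s = pr n (i + s) := by
  rw [pr, pr, add_comm, Function.iterate_add_apply]
theorem pr_D (n s : ℕ) : pr (D n) s = pr n (s + 1) := rfl
theorem P_D_iterate (n i : ℕ) : P (D (D^[i] n)) = pr n (i + 1) := by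
  rw [pr, Function.iterate_succ_apply']
theorem pr_antitone {n : ℕ} (hn : 0 < n) : Antitone (pr n) := by
  refine antitone_nat_of_succ_le fun s => ?_
  rw [← P_D_iterate]
  exact P_le_of_dvd (iterate_D_pos hn s) (D_dvd _)
theorem pr_dvd (n s : ℕ) : pr n s ∣ n := by
  exact (P_dvd _).trans (iterate_D_dvd n s)
@[simp] theorem pr_one (s : ℕ) : pr 1 s = 1 := by
  rw [pr, Function.iterate_fixed D_one, P_one]
theorem sq_dvd_of_pr_eq {n s : ℕ} (hn : 0 < n) (h : ¬ pr n (s + 1) < pr n s) : pr n s ^ 2 ∣ n := by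
  have he : pr n (s + 1) = pr n s := le_antisymm (pr_antitone hn (Nat.le_succ s)) (not_lt.1 h)
  refine Dvd.dvd.trans ?_ (iterate_D_dvd n s)
  have h1 : pr n s ∣ D (D^[s] n) := by rw [← he, ← P_D_iterate]; exact P_dvd _
  rw [← P_mul_D (D^[s] n), _root_.sq]
  exact Nat.mul_dvd_mul_left _ h1
theorem P_totient_le {n : ℕ} (hn : 0 < n) : P n.totient ≤ P n := by
  refine P_le (one_le_P n) fun l hl h => ?_
  rw [Nat.totient_eq_div_primeFactors_mul] at h
  rcases (Nat.Prime.dvd_mul hl).1 h with h | h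
  · exact le_P hl hn (h.trans (Nat.div_dvd_of_dvd (Nat.prod_primeFactors_dvd n)))
  · obtain ⟨q, hq, hd⟩ := (Prime.dvd_finsetProd_iff hl.prime _).1 h
    have hp := Nat.prime_of_mem_primeFactors hq
    have := Nat.le_of_dvd (by have := hp.two_le; omega) hd
    have := le_P hp hn (Nat.dvd_of_mem_primeFactors hq)
    omega
theorem totient_eq {n : ℕ} (h : P (D n) < P n) : n.totient = (P n - 1) * (D n).totient := by
  obtain ⟨hp, hn⟩ := P_prime_of_one_lt (lt_of_le_of_lt (one_le_P _) h)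
  have hnd : ¬ P n ∣ D n := fun hd => absurd (le_P hp (D_pos (by omega)) hd) (by omega)
  conv_lhs => rw [← P_mul_D n]
  exact Nat.totient_mul_of_prime_of_not_dvd hp hnd
theorem totient_cases {q n : ℕ} (hq : q.Prime) (h : q ∣ n) :
    n.totient = (q - 1) * (n / q).totient ∨ n.totient = q * (n / q).totient := by
  obtain ⟨k, rfl⟩ := h
  rw [Nat.mul_div_cancel_left _ hq.pos]
  by_cases hk : q ∣ k
  · exact Or.inr (Nat.totient_mul_of_prime_of_dvd hq hk)
  · exact Or.inl (Nat.totient_mul_of_prime_of_not_dvd hq hk)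
theorem totient_iterate {n L : ℕ} (h : ∀ i < L, pr n (i + 1) < pr n i) :
    n.totient = (∏ i ∈ range L, (pr n i - 1)) * (D^[L] n).totient := by
  induction L with
  | zero => simp
  | succ L ih =>
    have h1 := h L (Nat.lt_succ_self L)
    rw [← P_D_iterate] at h1
    rw [ih fun i hi => h i (by omega), totient_eq h1, prod_range_succ,
      Function.iterate_succ_apply', mul_assoc]
    rfl
theorem finite_totient_le (W : ℕ) : {n : ℕ | 0 < n ∧ n.totient ≤ W}.Finite := by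
  refine (Set.finite_Iic (W * (W + 1).factorial)).subset fun n ⟨hn, hW⟩ => ?_
  have h1 := Nat.totient_eq_div_primeFactors_mul n
  have hpos : 0 < ∏ p ∈ n.primeFactors, (p - 1) := prod_pos fun p hp => by
    have := (Nat.prime_of_mem_primeFactors hp).two_le; omega
  have h2 : n / ∏ p ∈ n.primeFactors, p ≤ W :=
    le_trans (Nat.le_mul_of_pos_right _ hpos) (h1 ▸ hW)
  have h3 : ∏ p ∈ n.primeFactors, p ≤ (W + 1).factorial := by
    rw [← Finset.prod_Ico_id_eq_factorial]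
    refine prod_le_prod_of_subset_of_one_le' (fun p hp => ?_) fun i hi _ => (mem_Ico.1 hi).1
    have hpp := Nat.prime_of_mem_primeFactors hp
    have h4 : p - 1 ∣ n.totient := h1 ▸ Dvd.dvd.mul_left (dvd_prod_of_mem _ hp) _
    have := Nat.le_of_dvd (Nat.totient_pos.2 hn) h4
    have := hpp.two_le
    exact mem_Ico.2 ⟨by omega, by omega⟩
  calc n = n / (∏ p ∈ n.primeFactors, p) * ∏ p ∈ n.primeFactors, p :=
        (Nat.div_mul_cancel (Nat.prod_primeFactors_dvd n)).symm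
    _ ≤ _ := Nat.mul_le_mul h2 h3
theorem Sm_mono {c c' : ℕ} (h : c ≤ c') : Sm c ⊆ Sm c' := by
  exact fun n hn => ⟨hn.1, hn.2.trans h⟩
theorem mem_Sm {c n : ℕ} : n ∈ Sm c ↔ 0 < n ∧ ∀ l, l.Prime → l ∣ n → ys l ≤ c := by
  refine ⟨fun h => ⟨h.1, fun l hl hd => (ys_mono (le_P hl h.1 hd)).trans h.2⟩, fun h => ⟨h.1, ?_⟩⟩
  rcases Nat.lt_or_ge 1 (P n) with h1 | h1
  · exact h.2 _ (P_prime_of_one_lt h1).1 (P_dvd n)
  · rw [le_antisymm h1 (one_le_P n)]; simp
theorem Vs_subset (t : ℕ) : Vs t ⊆ Sm t := by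
  rintro _ ⟨n, hn, rfl⟩
  exact ⟨Nat.totient_pos.2 hn.1, (ys_mono (P_totient_le hn.1)).trans hn.2⟩
theorem Vs_mono {c c' : ℕ} (h : c ≤ c') : Vs c ⊆ Vs c' := by
  exact Set.image_mono (Sm_mono h)

/-! ## additive functions -/

@[simp] theorem Ad_one (F : ℕ → ℝ) : Ad F 1 = 0 := by
  simp [Ad]
theorem Ad_prime (F : ℕ → ℝ) {l : ℕ} (hl : l.Prime) : Ad F l = F l := by
  simp [Ad, Nat.primeFactorsList_prime hl]
theorem Ad_mul (F : ℕ → ℝ) {a b : ℕ} (ha : 0 < a) (hb : 0 < b) : Ad F (a * b) = Ad F a + Ad F b := by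
  rw [Ad, Ad, Ad, ((Nat.perm_primeFactorsList_mul ha.ne' hb.ne').map F).sum_eq, List.map_append,
    List.sum_append]
theorem Ad_prod {ι : Type*} (F : ℕ → ℝ) (s : Finset ι) (f : ι → ℕ) (h : ∀ i ∈ s, 0 < f i) :
    Ad F (∏ i ∈ s, f i) = ∑ i ∈ s, Ad F (f i) := by
  classical
  induction s using Finset.induction_on with
  | empty => simp
  | insert a s ha ih =>
    rw [prod_insert ha, sum_insert ha, Ad_mul F (h a (mem_insert_self _ _))
      (prod_pos fun i hi => h i (mem_insert_of_mem hi)), ih fun i hi => h i (mem_insert_of_mem hi)]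
theorem Ad_le_Ad {F F' : ℕ → ℝ} {n : ℕ} (h : ∀ l, l.Prime → l ∣ n → F l ≤ F' l) :
    Ad F n ≤ Ad F' n := by
  exact List.sum_le_sum fun l hl =>
    h l (Nat.prime_of_mem_primeFactorsList hl) (Nat.dvd_of_mem_primeFactorsList hl)
theorem Ad_nonneg {F : ℕ → ℝ} (h : ∀ l, l.Prime → 0 ≤ F l) (n : ℕ) : 0 ≤ Ad F n := by
  refine List.sum_nonneg fun x hx => ?_
  obtain ⟨l, hl, rfl⟩ := List.mem_map.1 hx
  exact h l (Nat.prime_of_mem_primeFactorsList hl)
theorem Ad_le_of_dvd {F : ℕ → ℝ} (h : ∀ l, l.Prime → 0 ≤ F l) {a n : ℕ} (hn : 0 < n) (ha : a ∣ n) :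
    Ad F a ≤ Ad F n := by
  obtain ⟨k, rfl⟩ := ha
  rw [Ad_mul F (Nat.pos_of_mul_pos_right hn) (Nat.pos_of_mul_pos_left hn)]
  linarith [Ad_nonneg h k]
theorem Ad_add (F F' : ℕ → ℝ) (n : ℕ) : Ad (fun l => F l + F' l) n = Ad F n + Ad F' n := by
  simp only [Ad, List.sum_map_add]
theorem Ad_const_mul (c : ℝ) (F : ℕ → ℝ) (n : ℕ) : Ad (fun l => c * F l) n = c * Ad F n := by
  simp only [Ad, List.sum_map_mul_left]
theorem Ad_const (c : ℝ) (n : ℕ) : Ad (fun _ => c) n = c * Ω n := by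
  simp [Ad, ArithmeticFunction.cardFactors_apply, mul_comm]
theorem Ad_ite (a : ℝ) (c n : ℕ) : Ad (fun l => if ys l ≤ c then a else 0) n = a * Om c n := by
  rw [Ad, Om]
  induction n.primeFactorsList with
  | nil => simp
  | cons x t ih =>
    rw [List.map_cons, List.sum_cons, ih, List.countP_cons]
    by_cases h : ys x ≤ c <;> simp [h]
    ring
theorem Ad_log {n : ℕ} (hn : 0 < n) : Ad (fun l => Real.log l) n = Real.log n := by
  have key : ∀ t : List ℕ, (∀ x ∈ t, 0 < x) →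
      (t.map fun l : ℕ => Real.log l).sum = Real.log (t.prod : ℕ) := by
    intro t
    induction t with
    | nil => simp
    | cons x t ih =>
      intro h
      have hx : (x : ℝ) ≠ 0 := by exact_mod_cast (h x (by simp)).ne'
      have ht : ((t.prod : ℕ) : ℝ) ≠ 0 := by
        exact_mod_cast (List.prod_pos fun y hy => h y (by simp [hy])).ne'
      rw [List.map_cons, List.sum_cons, List.prod_cons, Nat.cast_mul, Real.log_mul hx ht,
        ih fun y hy => h y (by simp [hy])]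
  rw [Ad, key _ fun x hx => (Nat.prime_of_mem_primeFactorsList hx).pos,
    Nat.prod_primeFactorsList hn.ne']
theorem Om_le_Omega (c n : ℕ) : Om c n ≤ Ω n := by
  rw [Om, ArithmeticFunction.cardFactors_apply]
  exact List.countP_le_length
theorem Om_eq_Omega {c n : ℕ} (h : n ∈ Sm c) : Om c n = Ω n := by
  rw [Om, ArithmeticFunction.cardFactors_apply, List.countP_eq_length]
  intro l hl
  simpa using (mem_Sm.1 h).2 l (Nat.prime_of_mem_primeFactorsList hl)
    (Nat.dvd_of_mem_primeFactorsList hl)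
theorem two_pow_Omega_le {n : ℕ} (hn : 0 < n) : 2 ^ Ω n ≤ n := by
  conv_rhs => rw [← Nat.prod_primeFactorsList hn.ne']
  rw [ArithmeticFunction.cardFactors_apply]
  exact List.pow_card_le_prod _ _ fun x hx => (Nat.prime_of_mem_primeFactorsList hx).two_le
theorem le_P_pow_Omega {n : ℕ} (hn : 0 < n) : n ≤ P n ^ Ω n := by
  conv_lhs => rw [← Nat.prod_primeFactorsList hn.ne']
  rw [ArithmeticFunction.cardFactors_apply]
  exact List.prod_le_pow_card _ _ fun x hx =>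
    le_P (Nat.prime_of_mem_primeFactorsList hx) hn (Nat.dvd_of_mem_primeFactorsList hx)
theorem Normal.mono {σ σ' : ℝ} {q : ℕ} (h : Normal σ q) (hσ : σ ≤ σ') : Normal σ' q := by
  exact fun c hc => (h c hc).trans hσ
theorem Ad_congr {F F' : ℕ → ℝ} {n : ℕ} (h : ∀ l, l.Prime → l ∣ n → F l = F' l) :
    Ad F n = Ad F' n :=
  le_antisymm (Ad_le_Ad fun l a b => (h l a b).le) (Ad_le_Ad fun l a b => (h l a b).ge)
theorem Om_zero (n : ℕ) : Om 0 n = 0 := by
  rw [Om, List.countP_eq_zero]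
  intro l hl
  have := one_le_ys (Nat.prime_of_mem_primeFactorsList hl).two_le
  simp; omega
theorem abel_aux {σ : ℝ} {n : ℕ} {F : ℕ → ℝ} (hF : Antitone F) (y : ℕ)
    (h : ∀ c ≤ y, |(Om c n : ℝ) - c| ≤ σ) :
    |Ad (fun l => if ys l ≤ y then F (ys l) else 0) n - ∑ c ∈ Icc 1 y, F c -
      F (y + 1) * (Om y n - y)| ≤ σ * (F 1 - F (y + 1)) := by
  induction y with
  | zero =>
    have : Ad (fun l => if ys l ≤ 0 then F (ys l) else 0) n = 0 := by
      rw [Ad_congr (F' := fun _ => 0) fun l hl _ => if_neg (by have := one_le_ys hl.two_le; omega),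
        Ad_const, zero_mul]
    rw [this, Om_zero]; simp
  | succ y ih =>
    have h1 := ih fun c hc => h c (by omega)
    have h2 := h (y + 1) le_rfl
    have h3 : Ad (fun l => if ys l ≤ y + 1 then F (ys l) else 0) n =
        Ad (fun l => if ys l ≤ y then F (ys l) else 0) n +
          (F (y + 1) * Om (y + 1) n + -F (y + 1) * Om y n) := by
      rw [← Ad_ite, ← Ad_ite, ← Ad_add, ← Ad_add]
      refine Ad_congr fun l _ _ => ?_
      by_cases a : ys l ≤ y
      · simp [a, (by omega : ys l ≤ y + 1)]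
      · by_cases b : ys l ≤ y + 1
        · simp [(by omega : ys l = y + 1)]
        · simp [a, b]
    have h4 : 0 ≤ F (y + 1) - F (y + 1 + 1) := sub_nonneg.2 (hF (by omega))
    rw [h3, sum_Icc_succ_top (by omega)]
    push_cast at h2 ⊢
    obtain ⟨a1, a2⟩ := abs_le.1 h1
    obtain ⟨b1, b2⟩ := abs_le.1 h2
    have c1 := mul_le_mul_of_nonneg_left b1 h4
    have c2 := mul_le_mul_of_nonneg_left b2 h4
    rw [abs_le]
    constructor <;> nlinarith
theorem pred_mem_Sm {q : ℕ} (hq : q.Prime) : q - 1 ∈ Sm (ys q) := by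
  have := hq.two_le
  exact ⟨by omega, ys_mono ((P_le_self (by omega)).trans (by omega))⟩

/-- Abel summation for normal primes. -/
theorem Normal.abel {σ : ℝ} {q : ℕ} (h : Normal σ q) (hq : q.Prime) {F : ℕ → ℝ} (hF : Antitone F)
    (hF0 : ∀ c, 0 ≤ F c) :
    |Ad (fun l => F (ys l)) (q - 1) - ∑ c ∈ Icc 1 (ys q), F c| ≤ σ * F 1 := by
  have h1 := abel_aux hF (ys q) h
  rw [Ad_congr (F' := fun l => F (ys l)) fun l hl hd =>
    if_pos ((mem_Sm.1 (pred_mem_Sm hq)).2 l hl hd)] at h1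
  obtain ⟨a1, a2⟩ := abs_le.1 h1
  obtain ⟨b1, b2⟩ := abs_le.1 (h (ys q) le_rfl)
  have c1 := mul_le_mul_of_nonneg_left b1 (hF0 (ys q + 1))
  have c2 := mul_le_mul_of_nonneg_left b2 (hF0 (ys q + 1))
  rw [abs_le]
  constructor <;> nlinarith
/-- a normal shifted prime has a large prime factor. -/
theorem Normal.le_P {σ : ℝ} {q : ℕ} (h : Normal σ q) (hq : q.Prime) :
    (ys q : ℝ) ≤ ys (P (q - 1)) + 2 * σ := by
  have h2 := hq.two_le
  have hs : q - 1 ∈ Sm (ys (P (q - 1))) := ⟨by omega, le_rfl⟩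
  have a := h _ (pred_mem_Sm hq).2
  have b := h _ le_rfl
  rw [Om_eq_Omega hs] at a
  rw [Om_eq_Omega (pred_mem_Sm hq)] at b
  linarith [(abs_le.1 a).2, (abs_le.1 b).1]

/-! ## the coefficients -/

theorem aCoef_eq (s : ℕ) : aCoef s = Qf (s + 1) - Qf s := by
  simp only [aCoef, Qf]; push_cast; ring
@[simp] theorem aCoef_zero : aCoef 0 = -1 := by
  simp [aCoef]
theorem aCoef_one : 0.386 ≤ aCoef 1 ∧ aCoef 1 ≤ 0.387 := by
  have h1 := Real.log_two_gt_d9
  have h2 := Real.log_two_lt_d9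
  simp only [aCoef, Nat.cast_one, Real.log_one]
  norm_num at h1 h2 ⊢
  constructor <;> linarith
theorem aCoef_two : 0.909 ≤ aCoef 2 ∧ aCoef 2 ≤ 0.91 := by
  have h1 := Real.log_two_gt_d9
  have h2 := Real.log_two_lt_d9
  have h3 := Real.log_three_gt_d9
  have h4 := Real.log_three_lt_d9
  simp only [aCoef, Nat.cast_ofNat]
  norm_num at h1 h2 h3 h4 ⊢
  constructor <;> linarith
theorem aCoef_le_log (s : ℕ) : aCoef s ≤ Real.log (s + 1) := by
  rcases Nat.eq_zero_or_pos s with rfl | hs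
  · simp
  have h0 : (0 : ℝ) < s := by exact_mod_cast hs
  have h1 := Real.log_le_sub_one_of_pos (x := (s + 1) / s) (by positivity)
  rw [Real.log_div (by positivity) h0.ne'] at h1
  have h2 := mul_le_mul_of_nonneg_left h1 h0.le
  have h3 : (s : ℝ) * ((s + 1) / s - 1) = 1 := by field_simp; ring
  rw [aCoef]; nlinarith
theorem log_le_aCoef {s : ℕ} (hs : 1 ≤ s) : Real.log s ≤ aCoef s := by
  have h0 : (0 : ℝ) < s := by exact_mod_cast hs
  have h1 := Real.log_le_sub_one_of_pos (x := s / (s + 1)) (by positivity)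
  rw [Real.log_div h0.ne' (by positivity)] at h1
  have h2 := mul_le_mul_of_nonneg_left h1 (by positivity : (0 : ℝ) ≤ s + 1)
  have h3 : ((s : ℝ) + 1) * (s / (s + 1) - 1) = -1 := by field_simp; ring
  rw [aCoef]; nlinarith

theorem aCoef_mono : Monotone aCoef := by
  refine monotone_nat_of_le_succ fun s => (aCoef_le_log s).trans ?_
  simpa using log_le_aCoef (s := s + 1) (by omega)
theorem aCoef_pos {s : ℕ} (hs : 1 ≤ s) : 0 < aCoef s := by
  exact lt_of_lt_of_le (by linarith [aCoef_one.1]) (aCoef_mono hs)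
theorem aCoef_le (s : ℕ) : aCoef s ≤ s := by
  refine (aCoef_le_log s).trans ?_
  have := Real.log_le_sub_one_of_pos (x := (s : ℝ) + 1) (by positivity)
  linarith
theorem Qf_mono {a b : ℕ} (ha : 1 ≤ a) (h : a ≤ b) : Qf a ≤ Qf b := by
  induction b, h using Nat.le_induction with
  | base => exact le_rfl
  | succ b hb ih => linarith [aCoef_eq b, aCoef_pos (ha.trans hb)]
theorem sum_aCoef (n : ℕ) : ∑ s ∈ range n, aCoef s = Qf n := by
  induction n with
  | zero => simp [Qf]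
  | succ n ih => rw [sum_range_succ, ih, aCoef_eq]; ring
/-- layer-cake formula for the constraint functional. -/
theorem sum_Qf {n T : ℕ} {θ : Fin n → ℕ} (hθ : Antitone θ) (hT : ∀ s, θ s ≤ T) :
    ∑ c ∈ Icc 1 T, Qf (univ.filter fun s => c ≤ θ s).card = ∑ s : Fin n, aCoef s * θ s := by
  have key : ∀ c, Qf (univ.filter fun s => c ≤ θ s).card =
      ∑ s : Fin n, if c ≤ θ s then aCoef s else 0 := by
    intro c
    set N := (univ.filter fun s => c ≤ θ s).card with hN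
    have hNn : N ≤ n := by simpa using card_filter_le (univ : Finset (Fin n)) fun s => c ≤ θ s
    have h1 : ∀ s : Fin n, c ≤ θ s ↔ (s : ℕ) < N := fun s =>
      (Fin.lt_card_filter_univ_iff_apply_of_imp (fun s => c ≤ θ s)
        fun i j hji hi => hi.trans (hθ hji)).symm
    simp only [h1]
    rw [Fin.sum_univ_eq_sum_range (fun s => if s < N then aCoef s else 0), ← sum_filter,
      ← sum_aCoef]
    congr 1
    ext s; simp; omega
  simp only [key]
  rw [sum_comm]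
  refine sum_congr rfl fun s _ => ?_
  rw [← sum_filter, sum_const, nsmul_eq_mul, mul_comm]
  congr 2
  have : (Icc 1 T).filter (fun c => c ≤ θ s) = Icc 1 (θ s) := by
    ext c; have := hT s; simp; omega
  rw [this]; simp
@[simp] theorem gSeq_zero : gSeq 0 = 1 := by
  simp [gSeq, gList]
theorem gList_getD (j : ℕ) : ∀ d ≤ j, (gList j).getD d 0 = gSeq (j - d) := by
  induction j with
  | zero => intro d hd; obtain rfl : d = 0 := by omega
            rfl
  | succ j ih =>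
    intro d hd
    cases d with
    | zero => rfl
    | succ d => rw [gList, List.getD_cons_succ, ih d (by omega), Nat.add_sub_add_right]

theorem gSeq_succ (j : ℕ) : gSeq (j + 1) = ∑ d ∈ range (j + 1), aCoef (d + 1) * gSeq (j - d) := by
  rw [gSeq, gList, List.getD_cons_zero]
  exact sum_congr rfl fun d hd => by rw [gList_getD j d (by have := mem_range.1 hd; omega)]
/-- the recursion in the form needed for `SimplexStmt`. -/
theorem gSeq_succ' (j : ℕ) :
    gSeq (j + 1) = aCoef (j + 1) + ∑ k ∈ range j, gSeq (k + 1) * aCoef (j - k) := by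
  rw [gSeq_succ, ← sum_range_reflect, sum_range_succ', add_comm]
  congr 1
  · simp
  · refine sum_congr rfl fun k hk => ?_
    have := mem_range.1 hk
    rw [mul_comm]
    congr 2 <;> omega
theorem gSeq_pos (j : ℕ) : 0 < gSeq j := by
  induction j using Nat.strong_induction_on with
  | _ j ih =>
    cases j with
    | zero => simp
    | succ j =>
      rw [gSeq_succ]
      exact sum_pos (fun d _ => mul_pos (aCoef_pos (by omega)) (ih _ (by omega))) ⟨0, by simp⟩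

/-! ## masses -/

section mass
variable {α β : Type*} {v : α → ℕ} {v' : β → ℕ}

theorem Mass_eq_tsum (v : α → ℕ) (S : Set α) :
    Mass v S = ∑' a, S.indicator (fun a => ((v a : ℕ) : ℝ≥0∞)⁻¹) a := by
  exact tsum_subtype S fun a => ((v a : ℕ) : ℝ≥0∞)⁻¹
@[simp] theorem Mass_empty : Mass v ∅ = 0 := by
  simp [Mass]
theorem Mass_mono {S S' : Set α} (h : S ⊆ S') : Mass v S ≤ Mass v S' := by
  exact ENNReal.tsum_mono_subtype (fun a => ((v a : ℕ) : ℝ≥0∞)⁻¹) h
theorem Mass_union_le (S S' : Set α) : Mass v (S ∪ S') ≤ Mass v S + Mass v S' := by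
  exact ENNReal.tsum_union_le (fun a => ((v a : ℕ) : ℝ≥0∞)⁻¹) S S'
theorem Mass_iUnion_le {ι : Type*} (S : ι → Set α) : Mass v (⋃ i, S i) ≤ ∑' i, Mass v (S i) := by
  simp only [Mass_eq_tsum]
  rw [ENNReal.tsum_comm]
  refine ENNReal.tsum_le_tsum fun a => ?_
  by_cases ha : a ∈ ⋃ i, S i
  · obtain ⟨i, hi⟩ := Set.mem_iUnion.1 ha
    refine le_trans ?_ (ENNReal.le_tsum i)
    rw [Set.indicator_of_mem ha, Set.indicator_of_mem hi]
  · rw [Set.indicator_of_notMem ha]; exact zero_le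
theorem Mass_biUnion_le {ι : Type*} (s : Finset ι) (S : ι → Set α) :
    Mass v (⋃ i ∈ s, S i) ≤ ∑ i ∈ s, Mass v (S i) := by
  exact ENNReal.tsum_biUnion_le (fun a => ((v a : ℕ) : ℝ≥0∞)⁻¹) s S
theorem Mass_le_of_injOn {S : Set α} {S' : Set β} (f : α → β) (hf : Set.InjOn f S)
    (hm : Set.MapsTo f S S') (hv : ∀ a ∈ S, v' (f a) ≤ v a) : Mass v S ≤ Mass v' S' := by
  refine le_trans (ENNReal.tsum_le_tsum fun a : S => ?_)
    (ENNReal.tsum_comp_le_tsum_of_injective (f := hm.restrict f S S') (hm.restrict_inj.2 hf)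
      fun b : S' => ((v' b : ℕ) : ℝ≥0∞)⁻¹)
  exact ENNReal.inv_le_inv.2 (by exact_mod_cast hv a a.2)
/-- every element of `S` comes from an element of `S'` which determines it. -/
theorem Mass_le_of_rel {S : Set α} {S' : Set β} (g : β → α)
    (h : ∀ a ∈ S, ∃ b ∈ S', g b = a ∧ v' b ≤ v a) : Mass v S ≤ Mass v' S' := by
  choose f hf hg hv using h
  refine le_trans (ENNReal.tsum_le_tsum fun a : S => ?_)
    (ENNReal.tsum_comp_le_tsum_of_injective (f := fun a : S => (⟨f a a.2, hf a a.2⟩ : S'))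
      (fun a b hab => Subtype.ext (by
        rw [← hg a a.2, ← hg b b.2]; exact congrArg g (congrArg Subtype.val hab)))
      fun b : S' => ((v' b : ℕ) : ℝ≥0∞)⁻¹)
  exact ENNReal.inv_le_inv.2 (by exact_mod_cast hv a a.2)
theorem H_image_le (v : α → ℕ) (S : Set α) : H (v '' S) ≤ Mass v S := by
  exact Mass_le_of_rel v (by rintro _ ⟨b, hb, rfl⟩; exact ⟨b, hb, rfl, le_rfl⟩)
theorem inv_natCast_mul (a b : ℕ) :
    ((a * b : ℕ) : ℝ≥0∞)⁻¹ = ((a : ℕ) : ℝ≥0∞)⁻¹ * ((b : ℕ) : ℝ≥0∞)⁻¹ := by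
  rw [Nat.cast_mul, ENNReal.mul_inv (Or.inr (by simp)) (Or.inl (by simp))]

theorem Mass_prod (S : Set α) (S' : Set β) :
    Mass (fun p : α × β => v p.1 * v' p.2) (S ×ˢ S') ≤ Mass v S * Mass v' S' := by
  simp only [Mass_eq_tsum]
  rw [ENNReal.tsum_prod', ← ENNReal.tsum_mul_right]
  refine ENNReal.tsum_le_tsum fun a => ?_
  rw [← ENNReal.tsum_mul_left]
  refine ENNReal.tsum_le_tsum fun b => ?_
  by_cases ha : a ∈ S <;> by_cases hb : b ∈ S' <;>
    simp [Set.indicator, ha, hb, ← inv_natCast_mul]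
theorem Mass_fiber (S : Set (α × β)) (_hv : ∀ p ∈ S, 0 < v p.1) :
    Mass (fun p : α × β => v p.1 * v' p.2) S =
      ∑' b, ((v' b : ℕ) : ℝ≥0∞)⁻¹ * Mass v {a | (a, b) ∈ S} := by
  simp only [Mass_eq_tsum]
  rw [ENNReal.tsum_prod', ENNReal.tsum_comm]
  refine tsum_congr fun b => ?_
  rw [← ENNReal.tsum_mul_left]
  refine tsum_congr fun a => ?_
  by_cases h : (a, b) ∈ S <;> simp [Set.indicator, h, ← inv_natCast_mul, mul_comm]
theorem H_mul_le (A B : Set ℕ) : H (Set.image2 (· * ·) A B) ≤ H A * H B := by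
  refine le_trans (Mass_le_of_rel (fun p : ℕ × ℕ => p.1 * p.2) ?_) (Mass_prod (v := id) (v' := id) A B)
  rintro _ ⟨a, ha, b, hb, rfl⟩
  exact ⟨(a, b), ⟨ha, hb⟩, rfl, le_rfl⟩
theorem ofReal_one_div {n : ℕ} (hn : 0 < n) :
    ENNReal.ofReal (1 / (n : ℝ)) = ((n : ℕ) : ℝ≥0∞)⁻¹ := by
  rw [one_div, ENNReal.ofReal_inv_of_pos (by exact_mod_cast hn), ENNReal.ofReal_natCast]

theorem Mass_coe (S : Finset α) (hv : ∀ a ∈ S, 0 < v a) :
    Mass v S = ENNReal.ofReal (∑ a ∈ S, 1 / (v a : ℝ)) := by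
  rw [Mass, Finset.tsum_subtype' S fun a => ((v a : ℕ) : ℝ≥0∞)⁻¹,
    ENNReal.ofReal_sum_of_nonneg fun a _ => by positivity]
  exact sum_congr rfl fun a ha => (ofReal_one_div (hv a ha)).symm
theorem Mass_le_ofReal {S : Set α} {c : ℝ} (hv : ∀ a ∈ S, 0 < v a)
    (h : ∀ A : Finset α, (∀ a ∈ A, a ∈ S) → ∑ a ∈ A, 1 / (v a : ℝ) ≤ c) :
    Mass v S ≤ ENNReal.ofReal c := by
  classical
  rw [Mass_eq_tsum, ENNReal.tsum_eq_iSup_sum]
  refine iSup_le fun A => ?_
  refine le_trans (le_of_eq ?_)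
    (ENNReal.ofReal_le_ofReal (h (A.filter (· ∈ S)) fun a ha => (mem_filter.1 ha).2))
  rw [ENNReal.ofReal_sum_of_nonneg fun a _ => by positivity, sum_filter]
  refine sum_congr rfl fun a _ => ?_
  by_cases ha : a ∈ S
  · rw [Set.indicator_of_mem ha, if_pos ha, ofReal_one_div (hv a ha)]
  · rw [Set.indicator_of_notMem ha, if_neg ha]
theorem sum_le_of_Mass_le {S : Set α} {c : ℝ} (hc : 0 ≤ c) (h : Mass v S ≤ ENNReal.ofReal c)
    (A : Finset α) (hA : ∀ a ∈ A, a ∈ S) : ∑ a ∈ A, 1 / (v a : ℝ) ≤ c := by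
  rw [← ENNReal.ofReal_le_ofReal_iff hc, ENNReal.ofReal_sum_of_nonneg fun a _ => by positivity]
  refine le_trans ?_ ((Mass_mono (S := (A : Set α)) hA).trans h)
  rw [Mass, Finset.tsum_subtype' A fun a => ((v a : ℕ) : ℝ≥0∞)⁻¹]
  refine sum_le_sum fun a _ => ?_
  rcases Nat.eq_zero_or_pos (v a) with h0 | h0
  · simp [h0]
  · exact (ofReal_one_div h0).le
theorem Mass_primes (c : ℕ) : Mass (fun q => q - 1) {q | q.Prime ∧ ys q ≤ c} ≤ c := by
  have : {q : ℕ | q.Prime ∧ ys q ≤ c} = (Pr c : Set ℕ) := by ext q; simp [mem_Pr]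
  rw [this, Mass_coe _ fun q hq => by have := (mem_Pr.1 hq).1.two_le; omega,
    ← ENNReal.ofReal_natCast]
  refine ENNReal.ofReal_le_ofReal (le_trans (le_of_eq (sum_congr rfl fun q hq => ?_)) (sum_Pr_le c))
  rw [Nat.cast_sub (mem_Pr.1 hq).1.one_le, Nat.cast_one]
theorem Mass_pi {ι : Type} [Fintype ι] (v : ι → α → ℕ) (S : ι → Set α) :
    Mass (fun q : ι → α => ∏ i, v i (q i)) {q | ∀ i, q i ∈ S i} ≤ ∏ i, Mass (v i) (S i) := by
  classical
  rw [Mass_eq_tsum, ENNReal.tsum_eq_iSup_sum]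
  refine iSup_le fun A => ?_
  let B : ι → Finset α := fun i => A.image (· i)
  let f : ι → α → ℝ≥0∞ := fun i => (S i).indicator fun a => ((v i a : ℕ) : ℝ≥0∞)⁻¹
  calc _ ≤ ∑ q ∈ A, ∏ i, f i (q i) := by
        refine sum_le_sum fun q _ => ?_
        by_cases hq : q ∈ {q : ι → α | ∀ i, q i ∈ S i}
        · rw [Set.indicator_of_mem hq, Nat.cast_prod,
            ENNReal.prod_inv_distrib fun i _ j _ _ => Or.inr (by simp)]
          exact le_of_eq (prod_congr rfl fun i _ => by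
            simp only [f]; rw [Set.indicator_of_mem (hq i)])
        · rw [Set.indicator_of_notMem hq]; exact zero_le
    _ ≤ ∑ q ∈ Fintype.piFinset B, ∏ i, f i (q i) :=
        sum_le_sum_of_subset fun q hq => Fintype.mem_piFinset.2 fun i => mem_image_of_mem _ hq
    _ = ∏ i, ∑ a ∈ B i, f i a := (prod_univ_sum B f).symm
    _ ≤ _ := prod_le_prod' fun i _ => by rw [Mass_eq_tsum]; exact ENNReal.sum_le_tsum _
theorem Mass_pv_primes (L c : ℕ) :
    Mass pv {q : Fin L → ℕ | ∀ i, (q i).Prime ∧ ys (q i) ≤ c} ≤ (c : ℝ≥0∞) ^ L := by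
  refine (Mass_pi (fun _ q => q - 1) fun _ : Fin L => {q : ℕ | q.Prime ∧ ys q ≤ c}).trans ?_
  refine (prod_le_prod' fun _ _ => Mass_primes c).trans (by simp)

end mass

/-! ## Euler products -/

theorem euler (F : ℕ → ℝ) (c : ℕ) (hF : ∀ l ∈ Pr c, Real.exp (F l) < l) (A : Finset ℕ)
    (hA : ∀ n ∈ A, n ∈ Sm c) :
    ∑ n ∈ A, Real.exp (Ad F n) / n ≤
      Real.exp (∑ l ∈ Pr c, Real.exp (F l) / (l - Real.exp (F l))) := by
  classical
  let f₀ : ℕ → ℝ := fun n => if n = 0 then 0 else Real.exp (Ad F n) / n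
  have hmul : ∀ a b, f₀ (a * b) = f₀ a * f₀ b := by
    intro a b
    rcases Nat.eq_zero_or_pos a with rfl | ha
    · simp [f₀]
    rcases Nat.eq_zero_or_pos b with rfl | hb
    · simp [f₀]
    simp only [f₀, if_neg ha.ne', if_neg hb.ne', if_neg (Nat.mul_pos ha hb).ne', Ad_mul F ha hb,
      Real.exp_add, Nat.cast_mul]
    ring
  let f : ℕ →* ℝ := ⟨⟨fun n => if n ∈ Sm c then f₀ n else 0, by
      have : 1 ∈ Sm c := ⟨one_pos, by simp⟩
      simp [this, f₀]⟩, by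
      intro a b
      by_cases ha : a ∈ Sm c
      · by_cases hb : b ∈ Sm c
        · have : a * b ∈ Sm c := mem_Sm.2 ⟨Nat.mul_pos ha.1 hb.1, fun l hl hd =>
            ((Nat.Prime.dvd_mul hl).1 hd).elim ((mem_Sm.1 ha).2 l hl) ((mem_Sm.1 hb).2 l hl)⟩
          simp [ha, hb, this, hmul]
        · have : a * b ∉ Sm c := fun h => hb (mem_Sm.2 ⟨Nat.pos_of_mul_pos_left h.1,
            fun l hl hd => (mem_Sm.1 h).2 l hl (hd.mul_left _)⟩)
          simp [hb, this]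
      · have : a * b ∉ Sm c := fun h => ha (mem_Sm.2 ⟨Nat.pos_of_mul_pos_right h.1,
          fun l hl hd => (mem_Sm.1 h).2 l hl (hd.mul_right _)⟩)
        simp [ha, this]⟩
  have hf : ∀ n, f n = if n ∈ Sm c then f₀ n else 0 := fun _ => rfl
  have hf0 : ∀ n, 0 ≤ f n := fun n => by
    rw [hf]; simp only [f₀]; split_ifs <;> positivity
  have hfp : ∀ l ∈ Pr c, f l = Real.exp (F l) / l := fun l hl => by
    obtain ⟨h1, h2⟩ := mem_Pr.1 hl
    have : l ∈ Sm c := ⟨h1.pos, by rwa [P_of_prime h1]⟩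
    simp [hf, this, f₀, h1.ne_zero, Ad_prime F h1]
  have hlt : ∀ {p : ℕ}, p.Prime → ‖f p‖ < 1 := fun {p} hp => by
    rw [Real.norm_of_nonneg (hf0 p)]
    by_cases h : p ∈ Pr c
    · rw [hfp p h, div_lt_one (by exact_mod_cast hp.pos)]; exact hF p h
    · have : p ∉ Sm c := fun h' => h (mem_Pr.2 ⟨hp, by simpa [P_of_prime hp] using h'.2⟩)
      simp [hf, this]
  have hs := (EulerProduct.summable_and_hasSum_factoredNumbers_prod_filter_prime_geometric
    hlt (Pr c)).2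
  have h1 : ∑ n ∈ A, Real.exp (Ad F n) / n ≤ ∏ p ∈ Pr c with p.Prime, (1 - f p)⁻¹ := by
    have h2 := sum_le_hasSum A (fun n _ => Set.indicator_nonneg (fun n _ => hf0 n) n)
      (hasSum_subtype_iff_indicator.1 hs)
    refine le_trans (le_of_eq (sum_congr rfl fun n hn => ?_)) h2
    have h3 := hA n hn
    have : n ∈ Nat.factoredNumbers (Pr c) := Nat.mem_factoredNumbers.2 ⟨h3.1.ne', fun p hp =>
      mem_Pr.2 ⟨Nat.prime_of_mem_primeFactorsList hp, (mem_Sm.1 h3).2 p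
        (Nat.prime_of_mem_primeFactorsList hp) (Nat.dvd_of_mem_primeFactorsList hp)⟩⟩
    rw [Set.indicator_of_mem this]
    simp [hf, h3, f₀, h3.1.ne']
  refine h1.trans ?_
  rw [filter_true_of_mem fun p hp => (mem_Pr.1 hp).1, Real.exp_sum]
  refine prod_le_prod (fun p hp => ?_) fun p hp => ?_
  · have := hlt (mem_Pr.1 hp).1
    rw [Real.norm_of_nonneg (hf0 p)] at this
    exact inv_nonneg.2 (by linarith)
  · have h0 : (0 : ℝ) < p := by exact_mod_cast (mem_Pr.1 hp).1.pos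
    have h4 := hF p hp
    refine le_trans (le_of_eq ?_) (Real.add_one_le_exp _)
    have : (p : ℝ) - Real.exp (F p) ≠ 0 := by linarith
    rw [hfp p hp]
    field_simp
    ring
/-- Rankin's trick. -/
theorem rankin (F : ℕ → ℝ) (c : ℕ) (hF : ∀ l ∈ Pr c, Real.exp (F l) < l) (b : ℝ) :
    H {n | n ∈ Sm c ∧ b ≤ Ad F n} ≤
      ENNReal.ofReal (Real.exp (∑ l ∈ Pr c, Real.exp (F l) / (l - Real.exp (F l)) - b)) := by
  refine Mass_le_ofReal (fun n hn => hn.1.1) fun A hA => ?_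
  have h1 := euler F c hF A fun n hn => (hA n hn).1
  rw [Real.exp_sub, le_div_iff₀ (Real.exp_pos b), sum_mul]
  refine le_trans (sum_le_sum fun n hn => ?_) h1
  rw [id, one_div, inv_mul_eq_div]
  exact div_le_div_of_nonneg_right (Real.exp_le_exp.2 (hA n hn).2) (Nat.cast_nonneg n)
theorem H_Sm_le (c : ℕ) : H (Sm c) ≤ ENNReal.ofReal (Real.exp c) := by
  have h := rankin (fun _ => 0) c (fun l hl => by
    rw [Real.exp_zero]; exact_mod_cast (mem_Pr.1 hl).1.one_lt) 0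
  refine le_trans (le_trans (Mass_mono fun n hn => ?_) h) ?_
  · exact ⟨hn, by simp [Ad_const]⟩
  refine ENNReal.ofReal_le_ofReal (Real.exp_le_exp.2 ?_)
  simpa using sum_Pr_le c
theorem H_Omega_le (c : ℕ) (b : ℝ) :
    H {n | n ∈ Sm c ∧ b ≤ Ω n} ≤ ENNReal.ofReal (Real.exp (3 * c - 2 / 5 * b)) := by
  have he : Real.exp (2 / 5) < 3 / 2 := by
    have h1 := Real.log_two_lt_d9
    have h2 := Real.log_three_gt_d9
    rw [← Real.lt_log_iff_exp_lt (by norm_num), Real.log_div (by norm_num) (by norm_num)]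
    linarith
  have h2 : ∀ l ∈ Pr c, (2 : ℝ) ≤ l := fun l hl => by exact_mod_cast (mem_Pr.1 hl).1.two_le
  have h := rankin (fun _ => 2 / 5) c (fun l hl => by linarith [h2 l hl]) (2 / 5 * b)
  refine le_trans (le_trans (Mass_mono fun n hn => ?_) h) ?_
  · exact ⟨hn.1, by rw [Ad_const]; linarith [hn.2]⟩
  refine ENNReal.ofReal_le_ofReal (Real.exp_le_exp.2 ?_)
  have h3 : ∑ l ∈ Pr c, Real.exp (2 / 5) / ((l : ℝ) - Real.exp (2 / 5)) ≤
      3 * ∑ l ∈ Pr c, 1 / ((l : ℝ) - 1) := by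
    rw [mul_sum]
    refine sum_le_sum fun l hl => ?_
    have := h2 l hl
    rw [mul_one_div, div_le_div_iff₀ (by linarith) (by linarith)]
    nlinarith
  linarith [sum_Pr_le c]

/-! ## parameters -/

theorem G_pos (L : ℕ) {B : ℝ} (hB : 0 < B) : 0 < G L B := by
  exact div_pos (pow_pos hB _) (mul_pos (by exact_mod_cast L.factorial_pos)
    (prod_pos fun i _ => gSeq_pos _))
@[simp] theorem G_zero (B : ℝ) : G 0 B = 1 := by
  simp [G]
theorem G_succ (L : ℕ) (B : ℝ) : G (L + 1) B = G L B * (B / ((L + 1) * gSeq (L + 1))) := by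
  rw [G, G, prod_range_succ, Nat.factorial_succ, div_mul_div_comm, pow_succ]
  push_cast
  congr 1
  ring
theorem Par.h_mono (p : Par) {h₀ : ℝ} (h : 0 ≤ h₀) : Monotone (p.h h₀) := by
  exact fun a b hab => mul_le_mul_of_nonneg_left (pow_le_pow_right₀ p.one_lt.le hab) h
theorem Par.le_h (p : Par) {h₀ : ℝ} (h : 0 ≤ h₀) (j : ℕ) : h₀ ≤ p.h h₀ j := by
  simpa [Par.h] using p.h_mono h (Nat.zero_le j)
theorem Par.h_pow (p : Par) (h₀ : ℝ) (j : ℕ) : p.h h₀ j ^ 20 * p.ρ ^ j = h₀ ^ 20 := by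
  rw [Par.h, mul_pow, ← pow_mul, mul_comm j, pow_mul, mul_assoc, ← mul_pow, p.pow, one_pow, mul_one]
theorem Par.eventually_h (p : Par) {Q : ℝ → Prop} (hQ : ∀ᶠ h in atTop, Q h) :
    ∀ᶠ h₀ in atTop, 1 ≤ h₀ ∧ ∀ j : ℕ, Q (p.h h₀ j) ∧ ((j : ℝ) + 1) ^ 2 ≤ p.h h₀ j := by
  obtain ⟨a, ha⟩ := eventually_atTop.1 hQ
  have h1 := (tendsto_pow_const_div_const_pow_of_one_lt 2 p.one_lt).comp (tendsto_add_atTop_nat 1)
  obtain ⟨C, hC⟩ := h1.bddAbove_range
  have h0 : 0 < p.ϱ := by linarith [p.one_lt]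
  filter_upwards [eventually_ge_atTop 1, eventually_ge_atTop a, eventually_ge_atTop (C * p.ϱ)]
    with h₀ b1 b2 b3
  refine ⟨b1, fun j => ⟨ha _ (b2.trans (p.le_h (by linarith) j)), ?_⟩⟩
  have h2 := hC ⟨j, rfl⟩
  simp only [Function.comp] at h2
  rw [div_le_iff₀ (by positivity)] at h2
  push_cast at h2
  refine h2.trans ?_
  rw [pow_succ, Par.h]
  nlinarith [pow_pos h0 j]
theorem tendsto_bigB : Tendsto bigB atTop atTop :=
  Real.tendsto_log_atTop.comp Real.tendsto_log_atTop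
theorem Par.Sc.κ₂_pos {p : Par} {m : ℕ} {B : ℝ} (h : p.Sc m B) : 0 < p.κ₂ :=
  p.κ_pos.trans_le (h.2.1.trans h.2.2)
theorem Par.Sc.kap_mul {p : Par} {m : ℕ} {B : ℝ} (h : p.Sc m B) :
    kap p.ρ m B * (p.ρ ^ m * B) = m :=
  div_mul_cancel₀ _ (mul_pos (pow_pos p.ρ_pos m) h.1).ne'
theorem Par.Sc.le {p : Par} {m : ℕ} {B : ℝ} (h : p.Sc m B) :
    p.κ₁ * (p.ρ ^ m * B) ≤ m ∧ (m : ℝ) ≤ p.κ₂ * (p.ρ ^ m * B) := by
  have h0 := (mul_pos (pow_pos p.ρ_pos m) h.1).le
  rw [← h.kap_mul]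
  exact ⟨mul_le_mul_of_nonneg_right h.2.1 h0, mul_le_mul_of_nonneg_right h.2.2 h0⟩

theorem Par.eventually_Sc (p : Par) {Q : ℕ → ℝ → Prop}
    (hQ : ∀ᶠ m in atTop, ∀ B, p.Sc m B → Q m B) :
    ∀ᶠ x : ℝ in atTop, ∀ m, p.Sc m (bigB x) → Q m (bigB x) := by
  obtain ⟨a, ha⟩ := eventually_atTop.1 hQ
  filter_upwards [tendsto_bigB.eventually_gt_atTop (a / (p.κ₁ * p.ρ ^ a))] with x hx m hm
  refine ha m ?_ _ hm
  by_contra hlt
  have h1 := hm.le.1
  have h2 : p.ρ ^ a ≤ p.ρ ^ m := pow_le_pow_of_le_one p.ρ_pos.le p.ρ_lt.le (by omega)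
  have h3 : (m : ℝ) ≤ a := by exact_mod_cast (by omega : m ≤ a)
  have h4 := mul_pos p.κ_pos (pow_pos p.ρ_pos a)
  rw [div_lt_iff₀ h4] at hx
  have h5 := mul_le_mul_of_nonneg_left (mul_le_mul_of_nonneg_right h2 hm.1.le) p.κ_pos.le
  nlinarith
/-- position of the budget with respect to the top parameter. -/
theorem Par.eventually_top (p : Par) {h₀ : ℝ} (h : 1 ≤ h₀) (C : ℝ) : ∀ᶠ m : ℕ in atTop, ∀ B,
    p.Sc m B → C * p.h h₀ m ^ 19 ≤ B ∧ C * B ≤ p.h h₀ m ^ 21 ∧ C * (m : ℝ) ^ 2 ≤ B := by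
  have h0 : 0 < p.ϱ := by linarith [p.one_lt]
  have hK : 0 < max p.κ₂ 1 := lt_of_lt_of_le one_pos (le_max_right _ _)
  have t1 : Tendsto (fun m : ℕ => p.ϱ ^ m) atTop atTop := tendsto_pow_atTop_atTop_of_one_lt p.one_lt
  have t2 := tendsto_pow_const_div_const_pow_of_one_lt 1 p.one_lt
  have t3 := tendsto_self_mul_const_pow_of_lt_one p.ρ_pos.le p.ρ_lt
  have hC : 0 < |C| + 1 := by positivity
  filter_upwards [eventually_ge_atTop 1, t1.eventually_ge_atTop (|C| * h₀ ^ 19 * max p.κ₂ 1),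
    t2.eventually_le_const (div_pos p.κ_pos hC),
    t3.eventually_le_const (one_div_pos.2 (mul_pos hC hK))] with m m1 m2 m3 m4 B hB
  obtain ⟨s1, s2⟩ := hB.le
  have hBp := hB.1
  have hm : (1 : ℝ) ≤ m := by exact_mod_cast m1
  set y := p.ϱ ^ m with hy
  set r := p.ρ ^ m with hr
  have hy0 : 0 < y := pow_pos h0 m
  have hr0 : 0 < r := pow_pos p.ρ_pos m
  have hyr : y ^ 20 * r = 1 := by
    rw [hy, hr, ← pow_mul, mul_comm m, pow_mul, ← mul_pow, p.pow, one_pow]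
  have hh : p.h h₀ m = h₀ * y := rfl
  have s3 : (m : ℝ) ≤ max p.κ₂ 1 * (r * B) :=
    s2.trans (mul_le_mul_of_nonneg_right (le_max_left _ _) (by positivity))
  have hCa := le_abs_self C
  have hC0 := abs_nonneg C
  refine ⟨?_, ?_, ?_⟩
  · -- y^20 ≤ K B
    have a1 : y ^ 20 ≤ max p.κ₂ 1 * B := by
      calc y ^ 20 ≤ y ^ 20 * (max p.κ₂ 1 * (r * B)) :=
            le_mul_of_one_le_right (by positivity) (hm.trans s3)
        _ = max p.κ₂ 1 * B * (y ^ 20 * r) := by ring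
        _ = _ := by rw [hyr, mul_one]
    have a2 : max p.κ₂ 1 * (|C| * (h₀ * y) ^ 19) ≤ max p.κ₂ 1 * B := by
      calc _ = |C| * h₀ ^ 19 * max p.κ₂ 1 * y ^ 19 := by ring
        _ ≤ y * y ^ 19 := mul_le_mul_of_nonneg_right m2 (by positivity)
        _ = y ^ 20 := by ring
        _ ≤ _ := a1
    rw [hh]
    exact (mul_le_mul_of_nonneg_right hCa (by positivity)).trans (le_of_mul_le_mul_left a2 hK)
  · have a1 : p.κ₁ * B ≤ m * y ^ 20 := by
      calc p.κ₁ * B = p.κ₁ * (r * B) * y ^ 20 := by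
            rw [← mul_one (p.κ₁ * B), ← hyr]; ring
        _ ≤ _ := mul_le_mul_of_nonneg_right s1 (by positivity)
    rw [pow_one, div_le_div_iff₀ hy0 hC] at m3
    have a2 : p.κ₁ * ((|C| + 1) * B) ≤ p.κ₁ * y ^ 21 := by
      calc _ = (|C| + 1) * (p.κ₁ * B) := by ring
        _ ≤ (|C| + 1) * (m * y ^ 20) := mul_le_mul_of_nonneg_left a1 hC.le
        _ = m * (|C| + 1) * y ^ 20 := by ring
        _ ≤ p.κ₁ * y * y ^ 20 := mul_le_mul_of_nonneg_right m3 (by positivity)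
        _ = _ := by ring
    have a3 := le_of_mul_le_mul_left a2 p.κ_pos
    have a4 : y ^ 21 ≤ (h₀ * y) ^ 21 :=
      pow_le_pow_left₀ hy0.le (le_mul_of_one_le_left hy0.le h) _
    rw [hh]
    nlinarith
  · rw [le_div_iff₀ (mul_pos hC hK)] at m4
    have a1 : (|C| + 1) * (m : ℝ) ^ 2 ≤ B := by
      calc _ = (|C| + 1) * m * m := by ring
        _ ≤ (|C| + 1) * m * (max p.κ₂ 1 * (r * B)) := mul_le_mul_of_nonneg_left s3 (by positivity)
        _ = m * r * ((|C| + 1) * max p.κ₂ 1) * B := by ring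
        _ ≤ _ := mul_le_of_le_one_left hBp.le m4
    nlinarith [sq_nonneg (m : ℝ)]
theorem Par.R_finite (p : Par) (h₀ : ℝ) (K : ℕ) : (p.R h₀ K).Finite := by
  set T := ⌊p.h h₀ (K - 1) ^ 21⌋₊
  refine (finite_totient_le (((Pr T).sup id + 1) ^ ⌊10 * p.h h₀ (K - 1) ^ 21⌋₊)).subset fun r hr => ?_
  have g : Good (p.h h₀ (K - 1)) (K - 1) r := hr 0 (Nat.zero_le _)
  obtain ⟨hp, h2⟩ := P_prime_of_one_lt (lt_of_le_of_lt (one_le_P _) g.lt)
  have hr0 : 0 < r := by omega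
  refine ⟨hr0, (le_P_pow_Omega (Nat.totient_pos.2 hr0)).trans ?_⟩
  have h3 : P r ≤ (Pr T).sup id := le_sup (f := id) (mem_Pr.2 ⟨hp, Nat.le_floor g.le⟩)
  have h4 := P_totient_le hr0
  exact (Nat.pow_le_pow_left (by omega) _).trans
    (Nat.pow_le_pow_right (Nat.succ_pos _) (Nat.le_floor g.om))
theorem Par.R_adm (p : Par) {h₀ : ℝ} (h : 1 ≤ h₀) :
    ∀ᶠ K : ℕ in atTop, ∀ r ∈ p.R h₀ K, Adm (p.h h₀ K) (K - K / 2) r := by
  have h0 : 0 < p.ϱ := by linarith [p.one_lt]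
  have t1 : Tendsto (fun m : ℕ => p.ϱ ^ m) atTop atTop := tendsto_pow_atTop_atTop_of_one_lt p.one_lt
  filter_upwards [eventually_ge_atTop 2, t1.eventually_ge_atTop (h₀ ^ 9)] with K h2 hK r hr
  have key : p.h h₀ (K - 1 - (K - K / 2)) ^ 21 ≤ p.h h₀ K ^ 12 := by
    rw [Par.h, Par.h, mul_pow, mul_pow, ← pow_mul, ← pow_mul]
    have a1 : p.ϱ ^ ((K - 1 - (K - K / 2)) * 21) ≤ p.ϱ ^ (K * 11) :=
      pow_le_pow_right₀ p.one_lt.le (by omega)
    calc _ = h₀ ^ 12 * (h₀ ^ 9 * p.ϱ ^ ((K - 1 - (K - K / 2)) * 21)) := by ring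
      _ ≤ h₀ ^ 12 * (p.ϱ ^ K * p.ϱ ^ (K * 11)) := by gcongr
      _ = _ := by ring
  have g := hr _ le_rfl
  obtain ⟨-, h3⟩ := P_prime_of_one_lt (lt_of_le_of_lt (one_le_P _) (hr 0 (Nat.zero_le _)).lt)
  refine ⟨lt_of_lt_of_le two_pos h3, fun i hi => ?_, fun i hi => ?_, g.le.trans key,
    g.om.trans (by linarith)⟩
  · rw [← P_D_iterate]; exact (hr i hi.le).lt
  · refine (hr i hi.le).nor.mono (pow_le_pow_left₀ ?_ (p.h_mono (by linarith) (by omega)) _)
    exact le_trans (by linarith) (p.le_h (by linarith) _)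
theorem Good.pos {h : ℝ} {j n : ℕ} (g : Good h j n) : 0 < n := by
  exact lt_of_lt_of_le two_pos (P_prime_of_one_lt (lt_of_le_of_lt (one_le_P _) g.lt)).2
theorem Good.prime {h : ℝ} {j n : ℕ} (g : Good h j n) : (P n).Prime := by
  exact (P_prime_of_one_lt (lt_of_le_of_lt (one_le_P _) g.lt)).1
theorem sq_nonneg' {L : ℕ} (q : Fin L → ℕ) (n i : ℕ) : 0 ≤ sq q n i := by
  unfold sq; split_ifs <;> positivity
theorem sq_fin {L : ℕ} (q : Fin L → ℕ) (n : ℕ) (i : Fin L) : sq q n i = ys (q i) := by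
  simp [sq]
theorem sq_add {L : ℕ} (q : Fin L → ℕ) (n s : ℕ) : sq q n (L + s) = ys (pr n s) := by
  simp [sq]
theorem sq_pr (L n i : ℕ) : sq (fun s : Fin L => pr n s) (D^[L] n) i = ys (pr n i) := by
  unfold sq
  split_ifs with h
  · rfl
  · rw [pr_iterate, Nat.add_sub_cancel' (not_lt.1 h)]
theorem Con.mono {m L L' : ℕ} {B : ℝ} {t t' Y : ℕ → ℝ} (h : Con m L B t Y) (hL : L' ≤ L)
    (ht : ∀ j, t j ≤ t' j) : Con m L' B t' Y := by
  exact ⟨h.1.trans (by linarith [ht m]),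
    fun k hk => (h.2 k (by omega)).trans (by linarith [ht (m - 1 - k)])⟩
/-- truncation of a size sequence after the level `L`. -/
theorem Con.trunc {m L k : ℕ} {B : ℝ} {t Y : ℕ → ℝ} (h0 : ∀ i, 0 ≤ Y i) (h : Con m L B t Y)
    (hF : k < L → Fl m k Y) :
    Con m L B t (fun i => if i < L then Y i else 0) ∧
      (k < L → Fl m k fun i => if i < L then Y i else 0) := by
  have hle : ∀ i, (if i < L then Y i else 0) ≤ Y i := fun i => by
    split_ifs
    · exact le_rfl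
    · exact h0 i
  have hs : ∀ k, ∑ i ∈ Ioo k m, aCoef (i - k) * (if i < L then Y i else 0) ≤
      ∑ i ∈ Ioo k m, aCoef (i - k) * Y i := fun k => sum_le_sum fun i hi =>
    mul_le_mul_of_nonneg_left (hle i) (aCoef_pos (by have := (mem_Ioo.1 hi).1; omega)).le
  refine ⟨⟨le_trans (sum_le_sum fun i _ =>
    mul_le_mul_of_nonneg_left (hle i) (aCoef_pos (by omega)).le) h.1, fun k hk => ?_⟩, fun hk => ?_⟩
  · simp only [if_pos hk]
    exact (hs k).trans (h.2 k hk)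
  · have := hF hk
    unfold Fl at this ⊢
    simp only [if_pos hk]
    linarith [hs k, hle (k + 1)]
/-- a failure of the ordering forces a large slack. -/
theorem Fl_of_le {m k : ℕ} {Y : ℕ → ℝ} (h0 : ∀ i, 0 ≤ Y i) (hk : k + 1 < m)
    (h : ∑ i ∈ Ioo k m, aCoef (i - k + 1) * Y i ≤ Y k) : Fl m k Y := by
  have h1 : k + 1 ∈ Ioo k m := mem_Ioo.2 ⟨by omega, hk⟩
  have h2 := single_le_sum (f := fun i => (aCoef (i - k + 1) - aCoef (i - k)) * Y i)
    (fun i _ => mul_nonneg (sub_nonneg.2 (aCoef_mono (Nat.le_succ _))) (h0 i)) h1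
  simp only [sub_mul, sum_sub_distrib, Nat.add_sub_cancel_left] at h2
  have h3 := aCoef_one.2
  have h4 := aCoef_two.1
  have h5 := h0 (k + 1)
  unfold Fl
  norm_num at h2 h3 h4 ⊢
  nlinarith
/-- the constraint of a good number in the form of `Con`. -/
theorem Good.con' {h : ℝ} {m k n : ℕ} (hk : k < m) (g : Good h (m - 1 - k) n) {Y : ℕ → ℝ}
    (hY : ∀ s, Y (k + s) = ys (pr n s)) :
    ∑ i ∈ Ioo k m, aCoef (i - k) * Y i ≤ Y k + h ^ 19 := by
  have h1 := g.con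
  rw [sum_range_succ'] at h1
  have h2 : ∑ i ∈ Ioo k m, aCoef (i - k) * Y i =
      ∑ s ∈ range (m - 1 - k), aCoef (s + 1) * ys (pr n (s + 1)) := by
    rw [← Ico_add_one_left_eq_Ioo, sum_Ico_eq_sum_range, (by omega : m - (k + 1) = m - 1 - k)]
    refine sum_congr rfl fun s _ => ?_
    rw [← hY, (by omega : k + 1 + s - k = s + 1), (by omega : k + 1 + s = k + (s + 1))]
  have h3 := hY 0
  rw [add_zero] at h3
  rw [h2, h3]
  rw [aCoef_zero] at h1
  linarith

/-! ## tuple surgery -/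

/-- the full sequence of primes: first the tuple, then the primes of `r`. -/
def zq {M : ℕ} (q : Fin M → ℕ) (r i : ℕ) : ℕ := if h : i < M then q ⟨i, h⟩ else pr r (i - M)

/-- the block `Z a, …, Z (a + n - 1)`. -/
def blk (Z : ℕ → ℕ) (a n : ℕ) : Fin n → ℕ := fun i => Z (a + i)

/-- inverse of the splitting of `(q, φ r)` into a head and a tail. -/
def glue (M : ℕ) {L n : ℕ} (a : Fin L → ℕ) (b : (Fin n → ℕ) × ℕ) : (Fin M → ℕ) × ℕ :=
  (fun i => if h : (i : ℕ) < L then a ⟨i, h⟩ else if h' : i - L < n then b.1 ⟨i - L, h'⟩ else 0,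
    (∏ i : Fin n, if M ≤ L + (i : ℕ) then b.1 i - 1 else 1) * b.2)

section tuple
variable {M : ℕ} (q : Fin M → ℕ) (r : ℕ)

theorem sq_eq_zq (i : ℕ) : sq q r i = ys (zq q r i) := by
  unfold sq zq; split_ifs <;> rfl
theorem zq_fin (i : Fin M) : zq q r i = q i := by
  simp [zq]
theorem zq_lt {i : ℕ} (h : i < M) : zq q r i = q ⟨i, h⟩ := by
  simp [zq, h]
theorem zq_add (s : ℕ) : zq q r (M + s) = pr r s := by
  simp [zq]
theorem blk_zq : blk (zq q r) 0 M = q := by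
  funext i; simp [blk, zq]
theorem pv_blk (Z : ℕ → ℕ) (a n : ℕ) : pv (blk Z a n) = ∏ i ∈ Ico a (a + n), (Z i - 1) := by
  rw [prod_Ico_eq_prod_range, Nat.add_sub_cancel_left]
  exact Fin.prod_univ_eq_prod_range (fun i => Z (a + i) - 1) n
theorem prod_zq_Ico (κ : ℕ) :
    ∏ i ∈ Ico M (M + κ), (zq q r i - 1) = ∏ i ∈ range κ, (pr r i - 1) := by
  rw [prod_Ico_eq_prod_range, Nat.add_sub_cancel_left]
  exact prod_congr rfl fun i _ => by rw [zq_add]

theorem tv_split {L n κ : ℕ} (hL : L ≤ M) (hn : L + n = M + κ)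
    (h : ∀ i < κ, pr r (i + 1) < pr r i) : tv (q, r.totient) =
      pv (blk (zq q r) 0 L) * tv (blk (zq q r) L n, (D^[κ] r).totient) := by
  have h1 : pv q = ∏ i ∈ Ico 0 M, (zq q r i - 1) := by
    conv_lhs => rw [← blk_zq q r, pv_blk, zero_add]
  rw [tv, tv, pv_blk, pv_blk, h1, totient_iterate h, ← prod_zq_Ico q r κ, zero_add, hn, ← mul_assoc,
    ← mul_assoc, prod_Ico_consecutive _ (Nat.zero_le _) (by omega),
    prod_Ico_consecutive _ (Nat.zero_le _) (by omega)]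
theorem glue_blk {L n κ : ℕ} (hL : L ≤ M) (hn : L + n = M + κ)
    (h : ∀ i < κ, pr r (i + 1) < pr r i) :
    glue M (blk (zq q r) 0 L) (blk (zq q r) L n, (D^[κ] r).totient) = (q, r.totient) := by
  refine Prod.ext (funext fun i => ?_) ?_
  · have := i.2
    simp only [glue, blk]
    split_ifs with h1 h2
    · simp [zq_fin]
    · rw [Nat.add_sub_cancel' (not_lt.1 h1), zq_fin]
    · omega
  · simp only [glue, blk]
    rw [totient_iterate h, ← prod_zq_Ico q r κ,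
      Fin.prod_univ_eq_prod_range (fun i => if M ≤ L + i then zq q r (L + i) - 1 else 1) n]
    congr 1
    have := prod_Ico_eq_prod_range (fun i => if M ≤ i then zq q r i - 1 else 1) L (L + n)
    rw [Nat.add_sub_cancel_left] at this
    rw [← this, ← prod_filter, hn]
    congr 1
    ext i; simp; omega
theorem zq_blk (κ : ℕ) : zq (blk (zq q r) 0 (M + κ)) (D^[κ] r) = zq q r := by
  funext i
  by_cases h : i < M + κ
  · rw [zq_lt _ _ h, blk, zero_add]
  · obtain ⟨s, rfl⟩ : ∃ s, i = M + κ + s := ⟨i - (M + κ), by omega⟩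
    rw [zq_add, pr_iterate, add_assoc, zq_add]
theorem zq_cons (a i : ℕ) : zq (Fin.cons a q : Fin (M + 1) → ℕ) r (i + 1) = zq q r i := by
  by_cases h : i < M
  · rw [zq_lt _ _ h, zq_lt _ _ (Nat.succ_lt_succ h)]
    exact Fin.cons_succ (α := fun _ => ℕ) a q ⟨i, h⟩
  · obtain ⟨s, rfl⟩ : ∃ s, i = M + s := ⟨i - M, by omega⟩
    rw [zq_add, (by omega : M + s + 1 = M + 1 + s), zq_add]
theorem tv_cons (a w : ℕ) : tv ((Fin.cons a q : Fin (M + 1) → ℕ), w) = (a - 1) * tv (q, w) := by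
  simp [tv, pv, Fin.prod_univ_succ, mul_assoc]
/-- the value of an ordered tuple is a totient. -/
theorem totient_tuple (hq : ∀ i, (q i).Prime) (ha : StrictAnti q) (hr : 0 < r)
    (h : ∀ i, P r < q i) : ((∏ i, q i) * r).totient = tv (q, r.totient) := by
  induction M with
  | zero => simp [tv, pv]
  | succ M ih =>
    have h1 := ih (Fin.tail q) (fun i => hq _) (fun i j hij => ha (Fin.succ_lt_succ_iff.2 hij))
      fun i => h _
    have hnd : ¬ q 0 ∣ (∏ i, Fin.tail q i) * r := by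
      intro hd
      rcases (Nat.Prime.dvd_mul (hq 0)).1 hd with hd | hd
      · obtain ⟨i, -, hi⟩ := (Prime.dvd_finsetProd_iff (hq 0).prime _).1 hd
        exact absurd (Nat.le_of_dvd (hq _).pos hi) (not_le.2 (ha (Fin.succ_pos i)))
      · exact absurd (le_P (hq 0) hr hd) (not_le.2 (h 0))
    conv_rhs => rw [← Fin.cons_self_tail q, tv_cons, ← h1]
    rw [Fin.prod_univ_succ, mul_assoc]
    exact Nat.totient_mul_of_prime_of_not_dvd (hq 0) hnd
/-- the full sequence of an ordered tuple is strictly decreasing on `[0, M + κ]`. -/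
theorem zq_succ_lt {κ : ℕ} (ha : StrictAnti q) (h : ∀ i, P r < q i)
    (h' : ∀ i < κ, pr r (i + 1) < pr r i) {i : ℕ} (hi : i < M + κ) :
    zq q r (i + 1) < zq q r i := by
  rcases lt_trichotomy (i + 1) M with h1 | h1 | h1
  · rw [zq_lt _ _ h1, zq_lt _ _ (by omega : i < M)]
    exact ha (Fin.mk_lt_mk.2 (Nat.lt_succ_self i))
  · rw [zq_lt _ _ (by omega : i < M), h1]
    exact (zq_add q r 0).trans_lt (h _)
  · obtain ⟨s, rfl⟩ : ∃ s, i = M + s := ⟨i - M, by omega⟩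
    rw [add_assoc, zq_add, zq_add]
    exact h' s (by omega)

end tuple

/-- splitting of a family into heads and tails. -/
theorem Mass_split {M L n κ : ℕ} (hL : L ≤ M) (hn : L + n = M + κ) {S : Set ((Fin M → ℕ) × ℕ)}
    {S₁ : Set (Fin L → ℕ)} {S₂ : Set ((Fin n → ℕ) × ℕ)}
    (h : ∀ τ ∈ S, ∃ r : ℕ, r.totient = τ.2 ∧ (∀ i < κ, pr r (i + 1) < pr r i) ∧
      blk (zq τ.1 r) 0 L ∈ S₁ ∧ (blk (zq τ.1 r) L n, (D^[κ] r).totient) ∈ S₂) :
    Mass tv S ≤ Mass pv S₁ * Mass tv S₂ := by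
  refine le_trans (Mass_le_of_rel (fun p => glue M p.1 p.2) fun τ hτ => ?_) (Mass_prod S₁ S₂)
  obtain ⟨q, w⟩ := τ
  obtain ⟨r, rfl, h1, h2, h3⟩ := h _ hτ
  exact ⟨(_, _), ⟨h2, h3⟩, glue_blk q r hL hn h1, (tv_split q r hL hn h1).ge⟩
/-- extension of the tuples of a family by primes of `r`. -/
theorem Mass_ext {M n κ : ℕ} (hn : n = M + κ) {S : Set ((Fin M → ℕ) × ℕ)}
    {S₂ : Set ((Fin n → ℕ) × ℕ)}
    (h : ∀ τ ∈ S, ∃ r : ℕ, r.totient = τ.2 ∧ (∀ i < κ, pr r (i + 1) < pr r i) ∧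
      (blk (zq τ.1 r) 0 n, (D^[κ] r).totient) ∈ S₂) : Mass tv S ≤ Mass tv S₂ := by
  have h1 : Mass pv (Set.univ : Set (Fin 0 → ℕ)) ≤ 1 := by
    simpa using Mass_pv_primes 0 0
  refine (Mass_split (L := 0) (κ := κ) (S₁ := Set.univ) (Nat.zero_le M) (by omega) fun τ hτ => ?_).trans
    (mul_le_of_le_one_left' h1)
  obtain ⟨r, a, b, c⟩ := h τ hτ
  exact ⟨r, a, b, trivial, c⟩
theorem Mass_tv_prod {n : ℕ} (S : Set (Fin n → ℕ)) (W : Set ℕ) :
    Mass tv (S ×ˢ W) ≤ Mass pv S * H W := by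
  exact Mass_prod (v := pv) (v' := id) S W
theorem Mass_pv_cons {n : ℕ} (S₀ : Set ℕ) (S : Set (Fin n → ℕ)) :
    Mass pv {q : Fin (n + 1) → ℕ | q 0 ∈ S₀ ∧ Fin.tail q ∈ S} ≤
      Mass (fun q => q - 1) S₀ * Mass pv S := by
  refine le_trans (Mass_le_of_rel (fun p : ℕ × (Fin n → ℕ) => Fin.cons p.1 p.2) fun q hq => ?_)
    (Mass_prod S₀ S)
  exact ⟨(q 0, Fin.tail q), hq, Fin.cons_self_tail q, by simp [pv, Fin.prod_univ_succ, Fin.tail]⟩
theorem obj_blk {h : ℝ} {κ a w : ℕ} {Z : ℕ → ℕ}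
    (hp : ∀ i ≤ κ, (Z (a + i)).Prime ∧ Normal (h ^ 12) (Z (a + i)))
    (ha : ∀ i < κ, Z (a + i + 1) < Z (a + i)) (hle : (ys (Z a) : ℝ) ≤ h ^ 21) (hw : 0 < w)
    (hs : (ys (P w) : ℝ) ≤ h ^ 12) (ho : (Ω w : ℝ) ≤ 10 * h ^ 12)
    (hc : ∑ i ∈ range (κ + 1), aCoef i * ys (Z (a + i)) ≤ -h ^ 19) :
    Obj h (blk Z a (κ + 1), w) := by
  refine ⟨fun i => (hp i (Nat.lt_succ_iff.1 i.2)).1, Fin.strictAnti_iff_succ_lt.2 fun i => ha i i.2,
    fun i => (hp i (Nat.lt_succ_iff.1 i.2)).2, hle, hw, hs, ho, ?_⟩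
  exact (Fin.sum_univ_eq_sum_range (fun i => aCoef i * ys (Z (a + i))) (κ + 1)).trans_le hc

end Crest.Agent.R20
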