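import Crest.Agent.R20.Basic

/-!
# Row 20: encoding of a collision by a matrix
-/

set_option autoImplicit false

noncomputable section

namespace Crest.Agent.R20

open Crest.NumberTheoryR.TotientScale Finset Filter Topology MeasureTheory
open scoped ENNReal ArithmeticFunction.Omega

namespace CollAux

open Classical

/-! ## refinement -/

theorem exists_split {ι : Type} (t : Finset ι) (c : ι → ℕ) (a : ℕ) (h : a ∣ ∏ j ∈ t, c j) :
    ∃ d : ι → ℕ, (∀ j, d j ∣ c j) ∧ ∏ j ∈ t, d j = a := by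
  induction t using Finset.induction_on generalizing a with
  | empty => exact ⟨fun _ => 1, fun _ => one_dvd _, by simpa [eq_comm] using h⟩
  | insert j t hj ih =>
    rw [prod_insert hj] at h
    obtain ⟨a₁, a₂, h1, h2, rfl⟩ := exists_dvd_and_dvd_of_dvd_mul h
    obtain ⟨d, hd, hp⟩ := ih a₂ h2
    refine ⟨Function.update d j a₁, fun k => ?_, ?_⟩
    · by_cases hk : k = j
      · subst hk
        simpa using h1
      · simpa [hk] using hd k
    · rw [prod_insert hj, Function.update_self, ← hp]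
      congr 1
      exact prod_congr rfl fun k hk => Function.update_of_ne (ne_of_mem_of_not_mem hk hj) _ _

theorem exists_matrix' {ι ι' : Type} [Fintype ι'] (s : Finset ι) (r : ι → ℕ) (hr : ∀ i, 0 < r i)
    (c : ι' → ℕ) (h : ∏ i ∈ s, r i = ∏ j, c j) :
    ∃ d : ι → ι' → ℕ, (∀ i ∈ s, ∏ j, d i j = r i) ∧ ∀ j, ∏ i ∈ s, d i j = c j := by
  induction s using Finset.induction_on generalizing c with
  | empty =>
    refine ⟨fun _ _ => 1, by simp, fun j => ?_⟩
    rw [prod_empty] at h ⊢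
    exact (Nat.dvd_one.1 (h ▸ dvd_prod_of_mem c (mem_univ j))).symm
  | insert a s ha ih =>
    rw [prod_insert ha] at h
    obtain ⟨e, he, hp⟩ := exists_split univ c (r a) ⟨_, h.symm⟩
    choose c' hc' using he
    have h2 : ∏ i ∈ s, r i = ∏ j, c' j := by
      refine Nat.eq_of_mul_eq_mul_left (hr a) ?_
      rw [h, ← hp, ← prod_mul_distrib]
      exact prod_congr rfl fun j _ => hc' j
    obtain ⟨d, hd1, hd2⟩ := ih c' h2
    refine ⟨Function.update d a e, fun i hi => ?_, fun j => ?_⟩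
    · by_cases hia : i = a
      · subst hia
        simpa using hp
      · rw [Function.update_of_ne hia]
        exact hd1 i ((mem_insert.1 hi).resolve_left hia)
    · rw [prod_insert ha, Function.update_self, hc' j, ← hd2 j]
      congr 1
      exact prod_congr rfl fun k hk => by
        rw [Function.update_of_ne (ne_of_mem_of_not_mem hk ha)]

theorem exists_matrix {ι ι' : Type} [Fintype ι] [Fintype ι'] (r : ι → ℕ) (hr : ∀ i, 0 < r i)
    (c : ι' → ℕ) (h : ∏ i, r i = ∏ j, c j) :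
    ∃ d : ι → ι' → ℕ, (∀ i, ∏ j, d i j = r i) ∧ ∀ j, ∏ i, d i j = c j := by
  obtain ⟨d, h1, h2⟩ := exists_matrix' univ r hr c h
  exact ⟨d, fun i => h1 i (mem_univ i), h2⟩

/-! ## the encoding -/

variable {κ : ℕ}

/-- the common primes (padded by `2`). -/
def ee (A B : (Fin (κ + 1) → ℕ) × ℕ) (i : Fin (κ + 1)) : ℕ :=
  if A.1 i ∈ Set.range B.1 then A.1 i else 2

/-- the line products. -/
def rr (A B : (Fin (κ + 1) → ℕ) × ℕ) : Option (Fin (κ + 1)) → ℕ
  | none => A.2
  | some i => if A.1 i ∈ Set.range B.1 then 1 else A.1 i - 1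

/-- the sizes of the lines. -/
def th (h : ℝ) (A B : (Fin (κ + 1) → ℕ) × ℕ) : Option (Fin (κ + 1)) → ℕ
  | none => ⌊h ^ 12⌋₊
  | some i => if A.1 i ∈ Set.range B.1 then 0 else ys (A.1 i)

/-- decoding. -/
def dec (e : Fin (κ + 1) → ℕ) (r : Option (Fin (κ + 1)) → ℕ) : (Fin (κ + 1) → ℕ) × ℕ :=
  (fun i => e i + r (some i) - 1, r none)

/-- the largest size. -/
def TT (h : ℝ) : ℕ := ⌊h ^ 21⌋₊

/-- the tolerance. -/
def dd (h : ℝ) : ℕ := ⌈2 * h ^ 12⌉₊

/-- active lines. -/
def II (h : ℝ) (θ : Option (Fin (κ + 1)) → ℕ) : Finset (Option (Fin (κ + 1))) :=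
  univ.filter fun o => dd h < θ o

variable {h : ℝ} {A B : (Fin (κ + 1) → ℕ) × ℕ}

theorem dec_eq (hA : Obj h A) : dec (ee A B) (rr A B) = A := by
  refine Prod.ext (funext fun i => ?_) rfl
  have := (hA.prime i).two_le
  simp only [dec, ee, rr]
  split_ifs <;> omega

theorem tv_eq : pv (ee A B) * ∏ o, rr A B o = tv A := by
  rw [Fintype.prod_option, tv, pv, pv, mul_comm (rr A B none), ← mul_assoc, ← prod_mul_distrib]
  congr 1
  refine prod_congr rfl fun i _ => ?_
  simp only [ee, rr]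
  split_ifs <;> simp

theorem pv_ee (hA : Obj h A) : pv (ee A B) =
    ∏ q ∈ univ.image A.1 ∩ univ.image B.1, (q - 1) := by
  have e : univ.image A.1 ∩ univ.image B.1 =
      (univ.filter fun i => A.1 i ∈ Set.range B.1).image A.1 := by
    ext q
    simp only [mem_inter, mem_image, mem_univ, true_and, mem_filter, Set.mem_range]
    constructor
    · rintro ⟨⟨i, rfl⟩, hj⟩
      exact ⟨i, hj, rfl⟩
    · rintro ⟨i, hj, rfl⟩
      exact ⟨⟨i, rfl⟩, hj⟩
  rw [e, prod_image fun i _ j _ hij => hA.anti.injective hij, prod_filter, pv]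
  refine prod_congr rfl fun i _ => ?_
  simp only [ee]
  split_ifs <;> simp

theorem ys_le (hA : Obj h A) (i : Fin (κ + 1)) : ys (A.1 i) ≤ TT h :=
  (ys_mono (hA.anti.antitone (Fin.zero_le i))).trans (Nat.le_floor hA.le)

theorem ee_mem (hA : Obj h A) (i : Fin (κ + 1)) : (ee A B i).Prime ∧ ys (ee A B i) ≤ TT h := by
  simp only [ee]
  split_ifs
  · exact ⟨hA.prime i, ys_le hA i⟩
  · exact ⟨Nat.prime_two, (ys_mono (hA.prime i).two_le).trans (ys_le hA i)⟩

theorem pv_pos {n : ℕ} {e : Fin n → ℕ} (he : ∀ i, (e i).Prime) : 0 < pv e :=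
  prod_pos fun i _ => Nat.sub_pos_of_lt (he i).one_lt

theorem rr_pos (hA : Obj h A) (o : Option (Fin (κ + 1))) : 0 < rr A B o := by
  cases o with
  | none => exact hA.pos
  | some i =>
    have := (hA.prime i).two_le
    simp only [rr]
    split_ifs <;> omega

theorem prod_rr (hA : Obj h A) (hB : Obj h B) (e : tv A = tv B) :
    ∏ o, rr A B o = ∏ o, rr B A o := by
  refine Nat.eq_of_mul_eq_mul_left (pv_pos fun i => (ee_mem (B := B) hA i).1) ?_
  rw [tv_eq, e, pv_ee hA, inter_comm, ← pv_ee hB, tv_eq]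

theorem ys_P_rr (hA : Obj h A) (o : Option (Fin (κ + 1))) : ys (P (rr A B o)) ≤ th h A B o := by
  cases o with
  | none => exact Nat.le_floor hA.sm
  | some i =>
    have := (hA.prime i).two_le
    simp only [rr, th]
    split_ifs
    · simp
    · exact ys_mono ((P_le_self (by omega)).trans (Nat.sub_le _ _))

theorem th_le (h1 : 1 ≤ h) (hA : Obj h A) (o : Option (Fin (κ + 1))) : th h A B o ≤ TT h := by
  cases o with
  | none => exact Nat.floor_mono (pow_le_pow_right₀ h1 (by norm_num))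
  | some i =>
    simp only [th]
    split_ifs
    · exact Nat.zero_le _
    · exact ys_le hA i

theorem floor_le_dd (h : ℝ) : ⌊h ^ 12⌋₊ ≤ dd h :=
  (Nat.floor_le_ceil _).trans (Nat.ceil_mono (by have : 0 ≤ h ^ 12 := by positivity
                                                 linarith))

theorem act (hA : Obj h A) {o : Option (Fin (κ + 1))} (ho : o ∈ II h (th h A B)) :
    Act (TT h) (dd h) (th h A B o) (rr A B o) ∧
      ∃ i, rr A B o + 1 = A.1 i ∧ A.1 i ∉ Set.range B.1 := by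
  have h1 : dd h < th h A B o := (mem_filter.1 ho).2
  cases o with
  | none => exact absurd h1 (not_lt.2 (floor_le_dd h))
  | some i =>
    have h2 := (hA.prime i).two_le
    by_cases hi : A.1 i ∈ Set.range B.1
    · simp [th, hi] at h1
    · have e : A.1 i - 1 + 1 = A.1 i := by omega
      simp only [th, rr, if_neg hi] at h1 ⊢
      refine ⟨⟨by rw [e]; exact hA.prime i, (ys_mono (Nat.sub_le _ _)).trans (ys_le hA i), h1, ?_⟩,
        i, e, hi⟩
      have h3 := (hA.nor i).le_P (hA.prime i)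
      have h4 : 2 * h ^ 12 ≤ dd h := Nat.le_ceil _
      have h5 : (ys (A.1 i) : ℝ) ≤ ys (P (A.1 i - 1)) + dd h := by linarith
      exact_mod_cast h5

theorem exists_mat (hA : Obj h A) (hB : Obj h B) (e : tv A = tv B) :
    ∃ d : Option (Fin (κ + 1)) → Option (Fin (κ + 1)) → ℕ,
      (∀ o, ∏ o', d o o' = rr A B o) ∧ (∀ o', ∏ o, d o o' = rr B A o') ∧
      Mat (TT h) (dd h) (th h A B) (th h B A) (II h (th h A B)) (II h (th h B A)) d := by
  obtain ⟨d, h1, h2⟩ := exists_matrix _ (rr_pos (B := B) hA) _ (prod_rr hA hB e)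
  refine ⟨d, h1, h2, fun o o' => ?_, fun o ho => ?_, fun o ho => ?_, fun o ho o' ho' => ?_⟩
  · have d1 : d o o' ∣ rr A B o := h1 o ▸ dvd_prod_of_mem _ (mem_univ o')
    have d2 : d o o' ∣ rr B A o' := h2 o' ▸ dvd_prod_of_mem (fun o => d o o') (mem_univ o)
    exact ⟨Nat.pos_of_dvd_of_pos d1 (rr_pos hA o), le_min
      ((ys_mono (P_le_of_dvd (rr_pos hA o) d1)).trans (ys_P_rr hA o))
      ((ys_mono (P_le_of_dvd (rr_pos hB o') d2)).trans (ys_P_rr hB o'))⟩
  · rw [h1]
    exact (act hA ho).1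
  · rw [h2]
    exact (act hB ho).1
  · rw [h1, h2]
    obtain ⟨i, hi, hi'⟩ := (act hA ho).2
    obtain ⟨j, hj, -⟩ := (act hB ho').2
    intro e'
    exact hi' ⟨j, by rw [← hi, ← hj, e']⟩

/-! ## the weight -/

theorem dd_le (h1 : 1 ≤ h) : (dd h : ℝ) ≤ 3 * h ^ 12 := by
  have h2 : (1 : ℝ) ≤ h ^ 12 := one_le_pow₀ h1
  have h3 : (dd h : ℝ) < 2 * h ^ 12 + 1 := Nat.ceil_lt_add_one (by positivity)
  linarith

theorem le_ys_zero (hA : Obj h A) : h ^ 19 ≤ ys (A.1 0) := by
  have h1 := hA.con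
  rw [Fin.sum_univ_succ] at h1
  have h2 : 0 ≤ ∑ i : Fin κ, aCoef (i.succ : Fin (κ + 1)) * ys (A.1 i.succ) :=
    sum_nonneg fun i _ => mul_nonneg (aCoef_pos (by simp)).le (Nat.cast_nonneg _)
  simp only [Fin.coe_ofNat_eq_mod, Nat.zero_mod, aCoef_zero] at h1
  linarith

theorem th_zero (hB : Obj h B) (hlt : B.1 0 < A.1 0) : th h A B (some 0) = ys (A.1 0) := by
  refine if_neg ?_
  rintro ⟨j, hj⟩
  exact absurd (hj ▸ hB.anti.antitone (Fin.zero_le j)) (not_le.2 hlt)

theorem sum_le_II (θ : Option (Fin (κ + 1)) → ℕ) :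
    ∑ o, (θ o : ℝ) ≤ ∑ o ∈ II h θ, (θ o : ℝ) + (κ + 2) * dd h := by
  have h1 : ∀ o ∈ (univ : Finset (Option (Fin (κ + 1)))),
      (θ o : ℝ) ≤ (if dd h < θ o then (θ o : ℝ) else 0) + dd h := fun o _ => by
    split_ifs with h1
    · simp
    · rw [zero_add]
      exact_mod_cast not_lt.1 h1
  refine (sum_le_sum h1).trans_eq ?_
  rw [sum_add_distrib, II, sum_filter, sum_const, card_univ, nsmul_eq_mul]
  simp only [Fintype.card_option, Fintype.card_fin]
  push_cast
  ring

theorem Nc_anti {ι : Type} [Fintype ι] (θ : ι → ℕ) : Antitone (Nc θ) := fun _ _ hab =>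
  max_le_max le_rfl (card_le_card (monotone_filter_right _ fun _ _ hi => hab.trans hi))

theorem log_Nc_anti {ι : Type} [Fintype ι] (θ : ι → ℕ) :
    Antitone fun c => Real.log (Nc θ c) := fun a b hab =>
  Real.log_le_log (by exact_mod_cast lt_max_of_lt_left one_pos) (by exact_mod_cast Nc_anti θ hab)

theorem log_Nc_le (θ : Option (Fin (κ + 1)) → ℕ) (c : ℕ) : Real.log (Nc θ c) ≤ κ + 1 := by
  have h1 : Nc θ c ≤ κ + 2 := max_le (by omega) ((card_le_univ _).trans (by simp))
  have h2 : (Nc θ c : ℝ) ≤ κ + 2 := by exact_mod_cast h1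
  have h3 : (0 : ℝ) < Nc θ c := by exact_mod_cast lt_max_of_lt_left one_pos
  linarith [Real.log_le_sub_one_of_pos h3]

theorem weight (h3 : 3 ≤ h) (hκ : ((κ : ℝ) + 1) ^ 2 ≤ h) (hA : Obj h A) (hB : Obj h B)
    (hlt : B.1 0 < A.1 0) :
    Ad (fun l => Real.log (Nc (th h A B) (ys l))) (∏ o, rr A B o) ≤
      ∑ o ∈ II h (th h A B), (th h A B o : ℝ) - 3 / 4 * h ^ 19 := by
  set θ := th h A B with hθ
  set G : ℕ → ℝ := fun c => Real.log (Nc θ c) with hG
  set N : ℕ → ℕ := fun c => (univ.filter fun i : Fin (κ + 1) => c ≤ θ (some i)).card with hN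
  set n : ℝ := κ + 1 with hn
  have hn1 : 1 ≤ n := by rw [hn]; linarith [(Nat.cast_nonneg κ : (0 : ℝ) ≤ κ)]
  have hnh : n ≤ h := by nlinarith
  have h1 : (1 : ℝ) ≤ h := by linarith
  have hs : (0 : ℝ) ≤ h ^ 12 := by positivity
  have hG0 : ∀ c, 0 ≤ G c := fun c => Real.log_natCast_nonneg _
  have hGn : ∀ c, G c ≤ n := log_Nc_le θ
  have hT : ∀ o, θ o ≤ TT h := th_le h1 hA
  have layer : ∀ (F : ℕ → ℝ), ∑ i : Fin (κ + 1), ∑ c ∈ Icc 1 (θ (some i)), F c =
      ∑ c ∈ Icc 1 (TT h), N c * F c := fun F => by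
    have e : ∀ i : Fin (κ + 1), ∑ c ∈ Icc 1 (θ (some i)), F c =
        ∑ c ∈ Icc 1 (TT h), if c ≤ θ (some i) then F c else 0 := fun i => by
      rw [← sum_filter]
      refine sum_congr ?_ fun _ _ => rfl
      ext c
      have := hT (some i)
      simp only [mem_Icc, mem_filter]
      omega
    simp_rw [e]
    rw [sum_comm]
    refine sum_congr rfl fun c _ => ?_
    rw [← sum_filter, sum_const, nsmul_eq_mul]
  have a1 : Ad (fun l => G (ys l)) (rr A B none) ≤ n * (10 * h ^ 12) := by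
    refine (Ad_le_Ad (F' := fun _ => n) fun l _ _ => hGn _).trans ?_
    rw [Ad_const]
    exact mul_le_mul_of_nonneg_left hA.om (by linarith)
  have a2 : ∀ i ∈ (univ : Finset (Fin (κ + 1))), Ad (fun l => G (ys l)) (rr A B (some i)) ≤
      ∑ c ∈ Icc 1 (θ (some i)), G c + h ^ 12 * n := fun i _ => by
    by_cases hi : A.1 i ∈ Set.range B.1
    · simp only [hθ, rr, th, if_pos hi, Ad_one]
      simp
      positivity
    · simp only [hθ, rr, th, if_neg hi]
      have h4 := (abs_le.1 ((hA.nor i).abel (hA.prime i) (log_Nc_anti θ) hG0)).2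
      have h5 : h ^ 12 * G 1 ≤ h ^ 12 * n := mul_le_mul_of_nonneg_left (hGn 1) hs
      simp only [hG, hθ] at h4 h5 ⊢
      linarith
  have a3 : ∀ c ∈ Icc 1 (TT h), N c * G c ≤
      Qf (univ.filter fun i : Fin (κ + 1) => c ≤ ys (A.1 i)).card + N c * 1 +
        if c ≤ ⌊h ^ 12⌋₊ then h else 0 := fun c hc => by
    have b1 : Qf (N c) ≤ Qf (univ.filter fun i : Fin (κ + 1) => c ≤ ys (A.1 i)).card := by
      have b2 : N c ≤ (univ.filter fun i : Fin (κ + 1) => c ≤ ys (A.1 i)).card := by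
        refine card_le_card (monotone_filter_right _ fun i _ hi => hi.trans ?_)
        simp only [hθ, th]
        split_ifs <;> simp
      by_cases h0 : c ≤ ys (A.1 0)
      · refine Qf_mono (card_pos.2 ⟨0, mem_filter.2 ⟨mem_univ _, ?_⟩⟩) b2
        rw [hθ, th_zero hB hlt]
        exact h0
      · have b3 : (univ.filter fun i : Fin (κ + 1) => c ≤ ys (A.1 i)).card = 0 := by
          rw [card_eq_zero, filter_eq_empty_iff]
          exact fun i _ hi => h0 (hi.trans (ys_mono (hA.anti.antitone (Fin.zero_le i))))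
        rw [b3] at b2 ⊢
        rw [Nat.le_zero.1 b2]
    have b4 : N c * G c ≤ N c * Real.log (N c) + if c ≤ ⌊h ^ 12⌋₊ then h else 0 := by
      split_ifs with hc'
      · have b5 : (N c : ℝ) ≤ n := by
          have : N c ≤ κ + 1 := (card_le_univ _).trans (by simp)
          rw [hn]
          exact_mod_cast this
        have b6 : (N c : ℝ) * G c ≤ n * n := mul_le_mul b5 (hGn c) (hG0 c) (by linarith)
        have b7 : 0 ≤ (N c : ℝ) * Real.log (N c) :=
          mul_nonneg (Nat.cast_nonneg _) (Real.log_natCast_nonneg _)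
        nlinarith
      · have b5 : (univ.filter fun o => c ≤ θ o).card = N c := by
          rw [card_filter, Fintype.sum_option, if_neg (show ¬ c ≤ θ none from hc'), zero_add,
            ← card_filter]
        rw [add_zero]
        simp only [hG, Nc, b5]
        rcases Nat.eq_zero_or_pos (N c) with h0 | h0
        · simp [h0]
        · rw [max_eq_right h0]
    unfold Qf at b1 ⊢
    linarith
  have a4 : ∑ c ∈ Icc 1 (TT h), (if c ≤ ⌊h ^ 12⌋₊ then h else 0) ≤ h ^ 12 * h := by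
    rw [← sum_filter, sum_const, nsmul_eq_mul]
    refine mul_le_mul_of_nonneg_right ?_ (by linarith)
    refine le_trans ?_ (Nat.floor_le hs)
    have : ((Icc 1 (TT h)).filter fun c => c ≤ ⌊h ^ 12⌋₊).card ≤ (Icc 1 ⌊h ^ 12⌋₊).card :=
      card_le_card fun c hc => by
        simp only [mem_filter, mem_Icc] at hc ⊢
        omega
    simpa using this
  have a5 := sum_Qf (θ := fun i => ys (A.1 i)) (T := TT h)
    (fun i j hij => ys_mono (hA.anti.antitone hij)) (ys_le hA)
  have a6 : ∑ c ∈ Icc 1 (TT h), (N c : ℝ) * 1 ≤ ∑ o, (θ o : ℝ) := by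
    rw [← layer fun _ => 1, Fintype.sum_option]
    simp
  have a7 := sum_le_II (h := h) θ
  have a8 := sum_le_sum a3
  have a9 := sum_le_sum a2
  rw [sum_add_distrib, sum_add_distrib, a5] at a8
  rw [sum_add_distrib, layer, sum_const, card_univ, Fintype.card_fin, nsmul_eq_mul] at a9
  have a10 := hA.con
  rw [Ad_prod _ _ _ fun o _ => rr_pos hA o, Fintype.sum_option]
  have c1 : n * (10 * h ^ 12) ≤ 10 * h ^ 13 := by nlinarith
  have c2 : ((κ + 1 : ℕ) : ℝ) * (h ^ 12 * n) ≤ h ^ 13 := by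
    push_cast
    nlinarith
  have c3 : ((κ : ℝ) + 2) * dd h ≤ 2 * h * (3 * h ^ 12) :=
    mul_le_mul (by linarith) (dd_le h1) (Nat.cast_nonneg _) (by linarith)
  have c4 : 3 ^ 6 * h ^ 13 ≤ h ^ 19 := by
    rw [show h ^ 19 = h ^ 6 * h ^ 13 by ring]
    gcongr
  have c5 : (0 : ℝ) ≤ h ^ 13 := by positivity
  simp only [hG] at a1 a8 a9 ⊢
  nlinarith

end CollAux

end Crest.Agent.R20
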