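import Mathlib
import Crest.Prelude.Def_TotientScale

/-!
# Row 20 (S0026, S0027: number of totient values): definitions and interface statements

`ys n = ⌈∑_{p ≤ n} 1/(p-1)⌉ ≈ log log n` is the (integer) size of `n`.  A number `n` is peeled as
`n = q₀ q₁ q₂ ⋯` (`qₛ = pr n s`, decreasing).  Masses are harmonic sums in `ℝ≥0∞`.
Levels: `q₀` is level `0`; a tuple `q : Fin L → ℕ` lists the levels `1..L`; `j = m - level`.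
See `Crest/Agent/R20/Plan.lean`.  DO NOT EDIT (ask helper87).
-/

set_option autoImplicit false

noncomputable section

namespace Crest.Agent.R20

open Crest.NumberTheoryR.TotientScale Finset Filter Topology MeasureTheory
open scoped ENNReal ArithmeticFunction.Omega

/-! ## sizes, peeling, normal primes -/

/-- `∑_{p ≤ n} 1/(p-1)`. -/
def ms (n : ℕ) : ℝ := ∑ p ∈ (range (n + 1)).filter Nat.Prime, 1 / ((p : ℝ) - 1)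

/-- the size of `n`; `ys 1 = 0`, `ys 2 = 1`, `ys n = log log n + O(1)`. -/
def ys (n : ℕ) : ℕ := ⌈ms n⌉₊

theorem finite_ys (c : ℕ) : {l : ℕ | l.Prime ∧ ys l ≤ c}.Finite := by
  by_contra hinf
  apply not_summable_one_div_on_primes
  refine summable_of_sum_range_le (c := c)
    (fun n => Set.indicator_nonneg (fun _ _ => by positivity) n) fun n => ?_
  obtain ⟨l, ⟨-, hl⟩, hn⟩ := Set.Infinite.exists_gt hinf n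
  have h1 : ms l ≤ c := Nat.ceil_le.1 hl
  refine le_trans ?_ h1
  rw [ms, sum_filter]
  refine (sum_le_sum fun p _ => ?_).trans (sum_le_sum_of_subset_of_nonneg
    (range_mono (by omega : n ≤ l + 1)) fun p _ _ => ?_)
  · by_cases hp : p.Prime
    · have : (2 : ℝ) ≤ p := by exact_mod_cast hp.two_le
      rw [Set.indicator_of_mem (by exact hp), if_pos hp]
      exact one_div_le_one_div_of_le (by linarith) (by linarith)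
    · rw [Set.indicator_of_notMem (by exact hp), if_neg hp]
  · split_ifs with hp
    · have : (2 : ℝ) ≤ p := by exact_mod_cast hp.two_le
      exact one_div_nonneg.2 (by linarith)
    · exact le_rfl

/-- the primes of size `≤ c`. -/
def Pr (c : ℕ) : Finset ℕ := (finite_ys c).toFinset

/-- largest prime factor (`1` for `n ≤ 1`). -/
def P (n : ℕ) : ℕ := max 1 (n.primeFactors.sup id)

/-- remove the largest prime factor. -/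
def D (n : ℕ) : ℕ := n / P n

/-- the `s`-th largest prime factor (with multiplicity, `1` if there is none). -/
def pr (n s : ℕ) : ℕ := P (D^[s] n)

/-- completely additive extension of `F`. -/
def Ad (F : ℕ → ℝ) (n : ℕ) : ℝ := (n.primeFactorsList.map F).sum

/-- number of prime factors of size `≤ c`. -/
def Om (c n : ℕ) : ℕ := n.primeFactorsList.countP fun l => decide (ys l ≤ c)

/-- normal primes. -/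
def Normal (σ : ℝ) (q : ℕ) : Prop := ∀ c ≤ ys q, |(Om c (q - 1) : ℝ) - c| ≤ σ

/-- harmonic mass of a set of objects with values `v`. -/
def Mass {α : Type*} (v : α → ℕ) (S : Set α) : ℝ≥0∞ := ∑' a : S, ((v a : ℕ) : ℝ≥0∞)⁻¹

/-- harmonic mass of a set of integers. -/
def H (S : Set ℕ) : ℝ≥0∞ := Mass id S

/-- value of a tuple of primes. -/
def pv {L : ℕ} (q : Fin L → ℕ) : ℕ := ∏ i, (q i - 1)

/-- value of a tuple of primes together with a cofactor. -/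
def tv {L : ℕ} (τ : (Fin L → ℕ) × ℕ) : ℕ := pv τ.1 * τ.2

/-- smooth numbers. -/
def Sm (c : ℕ) : Set ℕ := {n | 0 < n ∧ ys (P n) ≤ c}

/-- totients of smooth numbers. -/
def Vs (t : ℕ) : Set ℕ := Nat.totient '' Sm t

/-- `n log n - n`; `aCoef s = Qf (s+1) - Qf s` (`aCoef 0 = -1`). -/
def Qf (n : ℕ) : ℝ := n * Real.log n - n

/-- all primes of `n` are normal and the large ones are simple. -/
def Unsp (h : ℝ) (n : ℕ) : Prop :=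
  ∀ q, q.Prime → q ∣ n → Normal (h ^ 12) q ∧ (q ^ 2 ∣ n → (ys q : ℝ) ≤ h ^ 12)

/-- `n` is good at a level with `j` further levels. -/
structure Good (h : ℝ) (j n : ℕ) : Prop where
  lt : P (D n) < P n
  le : (ys (P n) : ℝ) ≤ h ^ 21
  nor : Normal (h ^ 12) (P n)
  om : (Ω n.totient : ℝ) ≤ 10 * h ^ 21
  con : ∑ s ∈ range (j + 1), aCoef s * ys (pr n s) ≤ h ^ 19

/-! ## number-theoretic interface -/

def MertensStmt : Prop :=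
  ∃ C : ℝ, 0 ≤ C ∧ ∀ n : ℕ, 2 ≤ n → |(ys n : ℝ) - Real.log (Real.log n)| ≤ C

def PiStmt : Prop :=
  Tendsto (fun z : ℝ => (Nat.primeCounting ⌊z⌋₊ : ℝ) * Real.log z / z) atTop (𝓝 1)

/-- upper bound sieve for one, two or three linear forms (powers of `log log` are lost). -/
def BrunStmt : Prop := ∃ C : ℝ, 0 < C ∧ ∀ (T : ℝ) (X : ℕ) (A : Finset ℕ), 1 ≤ T → 2 ≤ X →
  Real.log (Real.log X) ≤ T → A.card ≤ 2 → (∀ a ∈ A, 0 < a ∧ Real.log (Real.log a) ≤ T) →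
  (((range (X + 1)).filter fun l => l.Prime ∧ ∀ a ∈ A, (a * l + 1).Prime).card : ℝ) ≤
    C * T ^ 6 * X / Real.log X ^ (A.card + 1)

/-- the sieve in terms of sizes: counting and harmonic version, and Chebyshev's bound. -/
def SieveStmt : Prop := ∃ C : ℝ, 1 ≤ C ∧
  (∀ (T c : ℕ) (A S : Finset ℕ), 1 ≤ T → A.card ≤ 2 → (∀ a ∈ A, 0 < a ∧ ys a ≤ T) →
    (∀ l ∈ S, l.Prime ∧ c ≤ ys l ∧ ys l ≤ T ∧ ∀ a ∈ A, (a * l + 1).Prime) →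
    (∀ X : ℝ, 0 ≤ X → (∀ l ∈ S, (l : ℝ) ≤ X) →
      (S.card : ℝ) ≤ C * (T : ℝ) ^ 6 * X * Real.exp (-((A.card + 1 : ℕ) * c : ℝ))) ∧
    (A.Nonempty → ∑ l ∈ S, (1 : ℝ) / l ≤ C * (T : ℝ) ^ 6 * Real.exp (-(A.card * c : ℝ)))) ∧
  ∀ (c : ℕ) (S : Finset ℕ) (X : ℝ), 0 ≤ X → (∀ l ∈ S, l.Prime ∧ c ≤ ys l ∧ (l : ℝ) ≤ X) →
    (S.card : ℝ) ≤ C * X * Real.exp (-(c : ℝ))

/-- smooth numbers are rare. -/
def SmoothStmt : Prop := ∃ c₀ : ℝ, 0 < c₀ ∧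
  (∀ (c : ℕ) (Z : ℝ), 1 ≤ Z → H {n | n ∈ Sm c ∧ Z ≤ n} ≤
    ENNReal.ofReal (Real.exp (3 * c - c₀ * Real.log Z * Real.exp (-(c : ℝ))))) ∧
  ∀ (X d : ℕ) (S : Finset ℕ), (∀ n ∈ S, 0 < n ∧ n ≤ X ∧ ys (P n) + d ≤ ys X) →
    (S.card : ℝ) ≤ Real.sqrt X + X * Real.exp (3 * ys X - c₀ * Real.exp d)

/-- primes that are not normal are rare. -/
def NNStmt : Prop := ∀ᶠ h : ℝ in atTop,
  (∀ (X : ℕ) (S : Finset ℕ), (ys X : ℝ) ≤ 2 * h ^ 21 →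
    (∀ q ∈ S, q.Prime ∧ q ≤ X ∧ ¬ Normal (h ^ 12) q) →
    (S.card : ℝ) ≤ X * Real.exp (-(ys X : ℝ) - h ^ 2)) ∧
  Mass (fun q => q - 1) {q | q.Prime ∧ (ys q : ℝ) ≤ h ^ 21 ∧ ¬ Normal (h ^ 12) q} ≤
    ENNReal.ofReal (Real.exp (-(h ^ 2 / 2)))

/-- totients (possibly with one prime removed) of numbers that violate the constraint. -/
def Vi (h : ℝ) (j : ℕ) : Set ℕ :=
  {v | ∃ n l : ℕ, 0 < n ∧ (ys (P n) : ℝ) ≤ h ^ 21 ∧ Unsp h n ∧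
    h ^ 19 < ∑ s ∈ range (j + 1), aCoef s * ys (pr n s) ∧ (l = 1 ∨ l.Prime) ∧ v * l = n.totient}

def ViStmt : Prop := ∀ᶠ h : ℝ in atTop, ∀ j : ℕ, ((j : ℝ) + 1) ^ 2 ≤ h →
  H (Vi h j) ≤ ENNReal.ofReal (Real.exp (-h ^ 2))

/-- totients of spoiled numbers. -/
def Sp (h : ℝ) : Set ℕ := {v | ∃ n : ℕ, 0 < n ∧ (ys (P n) : ℝ) ≤ h ^ 21 ∧ ¬ Unsp h n ∧ n.totient = v}

/-- a priori bound. -/
def LStmt : Prop :=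
  (∃ C : ℝ, 1 ≤ C ∧ ∀ t : ℕ, H (Vs t) ≤ ENNReal.ofReal (C * Real.exp ((t : ℝ) ^ (1 / 42 : ℝ)))) ∧
  ∀ᶠ h : ℝ in atTop, H (Sp h) ≤ ENNReal.ofReal (Real.exp (-(h ^ 2 / 4)))

/-- bad numbers have bounded mass; tail sums. -/
def BadStmt : Prop :=
  (∃ C : ℝ, 1 ≤ C ∧ ∀ᶠ h : ℝ in atTop, ∀ j : ℕ, ((j : ℝ) + 1) ^ 2 ≤ h →
    H {v | ∃ n : ℕ, 0 < n ∧ (ys (P n) : ℝ) ≤ h ^ 21 ∧ ¬ Good h j n ∧ n.totient = v} ≤
      ENNReal.ofReal C) ∧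
  (∀ c : ℝ, 0 < c → ∀ᶠ h : ℝ in atTop, ∀ J : ℕ, (J : ℝ) ^ 2 ≤ h →
    ∑' t : ℕ, (if h ^ 21 < t then
      ENNReal.ofReal (Real.exp (-(c * t / h ^ 20)) * (t : ℝ) ^ J) * H (Vs t) else 0) ≤ 1) ∧
  ∀ᶠ h : ℝ in atTop, ∀ (J t : ℕ), (J : ℝ) ^ 2 ≤ h → (t : ℝ) ≤ h ^ 21 →
    ENNReal.ofReal (Real.exp (-(h ^ 2 / 2)) * ((t : ℝ) + 1) ^ J) * H (Vs t) ≤ 1

/-- level `0`: the exceptional totients up to `x`. -/
def Bad0Stmt : Prop := ∃ C : ℝ, 1 ≤ C ∧ ∀ᶠ h : ℝ in atTop, ∀ (j : ℕ) (x : ℝ) (S : Finset ℕ),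
  2 ≤ j → ((j : ℝ) + 1) ^ 2 ≤ h → 3 ≤ x → 100 * h ^ 19 ≤ bigB x → 2 * bigB x ≤ h ^ 21 →
  (∀ v ∈ S, (v : ℝ) ≤ x ∧ ∃ n : ℕ, 0 < n ∧ n.totient = v ∧
    ¬ (P (D n) < P n ∧ ∑ s ∈ range (j + 1), aCoef s * ys (pr n s) ≤ h ^ 19 ∧
      ((D n).totient : ℝ) ≤ x ^ (4 / 5 : ℝ))) →
  (S.card : ℝ) ≤ C * x / Real.log x

/-! ## collisions -/

/-- number of lines of size `≥ c` (at least `1`). -/
def Nc {ι : Type} [Fintype ι] (θ : ι → ℕ) (c : ℕ) : ℕ := max 1 (univ.filter fun i => c ≤ θ i).card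

/-- an active line with product `n`. -/
def Act (T δ θ n : ℕ) : Prop := (n + 1).Prime ∧ ys n ≤ T ∧ δ < θ ∧ θ ≤ ys (P n) + δ

/-- admissible matrices. -/
structure Mat {ι ι' : Type} [Fintype ι] [Fintype ι'] (T δ : ℕ) (θ : ι → ℕ) (θ' : ι' → ℕ)
    (I : Finset ι) (I' : Finset ι') (d : ι → ι' → ℕ) : Prop where
  sm : ∀ i i', d i i' ∈ Sm (min (θ i) (θ' i'))
  row : ∀ i ∈ I, Act T δ (θ i) (∏ i', d i i')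
  col : ∀ i' ∈ I', Act T δ (θ' i') (∏ i, d i i')
  ne : ∀ i ∈ I, ∀ i' ∈ I', ∏ k, d i k ≠ ∏ k, d k i'

/-- the peeling bound. -/
def MatStmt : Prop := ∃ C : ℝ, 1 ≤ C ∧ ∀ (ι ι' : Type) [Fintype ι] [Fintype ι'] (T δ : ℕ)
  (θ : ι → ℕ) (θ' : ι' → ℕ) (I : Finset ι) (I' : Finset ι') (b : ℝ), 1 ≤ T →
  Nonempty ι → Nonempty ι' →
  let E : ℝ := C * (T : ℝ) ^ 6 * (Fintype.card ι * Fintype.card ι') * Real.exp δ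
  let S : Set (ι → ι' → ℕ) := {d | Mat T δ θ θ' I I' d ∧
    Ad (fun l => Real.log (Nc θ' (ys l))) (∏ i, ∏ i', d i i') ≤ b}
  let β : ℝ := Real.exp (b + ∑ i, (θ i : ℝ) - ∑ i ∈ I, (θ i : ℝ) - ∑ i' ∈ I', (θ' i' : ℝ)) *
    E ^ (I.card + I'.card)
  Mass (fun d => ∏ i, ∏ i', d i i') S ≤ ENNReal.ofReal β ∧
  ∀ i₀ ∈ I', ∀ (x : ℝ) (A : Finset (ι → ι' → ℕ)), 0 ≤ x →
    (∀ d ∈ A, d ∈ S ∧ ((∏ i, ∏ i', d i i' : ℕ) : ℝ) ≤ x) →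
    (A.card : ℝ) ≤ x * Real.exp (δ - θ' i₀) * β

/-- objects of the collision lemma. -/
structure Obj (h : ℝ) {κ : ℕ} (τ : (Fin (κ + 1) → ℕ) × ℕ) : Prop where
  prime : ∀ i, (τ.1 i).Prime
  anti : StrictAnti τ.1
  nor : ∀ i, Normal (h ^ 12) (τ.1 i)
  le : (ys (τ.1 0) : ℝ) ≤ h ^ 21
  pos : 0 < τ.2
  sm : (ys (P τ.2) : ℝ) ≤ h ^ 12
  om : (Ω τ.2 : ℝ) ≤ 10 * h ^ 12
  con : ∑ i : Fin (κ + 1), aCoef i * ys (τ.1 i) ≤ -h ^ 19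

def CollStmt : Prop := ∀ᶠ h : ℝ in atTop, ∀ κ : ℕ, ((κ : ℝ) + 1) ^ 2 ≤ h →
  Mass tv {τ : (Fin (κ + 1) → ℕ) × ℕ | Obj h τ ∧
    ∃ τ' : (Fin (κ + 1) → ℕ) × ℕ, Obj h τ' ∧ tv τ' = tv τ ∧ τ'.1 0 ≠ τ.1 0} ≤ 1 ∧
  ∀ (x : ℝ) (b : ℕ) (A : Finset ((Fin (κ + 1) → ℕ) × ℕ)), 0 ≤ x →
    (∀ τ ∈ A, Obj h τ ∧ (tv τ : ℝ) ≤ x ∧ b ≤ ys (τ.1 0) ∧
      ∃ τ' : (Fin (κ + 1) → ℕ) × ℕ, Obj h τ' ∧ tv τ' = tv τ ∧ τ'.1 0 ≠ τ.1 0 ∧ b ≤ ys (τ'.1 0)) →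
    (A.card : ℝ) ≤ x * Real.exp (-(b : ℝ))

/-! ## the simplex -/

/-- fixed parameters. -/
structure Par where
  ρ : ℝ
  ϱ : ℝ
  κ₁ : ℝ
  κ₂ : ℝ
  ρ_pos : 0 < ρ
  ρ_lt : ρ < 1
  sum : HasSum (fun j : ℕ => aCoef (j + 1) * ρ ^ (j + 1)) 1
  one_lt : 1 < ϱ
  pow : ϱ ^ 20 * ρ = 1
  κ_pos : 0 < κ₁

/-- the parameter of the level with `j` further levels. -/
def Par.h (p : Par) (h₀ : ℝ) (j : ℕ) : ℝ := h₀ * p.ϱ ^ j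

/-- `m / (ρ^m B)`. -/
def kap (ρ : ℝ) (m : ℕ) (B : ℝ) : ℝ := m / (ρ ^ m * B)

/-- `m` is the right number of levels for the budget `B`. -/
def Par.Sc (p : Par) (m : ℕ) (B : ℝ) : Prop := 0 < B ∧ p.κ₁ ≤ kap p.ρ m B ∧ kap p.ρ m B ≤ p.κ₂

/-- volume of the simplex; `scaleG ρ x = G (mIndex ρ x) (bigB x)`. -/
def G (L : ℕ) (B : ℝ) : ℝ := B ^ L / ((L.factorial : ℝ) * ∏ i ∈ range L, gSeq (i + 1))

/-- `x₊^L / L!` (zero for negative `x`, also if `L = 0`). -/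
def sv (L : ℕ) (x : ℝ) : ℝ := if 0 ≤ x then x ^ L / L.factorial else 0

def RenewStmt : Prop :=
  (∃ ρ : ℝ, 0 < ρ ∧ ρ < 1 ∧ HasSum (fun j : ℕ => aCoef (j + 1) * ρ ^ (j + 1)) 1) ∧
  ∀ p : Par, (∃ c : ℝ, 0 < c ∧ ∀ k, c ≤ gSeq k * p.ρ ^ k ∧ gSeq k * p.ρ ^ k ≤ 1) ∧
    ∃ γ : ℝ, 0 < γ ∧ Tendsto (fun k => gSeq k * p.ρ ^ k) atTop (𝓝 γ)

def SimplexStmt : Prop := ∀ (L : ℕ) (A : Fin L → Fin L → ℝ),
  (∀ R : Set (Fin L → ℝ),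
    volume {s : Fin L → ℝ | (fun k => s k - ∑ i ∈ Ioi k, A k i * s i) ∈ R} = volume R) ∧
  ∀ (b c g : Fin L → ℝ) (B : ℝ), (∀ i, 0 < g i) → (∀ i, g i = b i + ∑ k ∈ Iio i, g k * A k i) →
    volume {s : Fin L → ℝ | (∀ k, c k + ∑ i ∈ Ioi k, A k i * s i ≤ s k) ∧ ∑ i, b i * s i ≤ B} =
      ENNReal.ofReal (sv L (B - ∑ k, g k * c k) / ∏ i, g i)

/-- coupling of primes with Lebesgue measure. -/
def CoupleStmt : Prop := ∀ (L : ℕ) (S : Set (Fin L → ℕ)) (R : Set (Fin L → ℝ)),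
  ((∀ q ∈ S, ∀ i, (q i).Prime) →
    (∀ q ∈ S, ∀ s : Fin L → ℝ, (∀ i, s i ≤ ys (q i) ∧ (ys (q i) : ℝ) < s i + 2) → s ∈ R) →
    Mass pv S ≤ volume R) ∧
  ((∀ s ∈ R, ∀ i, 0 < s i) →
    (∀ s ∈ R, ∀ q : Fin L → ℕ, (∀ i, (q i).Prime ∧ s i ≤ ys (q i) ∧ (ys (q i) : ℝ) < s i + 2) →
      q ∈ S) → volume R ≤ Mass pv S)

/-- sizes of the levels `1, 2, …`: first the tuple, then the primes of `n`. -/
def sq {L : ℕ} (q : Fin L → ℕ) (n i : ℕ) : ℝ :=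
  if h : i < L then ys (q ⟨i, h⟩) else ys (pr n (i - L))

/-- the constraints at the levels `0..L` with tolerances `t`; `Y i` is the size of level `i+1`. -/
def Con (m L : ℕ) (B : ℝ) (t Y : ℕ → ℝ) : Prop :=
  ∑ i ∈ range m, aCoef (i + 1) * Y i ≤ B + t m ∧
    ∀ k < L, ∑ i ∈ Ioo k m, aCoef (i - k) * Y i ≤ Y k + t (m - 1 - k)

/-- abnormally large slack at level `k+1`. -/
def Fl (m k : ℕ) (Y : ℕ → ℝ) : Prop :=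
  ∑ i ∈ Ioo k m, aCoef (i - k) * Y i + Y (k + 1) / 2 ≤ Y k

/-- enlarged and shrunken tolerances. -/
def Par.tp (p : Par) (h₀ : ℝ) (j : ℕ) : ℝ := 2 * p.h h₀ j ^ 19
def Par.tm (p : Par) (h₀ : ℝ) (j : ℕ) : ℝ := -(2 * p.h h₀ j ^ 19)

/-- mass of the top levels, given the size `t` of the next one. -/
def TopStmt : Prop := ∀ p : Par, ∃ c : ℝ, 0 < c ∧ ∀ h₀ : ℝ, 1 ≤ h₀ → ∃ C : ℝ, 1 ≤ C ∧
  ∀ᶠ m : ℕ in atTop, ∀ B, p.Sc m B → ∀ L < m, ∀ k t : ℕ,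
    Mass pv {q : Fin L → ℕ | (∀ i, (q i).Prime) ∧ ∃ Y : ℕ → ℝ, (∀ i, 0 ≤ Y i) ∧
        (∀ i : Fin L, Y i = ys (q i)) ∧ Y L = t ∧ Con m L B (p.tp h₀) Y ∧ (k < L → Fl m k Y)} ≤
      ENNReal.ofReal (C * G L B / (1 + c) ^ (L - 1 - k) *
        if (t : ℝ) ≤ p.h h₀ (m - 1 - L) ^ 21 then 1
        else Real.exp (-(c * t / p.h h₀ (m - 1 - L) ^ 20)))

/-- tuples followed by a bad (or last) level. -/
def Par.X (p : Par) (h₀ : ℝ) (m L k : ℕ) (B : ℝ) : Set ((Fin L → ℕ) × ℕ) :=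
  {τ | (∀ i, (τ.1 i).Prime) ∧ ∃ n : ℕ, 0 < n ∧ n.totient = τ.2 ∧
    (L = m - 1 ∨ ¬ Good (p.h h₀ (m - 1 - L)) (m - 1 - L) n) ∧
    Con m L B (p.tp h₀) (sq τ.1 n) ∧ (k < L → Fl m k (sq τ.1 n))}

def MasterStmt : Prop := ∀ p : Par, ∃ c : ℝ, 0 < c ∧ ∀ᶠ h₀ : ℝ in atTop, ∃ C : ℝ, 1 ≤ C ∧
  ∀ᶠ m : ℕ in atTop, ∀ B, p.Sc m B → ∀ L < m, ∀ k : ℕ,
    Mass tv (p.X h₀ m L k B) ≤ ENNReal.ofReal (C * G L B / (1 + c) ^ (L - 1 - k))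

/-- sums of simplex volumes. -/
def GsumStmt : Prop := ∀ p : Par,
  (∃ C : ℝ, 1 ≤ C ∧ ∀ m B, p.Sc m B → ∑ L ∈ range m, G L B ≤ C * G m B) ∧
  (∀ ε : ℝ, 0 < ε → ∀ᶠ K : ℕ in atTop, ∀ m B, p.Sc m B → K ≤ m →
    ∑ L ∈ range (m - K), G L B ≤ ε * G (m - K) B ∧ ∑ L ∈ range (m - K + 1), G L B ≤ ε * G m B) ∧
  (∀ c ε : ℝ, 0 < c → 0 < ε → ∀ᶠ K : ℕ in atTop, ∀ m B, p.Sc m B → K ≤ m →
    ∑ k ∈ range (m - K + 1), ∑ L ∈ Ico (m - K) m, G L B / (1 + c) ^ (L - 1 - k) ≤ ε * G m B) ∧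
  ∀ K : ℕ, ∃ c : ℝ, 0 < c ∧ ∀ᶠ m : ℕ in atTop, ∀ B, p.Sc m B → c * G m B ≤ G (m - K) B

/-- the good bottom parts for the cut `K`. -/
def Par.R (p : Par) (h₀ : ℝ) (K : ℕ) : Set ℕ :=
  {r | ∀ i ≤ K - K / 2, Good (p.h h₀ (K - 1 - i)) (K - 1 - i) (D^[i] r)}

/-- admissible bottom parts with `κ` large primes. -/
structure Adm (h : ℝ) (κ r : ℕ) : Prop where
  pos : 0 < r
  lt : ∀ i < κ, pr r (i + 1) < pr r i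
  nor : ∀ i < κ, Normal (h ^ 12) (pr r i)
  sm : (ys (pr r κ) : ℝ) ≤ h ^ 12
  om : (Ω (D^[κ] r).totient : ℝ) ≤ 10 * h ^ 12

/-- the main family. -/
def Tu (R : Set ℕ) (m K : ℕ) (B : ℝ) (t : ℕ → ℝ) : Set ((Fin (m - K) → ℕ) × ℕ) :=
  {τ | (∀ i, (τ.1 i).Prime) ∧ ∃ r ∈ R, r.totient = τ.2 ∧ Con m (m - K) B t (sq τ.1 r)}

/-- the ordered family. -/
def To (R : Set ℕ) (m K : ℕ) (B : ℝ) (t : ℕ → ℝ) : Set ((Fin (m - K) → ℕ) × ℕ) :=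
  {τ | (∀ i, (τ.1 i).Prime) ∧ StrictAnti τ.1 ∧ (∀ i, (ys (τ.1 i) : ℝ) ≤ 9 / 10 * B) ∧
    ∃ r ∈ R, r.totient = τ.2 ∧ (∀ i, P r < τ.1 i) ∧ Con m (m - K) B t (sq τ.1 r)}

def UpperStmt : Prop := ∀ p : Par, ∀ᶠ h₀ : ℝ in atTop,
  (∃ C : ℝ, ∀ᶠ x : ℝ in atTop, ∀ m, p.Sc m (bigB x) →
    (totientCount x : ℝ) ≤ C * (x / Real.log x * G m (bigB x))) ∧
  ∀ ε : ℝ, 0 < ε → ∀ᶠ K : ℕ in atTop, ∀ᶠ x : ℝ in atTop, ∀ m, p.Sc m (bigB x) → ∀ A : ℝ, 0 ≤ A →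
    Mass tv (Tu (p.R h₀ K) m K (bigB x) (p.tp h₀)) ≤ ENNReal.ofReal A →
    (totientCount x : ℝ) ≤ x / Real.log x * ((1 + ε) * A + ε * G m (bigB x))

/-- the tuples of the ordered family whose primes are normal and not too large. -/
def Par.Tn (p : Par) (h₀ : ℝ) (R : Set ℕ) (m K : ℕ) (B : ℝ) : Set ((Fin (m - K) → ℕ) × ℕ) :=
  {τ | τ ∈ To R m K B (p.tm h₀) ∧ ∀ i : Fin (m - K),
    Normal (p.h h₀ (m - 1 - i) ^ 12) (τ.1 i) ∧ (ys (τ.1 i) : ℝ) ≤ p.h h₀ (m - 1 - i) ^ 21}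

/-- removal of abnormal tuples and of the tuples colliding at a level `≥ 1`. -/
def CleanStmt : Prop := ∀ p : Par, ∀ᶠ h₀ : ℝ in atTop, ∃ C : ℝ, 1 ≤ C ∧ ∀ᶠ m : ℕ in atTop, ∀ B,
  p.Sc m B → ∀ (K κ : ℕ) (R : Set ℕ), 1 ≤ K → K ≤ m → κ ≤ K → (∀ r ∈ R, Adm (p.h h₀ K) κ r) →
    Mass tv (To R m K B (p.tm h₀) \ {τ | τ ∈ p.Tn h₀ R m K B ∧
        ∀ τ' ∈ p.Tn h₀ R m K B, tv τ' = tv τ → τ' = τ}) ≤
      ENNReal.ofReal (C * ∑ L ∈ range (m - K), G L B)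

def LowerStmt : Prop := ∀ p : Par, ∀ᶠ h₀ : ℝ in atTop, ∃ C : ℝ, 1 ≤ C ∧ ∀ (K κ : ℕ) (R : Set ℕ),
  1 ≤ K → κ ≤ K → R.Finite → (∀ r ∈ R, Adm (p.h h₀ K) κ r) → ∀ ε : ℝ, 0 < ε →
  ∀ᶠ x : ℝ in atTop, ∀ m, p.Sc m (bigB x) → ∀ A : ℝ, 0 ≤ A →
    ENNReal.ofReal A ≤ Mass tv (To R m K (bigB x) (p.tm h₀)) →
    x / Real.log x * ((1 - ε) * A - C * ∑ L ∈ range (m - K), G L (bigB x)) ≤ totientCount x

def OrdStmt : Prop := ∀ p : Par, ∀ᶠ h₀ : ℝ in atTop, ∀ ε : ℝ, 0 < ε → ∀ᶠ K : ℕ in atTop,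
  ∀ᶠ m : ℕ in atTop, ∀ B, p.Sc m B →
    Mass tv (Tu (p.R h₀ K) m K B (p.tm h₀)) ≤
      Mass tv (To (p.R h₀ K) m K B (p.tm h₀)) + ENNReal.ofReal (ε * G m B)

def PosStmt : Prop := ∀ p : Par, ∃ c : ℝ, 0 < c ∧ ∀ h₀ : ℝ, 1 ≤ h₀ → ∀ᶠ K : ℕ in atTop,
  ∀ᶠ m : ℕ in atTop, ∀ B, p.Sc m B →
    ENNReal.ofReal (c * G (m - K) B) ≤ Mass tv (To {1} m K B (p.tm h₀))

/-- influence of the bottom part `r` on the level `m - K - i`. -/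
def el (K r i : ℕ) : ℝ := ∑ s ∈ range K, aCoef (i + s + 1) * ys (pr r s)

/-- the region of `r` in slack variables. -/
def U (m K : ℕ) (B : ℝ) (r : ℕ) : Set (Fin (m - K) → ℝ) :=
  {u | (∀ k : Fin (m - K), el K r (m - K - 1 - k) ≤ u k) ∧
    ∑ k : Fin (m - K), gSeq (k + 1) * u k ≤ B - el K r (m - K)}

/-- the main term. -/
def psi (R : Finset ℕ) (m K : ℕ) (B : ℝ) : ℝ :=
  ∑ w ∈ R.image Nat.totient,
    1 / (w : ℝ) * volume.real (⋃ r ∈ R.filter fun r => r.totient = w, U m K B r)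

def PsiStmt : Prop := ∀ (p : Par) (h₀ η : ℝ), 1 ≤ h₀ → 0 < η → ∀ᶠ K : ℕ in atTop,
  ∀ m B, p.Sc m B → K < m → ∀ R : Finset ℕ, (∀ r ∈ R, 0 < r) →
    Mass tv (Tu R m K B (p.tp h₀)) ≤ ENNReal.ofReal (psi R m K (B * (1 + η / m))) ∧
    ENNReal.ofReal (psi R m K (B * (1 - η / m))) ≤ Mass tv (Tu R m K B (p.tm h₀))

def LimitStmt : Prop := ∀ (p : Par) (R : Finset ℕ) (K : ℕ), ∃ A : ℝ → ℝ, Continuous A ∧
  ∀ ε : ℝ, 0 < ε → ∀ᶠ m : ℕ in atTop, ∀ B, p.Sc m B →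
    |psi R m K B / G m B - A (kap p.ρ m B)| ≤ ε

/-- the normalised count. -/
def ff (x : ℝ) (m : ℕ) : ℝ := totientCount x / (x / Real.log x * G m (bigB x))

def MainStmt : Prop := ∀ p : Par,
  (∃ c₁ c₂ : ℝ, 0 < c₁ ∧ ∀ᶠ x : ℝ in atTop, ∀ m, p.Sc m (bigB x) → c₁ ≤ ff x m ∧ ff x m ≤ c₂) ∧
  ∀ ε : ℝ, 0 < ε → ∃ A : ℝ → ℝ, Continuous A ∧
    ∀ᶠ x : ℝ in atTop, ∀ m, p.Sc m (bigB x) → |ff x m - A (kap p.ρ m (bigB x))| ≤ ε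

end Crest.Agent.R20
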