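import Crest.Agent.R20.Basic
import Crest.Agent.R5.Mertens
import Crest.Agent.Lib.PNT.Main

set_option autoImplicit false

noncomputable section

namespace Crest.Agent.R20

open Crest.NumberTheoryR.TotientScale Finset Filter Topology MeasureTheory
open scoped ENNReal ArithmeticFunction.Omega

namespace MertensAux

theorem tele (n : ℕ) (hn : 1 ≤ n) :
    ∑ k ∈ Icc 2 n, (1 / ((k : ℝ) - 1) - 1 / (k : ℝ)) = 1 - 1 / (n : ℝ) := by
  induction n, hn using Nat.le_induction with
  | base => simp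
  | succ n hn ih =>
    rw [Finset.sum_Icc_succ_top (by omega), ih]
    push_cast
    ring

theorem diff_le (n : ℕ) (hn : 2 ≤ n) :
    0 ≤ ms n - ∑ p ∈ (range (n + 1)).filter Nat.Prime, 1 / (p : ℝ) ∧
    ms n - ∑ p ∈ (range (n + 1)).filter Nat.Prime, 1 / (p : ℝ) ≤ 1 := by
  have hterm : ∀ k : ℕ, 2 ≤ k → 0 ≤ 1 / ((k : ℝ) - 1) - 1 / (k : ℝ) := by
    intro k hk
    have h2 : (2 : ℝ) ≤ k := by exact_mod_cast hk
    have : 1 / (k : ℝ) ≤ 1 / ((k : ℝ) - 1) :=
      one_div_le_one_div_of_le (by linarith) (by linarith)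
    linarith
  unfold ms
  rw [← Finset.sum_sub_distrib]
  refine ⟨Finset.sum_nonneg fun p hp => hterm p (Finset.mem_filter.1 hp).2.two_le, ?_⟩
  calc _ ≤ ∑ k ∈ Icc 2 n, (1 / ((k : ℝ) - 1) - 1 / (k : ℝ)) := by
        refine Finset.sum_le_sum_of_subset_of_nonneg ?_ fun k hk _ => hterm k (Finset.mem_Icc.1 hk).1
        intro p hp
        rw [Finset.mem_filter, Finset.mem_range] at hp
        exact Finset.mem_Icc.2 ⟨hp.2.two_le, by omega⟩
    _ = 1 - 1 / (n : ℝ) := tele n (by omega)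
    _ ≤ 1 := by
        have : (0 : ℝ) ≤ 1 / (n : ℝ) := by positivity
        linarith

theorem split (n : ℕ) (hn : 2 ≤ n) :
    ∑ p ∈ (range (n + 1)).filter Nat.Prime, 1 / (p : ℝ)
      = 1 / 2 + ∑ p ∈ R5.pr 2 n, 1 / (p : ℝ) := by
  have h : (range (n + 1)).filter Nat.Prime = insert 2 (R5.pr 2 n) := by
    ext p
    simp only [R5.pr, Finset.mem_filter, Finset.mem_range, Finset.mem_insert, Finset.mem_Icc,
      Nat.floor_natCast]
    constructor
    · rintro ⟨h1, h2⟩
      rcases eq_or_lt_of_le h2.two_le with h | h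
      · exact Or.inl h.symm
      · refine Or.inr ⟨⟨h2.one_le, by omega⟩, h2, ?_⟩
        exact_mod_cast h
    · rintro (rfl | ⟨⟨_, h1⟩, h2, _⟩)
      · exact ⟨by omega, Nat.prime_two⟩
      · exact ⟨by omega, h2⟩
  have hnot : 2 ∉ R5.pr 2 n := by
    simp [R5.pr]
  rw [h, Finset.sum_insert hnot]
  norm_num

end MertensAux

theorem mertens : MertensStmt := by
  obtain ⟨C, hC1, hC, -⟩ := R5.mertens
  have hl2 : 0 < Real.log 2 := Real.log_pos (by norm_num)
  refine ⟨C / Real.log 2 + |Real.log (Real.log 2)| + 3, by positivity, fun n hn => ?_⟩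
  have h1 := hC 2 n le_rfl (by exact_mod_cast hn)
  have h2 := MertensAux.diff_le n hn
  have h3 := MertensAux.split n hn
  have hs : 0 ≤ ∑ p ∈ R5.pr 2 n, 1 / (p : ℝ) := Finset.sum_nonneg fun _ _ => by positivity
  have hms : 0 ≤ ms n := by linarith [h2.1]
  have h4 : ms n ≤ (ys n : ℝ) := Nat.le_ceil _
  have h5 : (ys n : ℝ) < ms n + 1 := Nat.ceil_lt_add_one hms
  have h6 := abs_le.1 h1
  have h7 := le_abs_self (Real.log (Real.log 2))
  have h8 := neg_abs_le (Real.log (Real.log 2))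
  rw [abs_le]
  constructor <;> linarith [h6.1, h6.2, h2.1, h2.2]

theorem piStmt : PiStmt := by
  have hO := Chebyshev.primeCounting_sub_theta_div_log_isBigO
  -- the error term times `log z / z` tends to zero
  have h0 : Tendsto (fun z : ℝ =>
      ((Nat.primeCounting ⌊z⌋₊ : ℝ) - Chebyshev.theta z / Real.log z) * (Real.log z / z))
      atTop (𝓝 0) := by
    have h1 := hO.mul (Asymptotics.isBigO_refl (fun z : ℝ => Real.log z / z) atTop)
    refine h1.trans_tendsto ?_
    have h2 : Tendsto (fun z : ℝ => (Real.log z)⁻¹) atTop (𝓝 0) :=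
      Real.tendsto_log_atTop.inv_tendsto_atTop
    refine h2.congr' ?_
    filter_upwards [eventually_gt_atTop 1] with z hz
    have hl : Real.log z ≠ 0 := (Real.log_pos hz).ne'
    have hz0 : z ≠ 0 := by linarith
    field_simp
  have h3 := h0.add Lib.PNT.theta_tendsto
  rw [zero_add] at h3
  refine h3.congr' ?_
  filter_upwards [eventually_gt_atTop 1] with z hz
  have hl : Real.log z ≠ 0 := (Real.log_pos hz).ne'
  have hz0 : z ≠ 0 := by linarith
  field_simp
  ring

end Crest.Agent.R20
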