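/-!
# Row 20: plan of the proof (helper87)

Notation: `φ` totient, `B = log log x`, `a_s = aCoef s` (`a_0 = -1`, `a_1 ≈ .386`, `a_2 ≈ .909`),
`g = gSeq`, `h_j = h₀ ϱ^j` with `ϱ^20 ρ = 1`; `T = h^21` (largest size), `τ = h^19` (tolerance of
the constraints), `σ = h^12` (tolerance of normality).  `m/(ρ^m B) ∈ [κ₁, κ₂]` (`Par.Sc`).

A preimage `n = q₀ q₁ ⋯` of `v ≤ x` has sizes `y_k = ys q_k`; level `k` has `j = m - k` further
levels and satisfies (unless it is *bad*) `∑_{s=1}^{j} a_s y_{k+s} ≤ y_k + τ_j` (`Good.con`, `Con`).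
In the slack variables `u_k = y_k - ∑ a_s y_{k+s}` the region of the levels `1..L` is a simplex of
volume `G L B` (`SimplexStmt`, `CoupleStmt`, `TopStmt`), and `G (m-j) / G m ≲ ρ^{j²/2}` (`GsumStmt`).
Bad numbers have harmonic mass `O(1)` (`BadStmt`, from `NNStmt`, `ViStmt`, `LStmt`), so a first bad
level `L+1` costs `O(G L)` (`MasterStmt`).  Cut at `M = m - K`: up to `ε(K) G m`,
`V(x) log x / x` is the mass of the tuples `(q₁..q_M, w)`, `w = φ r`, `r ∈ R K` (`UpperStmt`,
`LowerStmt`, `OrdStmt`), which is `psi` (`PsiStmt`), and `psi / G m → A_K(m/(ρ^m B))` (`LimitStmt`).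
Distinct tuples give distinct values up to `O(∑_{L<M} G L)` (`CollStmt` from `MatStmt`, `CleanStmt`).
`PosStmt` gives the positive lower bound.
-/
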