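import Crest.Agent.R20.Basic

/-!
# Row 20: the simplices used for the positive lower bound
-/

set_option autoImplicit false

noncomputable section

namespace Crest.Agent.R20

open Crest.NumberTheoryR.TotientScale Finset Filter Topology MeasureTheory
open scoped ENNReal ArithmeticFunction.Omega

namespace PosAux

/-- extension by zero -/
def ext {M : ℕ} (s : Fin M → ℝ) (i : ℕ) : ℝ := if h : i < M then s ⟨i, h⟩ else 0

theorem ext_fin {M : ℕ} (s : Fin M → ℝ) (i : Fin M) : ext s i = s i := by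
  unfold ext; rw [dif_pos i.2]

/-- the simplex of an array -/
def Sx (M : ℕ) (A : ℕ → ℕ → ℝ) (c : ℕ → ℝ) (B : ℝ) : Set (Fin M → ℝ) :=
  {s | (∀ k < M, c k + ∑ i ∈ Ioo k M, A k i * ext s i ≤ ext s k) ∧
    ∑ i ∈ range M, aCoef (i + 1) * ext s i ≤ B}

/-- the dual recursion -/
def gr (A : ℕ → ℕ → ℝ) : ℕ → ℝ
  | i => aCoef (i + 1) + ∑ k : Fin i, gr A k * A k i
decreasing_by exact k.2

theorem gr_eq (A : ℕ → ℕ → ℝ) (i : ℕ) :
    gr A i = aCoef (i + 1) + ∑ k ∈ range i, gr A k * A k i := by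
  rw [gr, Fin.sum_univ_eq_sum_range (fun k => gr A k * A k i)]

theorem gr_pos {A : ℕ → ℕ → ℝ} (hA : ∀ k i, k < i → 0 ≤ A k i) (i : ℕ) : 0 < gr A i := by
  induction i using Nat.strong_induction_on with
  | _ i ih =>
    rw [gr_eq]
    refine add_pos_of_pos_of_nonneg (aCoef_pos (by omega)) (sum_nonneg fun k hk => ?_)
    exact mul_nonneg (ih k (mem_range.1 hk)).le (hA k i (mem_range.1 hk))

theorem sum_Ioi_fin {M : ℕ} (k : Fin M) (F : ℕ → ℝ) :
    ∑ i ∈ Ioi k, F (i : ℕ) = ∑ i ∈ Ioo (k : ℕ) M, F i := by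
  refine sum_bij (fun i _ => (i : ℕ)) (fun i hi => ?_) (fun i _ j _ h => Fin.ext h)
    (fun j hj => ?_) (fun _ _ => rfl)
  · exact mem_Ioo.2 ⟨(mem_Ioi.1 hi : k < i), i.2⟩
  · exact ⟨⟨j, (mem_Ioo.1 hj).2⟩, mem_Ioi.2 (mem_Ioo.1 hj).1, rfl⟩

theorem sum_Iio_fin {M : ℕ} (i : Fin M) (F : ℕ → ℝ) :
    ∑ k ∈ Iio i, F (k : ℕ) = ∑ k ∈ range i, F k := by
  refine sum_bij (fun i _ => (i : ℕ)) (fun j hj => ?_) (fun i _ j _ h => Fin.ext h)
    (fun j hj => ?_) (fun _ _ => rfl)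
  · exact mem_range.2 (mem_Iio.1 hj : j < i)
  · exact ⟨⟨j, (mem_range.1 hj).trans i.2⟩, mem_Iio.2 (mem_range.1 hj), rfl⟩

theorem vol_Sx (hS : SimplexStmt) (M : ℕ) {A : ℕ → ℕ → ℝ} (hA : ∀ k i, k < i → 0 ≤ A k i)
    (c : ℕ → ℝ) (B : ℝ) :
    volume (Sx M A c B) = ENNReal.ofReal
      (sv M (B - ∑ k ∈ range M, gr A k * c k) / ∏ i ∈ range M, gr A i) := by
  have h := (hS M (fun k i => A k i)).2 (fun i => aCoef (i + 1)) (fun k => c k)
    (fun i => gr A i) B (fun i => gr_pos hA i) (fun i => by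
      rw [gr_eq, sum_Iio_fin i (fun k => gr A k * A k i)])
  rw [Fin.sum_univ_eq_sum_range (fun k => gr A k * c k), Fin.prod_univ_eq_prod_range (gr A)] at h
  rw [← h]
  congr 1
  ext s
  simp only [Sx, Set.mem_ofPred_eq]
  have e1 : ∀ k : Fin M, ∑ i ∈ Ioi k, A k i * s i = ∑ i ∈ Ioo (k : ℕ) M, A k i * ext s i := by
    intro k
    rw [← sum_Ioi_fin k (fun i => A k i * ext s i)]
    exact sum_congr rfl fun i _ => by rw [ext_fin]
  have e2 : ∑ i : Fin M, aCoef (i + 1) * s i = ∑ i ∈ range M, aCoef (i + 1) * ext s i := by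
    rw [← Fin.sum_univ_eq_sum_range (fun i => aCoef (i + 1) * ext s i)]
    exact sum_congr rfl fun i _ => by rw [ext_fin]
  rw [e2]
  refine and_congr ⟨fun h k => ?_, fun h k hk => ?_⟩ Iff.rfl
  · rw [e1, ← ext_fin s k]; exact h k k.2
  · have := h ⟨k, hk⟩
    rw [e1, ← ext_fin s ⟨k, hk⟩] at this
    exact this

/-- the base array -/
def Ab (N k i : ℕ) : ℝ := if k = N ∧ i = N + 1 then 1 else aCoef (i - k)

/-- the array of a failure at `k₀` -/
def At (N k₀ k i : ℕ) : ℝ := Ab N k i + if k = k₀ ∧ i = k₀ + 1 then 0.4 else 0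

theorem le_Ab (N : ℕ) (k i : ℕ) : aCoef (i - k) ≤ Ab N k i := by
  unfold Ab
  split_ifs with h
  · rw [h.1, h.2, Nat.add_sub_cancel_left]; linarith [aCoef_one.2]
  · exact le_rfl

theorem Ab_nonneg (N : ℕ) (k i : ℕ) (h : k < i) : 0 ≤ Ab N k i :=
  (aCoef_pos (by omega)).le.trans (le_Ab N k i)

theorem Ab_le_At (N k₀ k i : ℕ) : Ab N k i ≤ At N k₀ k i := by
  unfold At
  split_ifs
  · norm_num
  · simp

theorem At_nonneg (N k₀ : ℕ) (k i : ℕ) (h : k < i) : 0 ≤ At N k₀ k i :=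
  (Ab_nonneg N k i h).trans (Ab_le_At N k₀ k i)

theorem gr_Ab (N : ℕ) {i : ℕ} (hi : i ≤ N) : gr (Ab N) i = gSeq (i + 1) := by
  induction i using Nat.strong_induction_on with
  | _ i ih =>
    rw [gr_eq, gSeq_succ']
    congr 1
    refine sum_congr rfl fun k hk => ?_
    have hk := mem_range.1 hk
    rw [ih k hk (by omega), Ab, if_neg (by omega)]

theorem gr_Ab_last (N : ℕ) : gr (Ab N) (N + 1) ≤ gSeq (N + 2) + gSeq (N + 1) := by
  rw [gr_eq, gSeq_succ' (N + 1), sum_range_succ, sum_range_succ, gr_Ab N le_rfl]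
  have e : ∑ k ∈ range N, gr (Ab N) k * Ab N k (N + 1) =
      ∑ k ∈ range N, gSeq (k + 1) * aCoef (N + 1 - k) := by
    refine sum_congr rfl fun k hk => ?_
    have hk := mem_range.1 hk
    rw [gr_Ab N hk.le, Ab, if_neg (by omega)]
  rw [e, Ab, if_pos ⟨rfl, rfl⟩]
  have := mul_pos (gSeq_pos (N + 1)) (aCoef_pos (s := N + 1 - N) (by omega))
  linarith

/-- gain of the dual weights -/
def Dg (k₀ i : ℕ) : ℝ := if i ≤ k₀ then 0 else 0.4 * gSeq (k₀ + 1) * gSeq (i - k₀ - 1)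

theorem Dg_nonneg (k₀ i : ℕ) : 0 ≤ Dg k₀ i := by
  unfold Dg
  split_ifs
  · exact le_rfl
  · have := gSeq_pos (k₀ + 1)
    have := gSeq_pos (i - k₀ - 1)
    positivity

theorem Dg_rec (k₀ n : ℕ) :
    Dg k₀ (k₀ + 1 + (n + 1)) ≤ ∑ k ∈ range (k₀ + 1 + (n + 1)),
      Dg k₀ k * aCoef (k₀ + 1 + (n + 1) - k) := by
  rw [sum_range_add]
  have h1 : 0 ≤ ∑ k ∈ range (k₀ + 1), Dg k₀ k * aCoef (k₀ + 1 + (n + 1) - k) :=
    sum_nonneg fun k hk => mul_nonneg (Dg_nonneg _ _)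
      (aCoef_pos (by have := mem_range.1 hk; omega)).le
  refine le_trans (le_of_eq ?_) (le_add_of_nonneg_left h1)
  rw [Dg, if_neg (by omega), show k₀ + 1 + (n + 1) - k₀ - 1 = n + 1 by omega, gSeq_succ n,
    ← sum_range_reflect, mul_sum]
  refine sum_congr rfl fun j hj => ?_
  have hj := mem_range.1 hj
  rw [Dg, if_neg (by omega), show k₀ + 1 + j - k₀ - 1 = j by omega,
    show n - (n + 1 - 1 - j) = j by omega,
    show k₀ + 1 + (n + 1) - (k₀ + 1 + j) = n + 1 - 1 - j + 1 by omega]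
  ring

theorem gr_At (N : ℕ) {k₀ : ℕ} (hk : k₀ ≤ N) (i : ℕ) :
    gr (Ab N) i + Dg k₀ i ≤ gr (At N k₀) i := by
  induction i using Nat.strong_induction_on with
  | _ i ih =>
    rw [gr_eq (At N k₀), gr_eq (Ab N), add_assoc]
    refine add_le_add le_rfl ?_
    have h1 : ∀ k ∈ range i, gr (Ab N) k * Ab N k i +
        ((if k = k₀ ∧ i = k₀ + 1 then 0.4 * gSeq (k₀ + 1) else 0) + Dg k₀ k * aCoef (i - k)) ≤
        gr (At N k₀) k * At N k₀ k i := by
      intro k hk'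
      have hk' := mem_range.1 hk'
      refine le_trans ?_ (mul_le_mul_of_nonneg_right (ih k hk') (At_nonneg N k₀ k i hk'))
      have a1 : Dg k₀ k * aCoef (i - k) ≤ Dg k₀ k * At N k₀ k i :=
        mul_le_mul_of_nonneg_left ((le_Ab N k i).trans (Ab_le_At N k₀ k i)) (Dg_nonneg _ _)
      have a2 : gr (Ab N) k * At N k₀ k i = gr (Ab N) k * Ab N k i +
          (if k = k₀ ∧ i = k₀ + 1 then 0.4 * gSeq (k₀ + 1) else 0) := by
        unfold At
        split_ifs with h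
        · rw [h.1, gr_Ab N hk]; ring
        · ring
      rw [add_mul, a2]
      linarith
    refine le_trans ?_ (sum_le_sum h1)
    rw [sum_add_distrib, sum_add_distrib]
    refine add_le_add le_rfl ?_
    have n1 : 0 ≤ ∑ k ∈ range i, (if k = k₀ ∧ i = k₀ + 1 then 0.4 * gSeq (k₀ + 1) else 0) :=
      sum_nonneg fun k _ => by
        have := gSeq_pos (k₀ + 1)
        split_ifs
        · positivity
        · exact le_rfl
    have n2 : 0 ≤ ∑ k ∈ range i, Dg k₀ k * aCoef (i - k) :=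
      sum_nonneg fun k hk' => mul_nonneg (Dg_nonneg _ _)
        (aCoef_pos (by have := mem_range.1 hk'; omega)).le
    rcases lt_trichotomy i (k₀ + 1) with h | h | h
    · rw [Dg, if_pos (by omega)]; linarith
    · subst h
      rw [sum_range_succ, if_pos ⟨rfl, rfl⟩, sum_eq_zero (fun k hk' => if_neg (by
        have := mem_range.1 hk'; omega)), Dg, if_neg (by omega),
        show k₀ + 1 - k₀ - 1 = 0 by omega, gSeq_zero]
      linarith
    · obtain ⟨n, rfl⟩ : ∃ n, i = k₀ + 1 + (n + 1) := ⟨i - k₀ - 2, by omega⟩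
      linarith [Dg_rec k₀ n]

section const
variable {ρ c₀ : ℝ} (hρ : 0 < ρ) (hρ1 : ρ < 1) (hc : 0 < c₀)
  (hg : ∀ k, c₀ ≤ gSeq k * ρ ^ k ∧ gSeq k * ρ ^ k ≤ 1)
include hρ hρ1 hc hg

theorem gr_Ab_le (N : ℕ) {i : ℕ} (hi : i < N + 2) : gr (Ab N) i ≤ (1 + 1 / c₀) * gSeq (i + 1) := by
  have h0 : 0 < 1 / c₀ := by positivity
  rcases Nat.lt_or_ge N i with h | h
  · obtain rfl : i = N + 1 := by omega
    refine (gr_Ab_last N).trans ?_
    have h1 : gSeq (N + 1) * c₀ ≤ gSeq (N + 2) := by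
      have a1 := (hg (N + 1)).2
      have a2 := (hg (N + 2)).1
      have a3 : 0 < ρ ^ (N + 1) := by positivity
      have a4 : gSeq (N + 2) * ρ ^ (N + 2) ≤ gSeq (N + 2) * ρ ^ (N + 1) :=
        mul_le_mul_of_nonneg_left (pow_le_pow_of_le_one hρ.le hρ1.le (by omega))
          (gSeq_pos _).le
      refine le_of_mul_le_mul_right ?_ a3
      nlinarith
    have h2 : gSeq (N + 1) ≤ 1 / c₀ * gSeq (N + 2) := by
      rw [one_div, inv_mul_eq_div, le_div_iff₀ hc]; exact h1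
    rw [add_mul, one_mul]
    linarith
  · rw [gr_Ab N h]
    have := gSeq_pos (i + 1)
    nlinarith

theorem gr_Ab_mul_le (N : ℕ) {i : ℕ} (hi : i < N + 2) : gr (Ab N) i * ρ ^ (i + 1) ≤ 1 + 1 / c₀ := by
  have h0 : 0 < 1 + 1 / c₀ := by positivity
  calc gr (Ab N) i * ρ ^ (i + 1) ≤ (1 + 1 / c₀) * gSeq (i + 1) * ρ ^ (i + 1) :=
        mul_le_mul_of_nonneg_right (gr_Ab_le hρ hρ1 hc hg N hi) (by positivity)
    _ ≤ (1 + 1 / c₀) * 1 := by
        rw [mul_assoc]; exact mul_le_mul_of_nonneg_left (hg _).2 h0.le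
    _ = _ := mul_one _

theorem gr_ratio (N : ℕ) {k₀ i : ℕ} (hk : k₀ < i) (hi : i < N + 2) :
    (1 + 0.4 * c₀ ^ 2 * ρ / (1 + 1 / c₀)) * gr (Ab N) i ≤ gr (At N k₀) i := by
  refine le_trans ?_ (gr_At N (by omega) i)
  rw [add_mul, one_mul]
  refine add_le_add le_rfl ?_
  have h0 : 0 < 1 + 1 / c₀ := by positivity
  have a3 : 0 < ρ ^ (i + 1) := by positivity
  refine le_of_mul_le_mul_right ?_ a3
  have h1 := gr_Ab_mul_le hρ hρ1 hc hg N hi
  have h2 : Dg k₀ i * ρ ^ (i + 1) =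
      0.4 * ρ * ((gSeq (k₀ + 1) * ρ ^ (k₀ + 1)) * (gSeq (i - k₀ - 1) * ρ ^ (i - k₀ - 1))) := by
    rw [Dg, if_neg (by omega)]
    have : ρ ^ (i + 1) = ρ * (ρ ^ (k₀ + 1) * ρ ^ (i - k₀ - 1)) := by
      rw [← pow_add, ← pow_succ']; congr 1; omega
    rw [this]; ring
  have h3 : c₀ ^ 2 ≤ (gSeq (k₀ + 1) * ρ ^ (k₀ + 1)) * (gSeq (i - k₀ - 1) * ρ ^ (i - k₀ - 1)) := by
    rw [pow_two]
    exact mul_le_mul (hg _).1 (hg _).1 hc.le (hc.le.trans (hg _).1)
  calc 0.4 * c₀ ^ 2 * ρ / (1 + 1 / c₀) * gr (Ab N) i * ρ ^ (i + 1)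
      = 0.4 * c₀ ^ 2 * ρ / (1 + 1 / c₀) * (gr (Ab N) i * ρ ^ (i + 1)) := by ring
    _ ≤ 0.4 * c₀ ^ 2 * ρ / (1 + 1 / c₀) * (1 + 1 / c₀) :=
        mul_le_mul_of_nonneg_left h1 (by positivity)
    _ = 0.4 * ρ * c₀ ^ 2 := by field_simp
    _ ≤ _ := by rw [h2]; exact mul_le_mul_of_nonneg_left h3 (by positivity)

theorem prod_Ab_le (N : ℕ) :
    ∏ i ∈ range (N + 2), gr (Ab N) i ≤ (1 + 1 / c₀) * ∏ i ∈ range (N + 2), gSeq (i + 1) := by
  rw [prod_range_succ, prod_range_succ (fun i => gSeq (i + 1)) (N + 1),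
    prod_congr rfl (fun i hi => gr_Ab N (Nat.lt_succ_iff.1 (mem_range.1 hi)))]
  have h1 : 0 ≤ ∏ i ∈ range (N + 1), gSeq (i + 1) := prod_nonneg fun i _ => (gSeq_pos _).le
  have h2 := mul_le_mul_of_nonneg_left (gr_Ab_le hρ hρ1 hc hg N (i := N + 1) (by omega)) h1
  linarith

theorem prod_At_ge (N : ℕ) {k₀ : ℕ} (hk : k₀ ≤ N) :
    (1 + 0.4 * c₀ ^ 2 * ρ / (1 + 1 / c₀)) ^ (N + 1 - k₀) * ∏ i ∈ range (N + 2), gr (Ab N) i ≤
      ∏ i ∈ range (N + 2), gr (At N k₀) i := by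
  set r : ℝ := 1 + 0.4 * c₀ ^ 2 * ρ / (1 + 1 / c₀) with hr
  have hr0 : 0 ≤ r := by positivity
  have e : r ^ (N + 1 - k₀) = ∏ i ∈ range (N + 2), (if k₀ < i then r else 1) := by
    rw [prod_ite, prod_const_one, mul_one, prod_const]
    congr 1
    have : (range (N + 2)).filter (fun i => k₀ < i) = Ioo k₀ (N + 2) := by
      ext i; simp only [mem_filter, mem_range, mem_Ioo]; tauto
    rw [this, Nat.card_Ioo]; omega
  rw [e, ← prod_mul_distrib]
  refine prod_le_prod (fun i _ => mul_nonneg ?_ (gr_pos (Ab_nonneg N) i).le) (fun i hi => ?_)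
  · split_ifs
    · exact hr0
    · exact zero_le_one
  · split_ifs with h
    · exact gr_ratio hρ hρ1 hc hg N h (mem_range.1 hi)
    · have := gr_At N hk i
      have := Dg_nonneg k₀ i
      linarith

end const

theorem geo_le {c : ℝ} (hc : 0 < c) (N : ℕ) :
    ∑ k ∈ range (N + 1), 1 / (1 + c) ^ (N + 1 - k) ≤ 1 / c := by
  have e : ∀ n : ℕ, ∑ j ∈ range n, 1 / (1 + c) ^ (j + 1) = (1 - 1 / (1 + c) ^ n) / c := by
    intro n
    induction n with
    | zero => simp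
    | succ n ih => rw [sum_range_succ, ih]; field_simp; ring
  rw [← sum_range_reflect]
  have : ∑ j ∈ range (N + 1), 1 / (1 + c) ^ (N + 1 - (N + 1 - 1 - j)) =
      ∑ j ∈ range (N + 1), 1 / (1 + c) ^ (j + 1) := by
    refine sum_congr rfl fun j hj => ?_
    have := mem_range.1 hj
    congr 2; omega
  rw [this, e]
  refine div_le_div_of_nonneg_right ?_ hc.le
  have : 0 ≤ 1 / (1 + c) ^ (N + 1) := by positivity
  linarith

theorem sv_le (M : ℕ) {x B u : ℝ} (hB : 0 ≤ B) (h : x ≤ B * (1 - u)) :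
    sv M x ≤ B ^ M * Real.exp (-(u * M)) / M.factorial := by
  unfold sv
  split_ifs with h0
  · refine div_le_div_of_nonneg_right ?_ (by positivity)
    have h1 : x ≤ B * Real.exp (-u) :=
      h.trans (mul_le_mul_of_nonneg_left (by linarith [Real.add_one_le_exp (-u)]) hB)
    calc x ^ M ≤ (B * Real.exp (-u)) ^ M := pow_le_pow_left₀ h0 h1 M
      _ = _ := by rw [mul_pow, ← Real.exp_nat_mul]; congr 2; ring
  · positivity

theorem le_sv (M : ℕ) {x y : ℝ} (hy : 0 ≤ y) (h : y ≤ x) : y ^ M / M.factorial ≤ sv M x := by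
  unfold sv
  rw [if_pos (hy.trans h)]
  exact div_le_div_of_nonneg_right (pow_le_pow_left₀ hy h M) (by positivity)

end PosAux

end Crest.Agent.R20
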