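import Crest.Agent.R20.Basic

/-!
# Row 20: comparison of the main family with the main term `psi`
-/

set_option autoImplicit false

noncomputable section

namespace Crest.Agent.R20

open Crest.NumberTheoryR.TotientScale Finset Filter Topology MeasureTheory
open scoped ENNReal ArithmeticFunction.Omega

namespace PsiAux

theorem sum_Ioi_fin {M : ℕ} (k : Fin M) (f : ℕ → ℝ) :
    ∑ i ∈ Ioi k, f i = ∑ i ∈ Ioo (k : ℕ) M, f i := by
  rw [← Fin.map_valEmbedding_Ioi, sum_map]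
  rfl

theorem sum_Iio_fin {M : ℕ} (k : Fin M) (f : ℕ → ℝ) :
    ∑ i ∈ Iio k, f i = ∑ i ∈ range k, f i := by
  rw [← Nat.Iio_eq_range, ← Fin.map_valEmbedding_Iio, sum_map]
  rfl

theorem a_nonneg {s : ℕ} (hs : 1 ≤ s) : 0 ≤ aCoef s := (aCoef_pos hs).le

theorem el_nonneg (K r i : ℕ) : 0 ≤ el K r i :=
  sum_nonneg fun _ _ => mul_nonneg (a_nonneg (by omega)) (Nat.cast_nonneg _)

/-- the constraints in terms of the tuple and of `el`. -/
theorem con_iff {m M K : ℕ} (hm : m = M + K) (q : Fin M → ℕ) (r : ℕ) (B : ℝ) (t : ℕ → ℝ) :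
    Con m M B t (sq q r) ↔
      (∑ i : Fin M, aCoef (i + 1) * ys (q i) + el K r M ≤ B + t m) ∧
        ∀ k : Fin M, ∑ i ∈ Ioi k, aCoef (i - k) * ys (q i) + el K r (M - 1 - k) ≤
          ys (q k) + t (m - 1 - k) := by
  have h1 : ∑ i ∈ range m, aCoef (i + 1) * sq q r i =
      ∑ i : Fin M, aCoef (i + 1) * ys (q i) + el K r M := by
    rw [hm, sum_range_add, sum_range (fun i => aCoef (i + 1) * sq q r i), el]
    simp only [sq_fin, sq_add]
  have h2 : ∀ k : Fin M, ∑ i ∈ Ioo (k : ℕ) m, aCoef (i - k) * sq q r i =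
      ∑ i ∈ Ioi k, aCoef (i - k) * ys (q i) + el K r (M - 1 - k) := by
    intro k
    have hk := k.2
    have e1 : ∑ i ∈ Ioi k, aCoef (i - k) * (ys (q i) : ℝ) =
        ∑ i ∈ Ioo (k : ℕ) M, aCoef (i - k) * sq q r i := by
      rw [← sum_Ioi_fin k (fun i => aCoef (i - k) * sq q r i)]
      simp only [sq_fin]
    have e2 : el K r (M - 1 - k) = ∑ i ∈ Ico M m, aCoef (i - k) * sq q r i := by
      rw [sum_Ico_eq_sum_range, el, show m - M = K by omega]
      refine sum_congr rfl fun s _ => ?_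
      rw [sq_add, show M - 1 - k + s + 1 = M + s - k by omega]
    rw [e1, e2, ← sum_union]
    · refine sum_congr ?_ fun _ _ => rfl
      ext i
      simp only [mem_Ioo, mem_union, mem_Ico]
      omega
    · rw [disjoint_left]
      intro i h h'
      simp only [mem_Ioo, mem_Ico] at h h'
      omega
  unfold Con
  rw [h1]
  refine and_congr Iff.rfl ⟨fun h k => ?_, fun h k hk => ?_⟩
  · have := h k k.2
    rwa [h2, sq_fin] at this
  · have := h ⟨k, hk⟩
    rw [← h2, ← sq_fin q r] at this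
    exact this

/-- slack variables. -/
def Phi {M : ℕ} (s : Fin M → ℝ) : Fin M → ℝ := fun k => s k - ∑ i ∈ Ioi k, aCoef (i - k) * s i

theorem sum_g_Phi {M : ℕ} (s : Fin M → ℝ) :
    ∑ k : Fin M, gSeq (k + 1) * Phi s k = ∑ i : Fin M, aCoef (i + 1) * s i := by
  have h1 : ∑ k : Fin M, gSeq (k + 1) * ∑ i ∈ Ioi k, aCoef (i - k) * s i =
      ∑ i : Fin M, (∑ k ∈ Iio i, gSeq (k + 1) * aCoef (i - k)) * s i := by
    simp only [mul_sum, sum_mul]
    rw [sum_comm' (s' := fun i : Fin M => Iio i) (t' := univ)]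
    · exact sum_congr rfl fun i _ => sum_congr rfl fun k _ => by ring
    · intro k i
      simp
  simp only [Phi, mul_sub, sum_sub_distrib]
  rw [h1, ← sum_sub_distrib]
  refine sum_congr rfl fun i _ => ?_
  rw [sum_Iio_fin i (fun k => gSeq (k + 1) * aCoef (i - k)), gSeq_succ']
  ring

theorem vol_Phi (hS : SimplexStmt) {M : ℕ} (e : Fin M → ℝ) (V : Set (Fin M → ℝ)) :
    volume {s : Fin M → ℝ | Phi s + e ∈ V} = volume V := by
  have h := (hS M fun k i => aCoef (i - k)).1 ((fun u => u + e) ⁻¹' V)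
  rw [measure_preimage_add_right] at h
  exact h

theorem vol_U_lt (hS : SimplexStmt) (m K : ℕ) (B : ℝ) (r : ℕ) : volume (U m K B r) < ⊤ := by
  have h := (hS (m - K) fun _ _ => 0).2 (fun k => gSeq (k + 1)) (fun k => el K r (m - K - 1 - k))
    (fun k => gSeq (k + 1)) (B - el K r (m - K)) (fun _ => gSeq_pos _) (fun _ => by simp)
  simp only [zero_mul, sum_const_zero, add_zero] at h
  rw [U, h]
  exact ENNReal.ofReal_lt_top

/-- the region attached to the cofactor `w`. -/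
def UU (R : Finset ℕ) (m K : ℕ) (B : ℝ) (w : ℕ) : Set (Fin (m - K) → ℝ) :=
  ⋃ r ∈ R.filter fun r => r.totient = w, U m K B r

theorem mem_UU {R : Finset ℕ} {m K : ℕ} {B : ℝ} {w : ℕ} {u : Fin (m - K) → ℝ} :
    u ∈ UU R m K B w ↔ ∃ r ∈ R, r.totient = w ∧ u ∈ U m K B r := by
  simp only [UU, Set.mem_iUnion, mem_filter, exists_prop, and_assoc]

theorem ofReal_psi (hS : SimplexStmt) (R : Finset ℕ) (hR : ∀ r ∈ R, 0 < r) (m K : ℕ) (B : ℝ) :
    ENNReal.ofReal (psi R m K B) =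
      ∑ w ∈ R.image Nat.totient, ((w : ℕ) : ℝ≥0∞)⁻¹ * volume (UU R m K B w) := by
  rw [psi, ENNReal.ofReal_sum_of_nonneg fun w _ => by positivity]
  refine sum_congr rfl fun w hw => ?_
  obtain ⟨r, hr, rfl⟩ := mem_image.1 hw
  have hw0 : (0 : ℝ) < r.totient := by exact_mod_cast Nat.totient_pos.2 (hR r hr)
  have hfin : volume (UU R m K B r.totient) ≠ ⊤ :=
    ((measure_biUnion_finset_le _ _).trans_lt
      (ENNReal.sum_lt_top.2 fun r _ => vol_U_lt hS m K B r)).ne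
  rw [ENNReal.ofReal_mul (by positivity), one_div, ENNReal.ofReal_inv_of_pos hw0,
    ENNReal.ofReal_natCast]
  congr 1
  exact ofReal_measureReal hfin

theorem mass_Tu (R : Finset ℕ) (m K : ℕ) (B : ℝ) (t : ℕ → ℝ) :
    Mass tv (Tu R m K B t) =
      ∑ w ∈ R.image Nat.totient, ((w : ℕ) : ℝ≥0∞)⁻¹ * Mass pv {q | (q, w) ∈ Tu R m K B t} := by
  have h := Mass_fiber (v := pv) (v' := id) (Tu R m K B t) fun p hp =>
    prod_pos fun i _ => by have := (hp.1 i).two_le; omega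
  refine Eq.trans h (tsum_eq_sum fun w hw => ?_)
  have : {q | (q, w) ∈ Tu (R : Set ℕ) m K B t} = ∅ := by
    refine Set.eq_empty_of_forall_notMem fun q hq => hw ?_
    obtain ⟨r, hr, h1, -⟩ := hq.2
    exact mem_image.2 ⟨r, hr, h1⟩
  rw [this, Mass_empty, mul_zero]

/-- the error at the level with `j` further levels. -/
def er (p : Par) (h₀ : ℝ) (j : ℕ) : ℝ := 2 * p.h h₀ j ^ 19 + 2 * ((j : ℝ) + 1) ^ 2

theorem summable_er (p : Par) (h₀ : ℝ) : Summable fun j => p.ρ ^ j * er p h₀ j := by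
  have hρ := p.ρ_pos
  have hϱ : 0 < p.ϱ := by linarith [p.one_lt]
  have h1 : p.ϱ ^ 19 * p.ρ < 1 := by
    have h := p.pow
    have h2 : 0 < p.ϱ ^ 19 * p.ρ := by positivity
    have h3 : p.ϱ * (p.ϱ ^ 19 * p.ρ) = 1 := by rw [← h]; ring
    nlinarith [p.one_lt]
  have s1 : Summable fun j : ℕ => 2 * h₀ ^ 19 * (p.ϱ ^ 19 * p.ρ) ^ j :=
    (summable_geometric_of_lt_one (by positivity) h1).mul_left _
  have hn : ‖p.ρ‖ < 1 := by rw [Real.norm_eq_abs, abs_of_pos hρ]; exact p.ρ_lt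
  have s2 := summable_pow_mul_geometric_of_norm_lt_one (R := ℝ) 2 hn
  have s3 := summable_pow_mul_geometric_of_norm_lt_one (R := ℝ) 1 hn
  have s4 := summable_geometric_of_lt_one hρ.le p.ρ_lt
  refine (s1.add (((s2.add (s3.mul_left 2)).add s4).mul_left 2)).congr fun j => ?_
  simp only [er, Par.h, mul_pow, ← pow_mul]
  rw [mul_comm j 19]
  ring

theorem er_nonneg (p : Par) {h₀ : ℝ} (h : 1 ≤ h₀) (j : ℕ) : 0 ≤ p.h h₀ j ^ 19 :=
  pow_nonneg (le_trans (by linarith) (p.le_h (by linarith) j)) _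

theorem err_small (hR : RenewStmt) (p : Par) {h₀ η : ℝ} (h : 1 ≤ h₀) (hη : 0 < η) :
    ∀ᶠ K : ℕ in atTop, ∀ m B, p.Sc m B → K < m →
      ∑ k : Fin (m - K), gSeq (k + 1) * er p h₀ (m - 1 - k) + er p h₀ m ≤ B * (η / m) := by
  obtain ⟨⟨c, -, hc⟩, -⟩ := hR.2 p
  have hρ := p.ρ_pos
  have he : ∀ j, 0 ≤ er p h₀ j := fun j => by
    have := er_nonneg p h j
    unfold er
    positivity
  have hκ : 0 < |p.κ₂| + 1 := by positivity
  obtain ⟨s, hs⟩ := (summable_er p h₀).vanishing (Iio_mem_nhds (div_pos hη hκ))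
  filter_upwards [eventually_gt_atTop (s.sup id)] with K hK m B hSc hm
  have h1 : ∑ j ∈ Icc K m, p.ρ ^ j * er p h₀ j < η / (|p.κ₂| + 1) := by
    refine hs _ (disjoint_left.2 fun j hj hj' => ?_)
    have := le_sup (f := id) hj'
    simp only [mem_Icc, id] at hj this
    omega
  have h2 : p.ρ ^ m * (∑ k : Fin (m - K), gSeq (k + 1) * er p h₀ (m - 1 - k) + er p h₀ m) ≤
      ∑ j ∈ Icc K m, p.ρ ^ j * er p h₀ j := by
    rw [← Ico_add_one_right_eq_Icc, sum_Ico_succ_top hm.le, mul_add, mul_sum,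
      ← sum_range (fun k => p.ρ ^ m * (gSeq (k + 1) * er p h₀ (m - 1 - k))),
      sum_Ico_eq_sum_range, ← sum_range_reflect _ (m - K)]
    refine add_le_add (sum_le_sum fun k hk => ?_) le_rfl
    have hk' := mem_range.1 hk
    have e1 : m - 1 - (m - K - 1 - k) = K + k := by omega
    have e2 : m = (K + k) + (m - K - 1 - k + 1) := by omega
    rw [e1]
    have e3 : p.ρ ^ m = p.ρ ^ (K + k) * p.ρ ^ (m - K - 1 - k + 1) := by rw [← pow_add, ← e2]
    have h3 := (hc (m - K - 1 - k + 1)).2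
    have h4 : 0 ≤ p.ρ ^ (K + k) * er p h₀ (K + k) := mul_nonneg (pow_pos hρ _).le (he _)
    calc p.ρ ^ m * (gSeq (m - K - 1 - k + 1) * er p h₀ (K + k))
        = (gSeq (m - K - 1 - k + 1) * p.ρ ^ (m - K - 1 - k + 1)) *
            (p.ρ ^ (K + k) * er p h₀ (K + k)) := by rw [e3]; ring
      _ ≤ 1 * (p.ρ ^ (K + k) * er p h₀ (K + k)) := mul_le_mul_of_nonneg_right h3 h4
      _ = _ := one_mul _
  obtain ⟨hB, -, hk2⟩ := hSc
  have hm0 : (0 : ℝ) < m := by exact_mod_cast (by omega : 0 < m)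
  have hρm : 0 < p.ρ ^ m := pow_pos hρ m
  rw [kap, div_le_iff₀ (by positivity)] at hk2
  have h5 : (m : ℝ) ≤ (|p.κ₂| + 1) * (p.ρ ^ m * B) :=
    hk2.trans (mul_le_mul_of_nonneg_right (by linarith [le_abs_self p.κ₂]) (by positivity))
  refine le_of_mul_le_mul_left ((h2.trans h1.le).trans ?_) hρm
  rw [div_le_iff₀ hκ]
  calc η = m * (η / m) := by field_simp
    _ ≤ (|p.κ₂| + 1) * (p.ρ ^ m * B) * (η / m) := mul_le_mul_of_nonneg_right h5 (by positivity)
    _ = _ := by ring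

theorem upper (hS : SimplexStmt) (hC : CoupleStmt) (p : Par) (h₀ : ℝ) {m K : ℕ}
    (hm : K < m) (R : Finset ℕ) {B δ : ℝ}
    (hδ : ∑ k : Fin (m - K), gSeq (k + 1) * er p h₀ (m - 1 - k) + er p h₀ m ≤ δ) (w : ℕ) :
    Mass pv {q | (q, w) ∈ Tu R m K B (p.tp h₀)} ≤ volume (UU R m K (B + δ) w) := by
  rw [← vol_Phi hS (fun k => er p h₀ (m - 1 - k))]
  refine (hC _ _ _).1 (fun q hq => hq.1) fun q hq s hs => ?_
  obtain ⟨-, r, hr, hw, hcon⟩ := hq
  obtain ⟨c1, c2⟩ := (con_iff (M := m - K) (K := K) (by omega) q r B _).1 hcon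
  refine mem_UU.2 ⟨r, hr, hw, fun k => ?_, ?_⟩
  · have h1 : ∑ i ∈ Ioi k, aCoef (i - k) * s i ≤ ∑ i ∈ Ioi k, aCoef (i - k) * (ys (q i) : ℝ) :=
      sum_le_sum fun i hi => mul_le_mul_of_nonneg_left (hs i).1 (a_nonneg (by
        have : (k : ℕ) < i := Fin.lt_def.1 (mem_Ioi.1 hi)
        omega))
    have h2 := c2 k
    have h3 := (hs k).2
    have h4 : (1 : ℝ) ≤ (((m - 1 - k : ℕ) : ℝ) + 1) ^ 2 :=
      one_le_pow₀ (by linarith [Nat.cast_nonneg (α := ℝ) (m - 1 - k)])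
    simp only [Pi.add_apply, Phi, er, Par.tp] at h2 ⊢
    linarith
  · have h1 : ∑ i : Fin (m - K), aCoef (i + 1) * s i ≤
        ∑ i : Fin (m - K), aCoef (i + 1) * (ys (q i) : ℝ) :=
      sum_le_sum fun i _ => mul_le_mul_of_nonneg_left (hs i).1 (a_nonneg (by omega))
    have h2 : p.tp h₀ m ≤ er p h₀ m := by
      unfold Par.tp er
      linarith [sq_nonneg ((m : ℝ) + 1)]
    simp only [Pi.add_apply, mul_add, sum_add_distrib, sum_g_Phi]
    linarith

theorem pos_of_Phi {M : ℕ} {s : Fin M → ℝ} (h : ∀ k, 0 < Phi s k) (k : Fin M) : 0 < s k := by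
  induction k using WellFoundedGT.induction with
  | ind k ih =>
    have h1 : 0 ≤ ∑ i ∈ Ioi k, aCoef (i - k) * s i :=
      sum_nonneg fun i hi => mul_nonneg (a_nonneg (by
        have : (k : ℕ) < i := Fin.lt_def.1 (mem_Ioi.1 hi)
        omega)) (ih i (mem_Ioi.1 hi)).le
    have h2 := h k
    unfold Phi at h2
    linarith

theorem sum_a_le {ι : Type*} (s : Finset ι) (f : ι → ℕ) (n : ℕ) (hs : s.card ≤ n)
    (hf : ∀ i ∈ s, f i ≤ n) : ∑ i ∈ s, aCoef (f i) ≤ (n : ℝ) ^ 2 := by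
  have h1 : ∑ i ∈ s, aCoef (f i) ≤ s.card • (n : ℝ) :=
    sum_le_card_nsmul _ _ _ fun i hi => (aCoef_le _).trans (by exact_mod_cast hf i hi)
  have h2 : (s.card : ℝ) ≤ n := by exact_mod_cast hs
  rw [nsmul_eq_mul] at h1
  nlinarith [Nat.cast_nonneg (α := ℝ) n]

theorem lower (hS : SimplexStmt) (hC : CoupleStmt) (p : Par) {h₀ : ℝ} (h : 1 ≤ h₀) {m K : ℕ}
    (hm : K < m) (R : Finset ℕ) {B δ : ℝ}
    (hδ : ∑ k : Fin (m - K), gSeq (k + 1) * er p h₀ (m - 1 - k) + er p h₀ m ≤ δ) (w : ℕ) :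
    volume (UU R m K (B - δ) w) ≤ Mass pv {q | (q, w) ∈ Tu R m K B (p.tm h₀)} := by
  rw [← vol_Phi hS (fun k => -er p h₀ (m - 1 - k))]
  refine (hC _ _ _).2 (fun s hs => pos_of_Phi fun k => ?_) fun s hs q hq => ?_
  · obtain ⟨r, -, -, h1, -⟩ := mem_UU.1 hs
    have h2 := h1 k
    have h3 := el_nonneg K r (m - K - 1 - k)
    have h4 := er_nonneg p h (m - 1 - k)
    have h5 : (0 : ℝ) < (((m - 1 - k : ℕ) : ℝ) + 1) ^ 2 := by positivity
    simp only [Pi.add_apply, er] at h2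
    linarith
  · obtain ⟨r, hr, hw, c2, c1⟩ := mem_UU.1 hs
    refine ⟨fun i => (hq i).1, r, hr, hw,
      (con_iff (M := m - K) (K := K) (by omega) q r B _).2 ⟨?_, fun k => ?_⟩⟩
    · have h1 : ∑ i : Fin (m - K), aCoef (i + 1) * (ys (q i) : ℝ) ≤
          ∑ i : Fin (m - K), aCoef (i + 1) * (s i + 2) :=
        sum_le_sum fun i _ => mul_le_mul_of_nonneg_left (hq i).2.2.le (a_nonneg (by omega))
      have h2 := sum_a_le (univ : Finset (Fin (m - K))) (fun i => i + 1) (m + 1)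
        (by simp; omega) fun i _ => by have := i.2; omega
      simp only [mul_add, sum_add_distrib, ← sum_mul] at h1
      simp only [Pi.add_apply, mul_add, sum_add_distrib, sum_g_Phi, mul_neg, sum_neg_distrib] at c1
      have h3 : er p h₀ m = 2 * p.h h₀ m ^ 19 + 2 * ((m : ℝ) + 1) ^ 2 := rfl
      push_cast at h2
      unfold Par.tm
      linarith
    · have hk := k.2
      have h1 : ∑ i ∈ Ioi k, aCoef (i - k) * (ys (q i) : ℝ) ≤
          ∑ i ∈ Ioi k, aCoef (i - k) * (s i + 2) :=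
        sum_le_sum fun i hi => mul_le_mul_of_nonneg_left (hq i).2.2.le (a_nonneg (by
          have : (k : ℕ) < i := Fin.lt_def.1 (mem_Ioi.1 hi)
          omega))
      have h2 := sum_a_le (Ioi k) (fun i => (i : ℕ) - k) (m - 1 - k + 1)
        (by rw [Fin.card_Ioi]; omega) fun i _ => by have := i.2; omega
      simp only [mul_add, sum_add_distrib, ← sum_mul] at h1
      have h3 := c2 k
      have h4 := (hq k).2.1
      simp only [Pi.add_apply, Phi, er] at h3
      rw [Nat.cast_add, Nat.cast_one] at h2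
      unfold Par.tm
      linarith

end PsiAux

open PsiAux in
theorem psiStmt (hR : RenewStmt) (hS : SimplexStmt) (hC : CoupleStmt) : PsiStmt := by
  intro p h₀ η h hη
  filter_upwards [err_small hR p h hη] with K hK m B hSc hm R hR0
  have hδ := hK m B hSc hm
  rw [ofReal_psi hS R hR0, ofReal_psi hS R hR0, mass_Tu, mass_Tu, mul_one_add, mul_one_sub]
  exact ⟨sum_le_sum fun w _ => mul_le_mul_right (upper hS hC p h₀ hm R hδ w) _,
    sum_le_sum fun w _ => mul_le_mul_right (lower hS hC p h hm R hδ w) _⟩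

end Crest.Agent.R20
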