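import Crest.Agent.R20.Basic

/-!
# Row 20: the perturbed recursion (extra coefficient `e` at the position `(k, k+1)`)
-/

set_option autoImplicit false

noncomputable section

namespace Crest.Agent.R20

open Crest.NumberTheoryR.TotientScale Finset Filter Topology MeasureTheory
open scoped ENNReal ArithmeticFunction.Omega

namespace TopAux

/-- perturbed coefficients -/
def At (k : ℕ) (e : ℝ) (k' i : ℕ) : ℝ := aCoef (i - k') + if k' = k ∧ i = k + 1 then e else 0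

/-- perturbed weights -/
def gt (k : ℕ) (e : ℝ) (i : ℕ) : ℝ :=
  gSeq (i + 1) + if k < i then e * (gSeq (k + 1) * gSeq (i - k - 1)) else 0

theorem sum_Iio_fin {L : ℕ} (i : Fin L) (f : ℕ → ℝ) :
    ∑ k ∈ Iio i, f k = ∑ k ∈ range i, f k := by
  rw [← Nat.Iio_eq_range, ← Fin.map_valEmbedding_Iio, Finset.sum_map]; rfl

theorem sum_Ioi_fin {L : ℕ} (i : Fin L) (f : ℕ → ℝ) :
    ∑ k ∈ Ioi i, f k = ∑ k ∈ Ioo (i : ℕ) L, f k := by
  rw [← Fin.map_valEmbedding_Ioi, Finset.sum_map]; rfl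

theorem g_le_gt (k : ℕ) {e : ℝ} (he : 0 ≤ e) (i : ℕ) : gSeq (i + 1) ≤ gt k e i := by
  unfold gt
  have := gSeq_pos (k + 1)
  have := gSeq_pos (i - k - 1)
  split_ifs
  · exact le_add_of_nonneg_right (by positivity)
  · simp

theorem gt_pos (k : ℕ) {e : ℝ} (he : 0 ≤ e) (i : ℕ) : 0 < gt k e i :=
  (gSeq_pos _).trans_le (g_le_gt k he i)

theorem conv (k j : ℕ) :
    ∑ k' ∈ range (k + 1 + (j + 1)), (if k < k' then gSeq (k' - k - 1) else 0) *
      aCoef (k + 1 + (j + 1) - k') = gSeq (j + 1) := by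
  rw [Finset.sum_range_add, Finset.sum_eq_zero (s := range (k + 1)), zero_add, gSeq_succ,
    ← Finset.sum_range_reflect]
  · refine Finset.sum_congr rfl fun d hd => ?_
    have hd' := Finset.mem_range.1 hd
    rw [if_pos (by omega), mul_comm]
    congr 2 <;> omega
  · intro x hx
    have := Finset.mem_range.1 hx
    rw [if_neg (by omega), zero_mul]

/-- the recursion of `SimplexStmt` on `ℕ` -/
theorem gt_rec (k : ℕ) (e : ℝ) (i : ℕ) :
    gt k e i = aCoef (i + 1) + ∑ k' ∈ range i, gt k e k' * At k e k' i := by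
  have h1 : ∀ k' ∈ range i, gt k e k' * At k e k' i = gSeq (k' + 1) * aCoef (i - k') +
      e * gSeq (k + 1) * ((if k < k' then gSeq (k' - k - 1) else 0) * aCoef (i - k')) +
      (if k' = k ∧ i = k + 1 then e * gSeq (k + 1) else 0) := by
    intro k' _
    unfold gt At
    by_cases h : k' = k
    · subst h
      simp only [lt_irrefl, if_false, true_and]
      split_ifs <;> ring
    · simp only [h, false_and, if_false]
      split_ifs <;> ring
  rw [Finset.sum_congr rfl h1, Finset.sum_add_distrib, Finset.sum_add_distrib, ← Finset.mul_sum,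
    ← add_assoc, ← add_assoc, ← gSeq_succ', add_assoc]
  unfold gt
  congr 1
  rcases lt_trichotomy i (k + 1) with h | h | h
  · rw [if_neg (by omega), Finset.sum_eq_zero, Finset.sum_eq_zero]
    · simp
    · intro x _; rw [if_neg (by omega)]
    · intro x hx
      have := Finset.mem_range.1 hx
      rw [if_neg (by omega), zero_mul]
  · subst h
    rw [if_pos (by omega), Finset.sum_eq_zero, Finset.sum_eq_single k]
    · simp
    · intro x _ hx; rw [if_neg (by tauto)]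
    · intro hx; exact absurd (Finset.mem_range.2 (by omega)) hx
    · intro x hx
      have := Finset.mem_range.1 hx
      rw [if_neg (by omega), zero_mul]
  · obtain ⟨j, rfl⟩ : ∃ j, i = k + 1 + (j + 1) := ⟨i - k - 2, by omega⟩
    rw [if_pos (by omega), conv, Finset.sum_eq_zero (s := range (k + 1 + (j + 1)))]
    · rw [show k + 1 + (j + 1) - k - 1 = j + 1 by omega]; ring
    · intro x _; rw [if_neg (by omega)]

/-- the recursion of `SimplexStmt` on `Fin L` -/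
theorem gt_rec_fin (k : ℕ) (e : ℝ) {L : ℕ} (i : Fin L) :
    gt k e i = aCoef (i + 1) + ∑ k' ∈ Iio i, gt k e k' * At k e k' i := by
  rw [sum_Iio_fin i (fun k' => gt k e k' * At k e k' i)]
  exact gt_rec k e i

theorem gt_lower {ρ c₀ : ℝ} (hρ : 0 < ρ) (hc : 0 < c₀)
    (hg : ∀ k, c₀ ≤ gSeq k * ρ ^ k ∧ gSeq k * ρ ^ k ≤ 1) {k i : ℕ} {e : ℝ} (he : 0 ≤ e)
    (h : k < i) : (1 + e * c₀ ^ 2 * ρ) * gSeq (i + 1) ≤ gt k e i := by
  unfold gt
  rw [if_pos h]
  have h1 := (hg (k + 1)).1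
  have h2 := (hg (i - k - 1)).1
  have h3 := (hg (i + 1)).2
  have h4 : c₀ * c₀ ≤ (gSeq (k + 1) * ρ ^ (k + 1)) * (gSeq (i - k - 1) * ρ ^ (i - k - 1)) :=
    mul_le_mul h1 h2 hc.le (hc.le.trans h1)
  have h5 : ρ ^ (k + 1) * ρ ^ (i - k - 1) = ρ ^ i := by
    rw [← pow_add]; congr 1; omega
  have h6 : c₀ ^ 2 * ρ * gSeq (i + 1) ≤ gSeq (k + 1) * gSeq (i - k - 1) := by
    have h7 : 0 < ρ ^ i := by positivity
    refine le_of_mul_le_mul_right ?_ h7
    calc c₀ ^ 2 * ρ * gSeq (i + 1) * ρ ^ i = c₀ * c₀ * (gSeq (i + 1) * ρ ^ (i + 1)) := by ring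
      _ ≤ c₀ * c₀ * 1 := by gcongr
      _ = c₀ * c₀ := mul_one _
      _ ≤ _ := h4
      _ = _ := by rw [← h5]; ring
  have := mul_le_mul_of_nonneg_left h6 he
  nlinarith

theorem gt_upper {ρ c₀ : ℝ} (hρ : 0 < ρ) (hρ1 : ρ ≤ 1)
    (hg : ∀ k, c₀ ≤ gSeq k * ρ ^ k ∧ gSeq k * ρ ^ k ≤ 1) (k i : ℕ) {e : ℝ} (he : 0 ≤ e) :
    gt k e i * ρ ^ (i + 1) ≤ 1 + e := by
  unfold gt
  have h3 := (hg (i + 1)).2
  split_ifs with h
  · have h1 := (hg (k + 1)).2
    have h2 := (hg (i - k - 1)).2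
    have h5 : ρ ^ (k + 1) * ρ ^ (i - k - 1) = ρ ^ i := by
      rw [← pow_add]; congr 1; omega
    have := gSeq_pos (i - k - 1)
    have h4 : (gSeq (k + 1) * ρ ^ (k + 1)) * (gSeq (i - k - 1) * ρ ^ (i - k - 1)) ≤ 1 * 1 :=
      mul_le_mul h1 h2 (by positivity) zero_le_one
    have h6 : gSeq (k + 1) * gSeq (i - k - 1) * ρ ^ (i + 1) ≤ 1 := by
      calc _ = (gSeq (k + 1) * ρ ^ (k + 1)) * (gSeq (i - k - 1) * ρ ^ (i - k - 1)) * ρ := by
            rw [pow_succ ρ i, ← h5]; ring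
        _ ≤ 1 * 1 * 1 := by gcongr
        _ = 1 := by ring
    have := mul_le_mul_of_nonneg_left h6 he
    nlinarith
  · linarith

theorem prod_gt {ρ c₀ : ℝ} (hρ : 0 < ρ) (hc : 0 < c₀)
    (hg : ∀ k, c₀ ≤ gSeq k * ρ ^ k ∧ gSeq k * ρ ^ k ≤ 1) (k : ℕ) {e : ℝ} (he : 0 ≤ e) (L : ℕ) :
    (1 + e * c₀ ^ 2 * ρ) ^ (L - 1 - k) * ∏ i ∈ range L, gSeq (i + 1) ≤ ∏ i ∈ range L, gt k e i := by
  induction L with
  | zero => simp
  | succ L ih =>
    rw [Finset.prod_range_succ, Finset.prod_range_succ]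
    have h0 : 0 ≤ ∏ i ∈ range L, gt k e i := Finset.prod_nonneg fun i _ => (gt_pos k he i).le
    have h1 := gSeq_pos (L + 1)
    by_cases h : k < L
    · rw [show L + 1 - 1 - k = L - 1 - k + 1 by omega]
      calc _ = ((1 + e * c₀ ^ 2 * ρ) ^ (L - 1 - k) * ∏ i ∈ range L, gSeq (i + 1)) *
            ((1 + e * c₀ ^ 2 * ρ) * gSeq (L + 1)) := by ring
        _ ≤ _ := mul_le_mul ih (gt_lower hρ hc hg he h) (by positivity) h0
    · rw [show L + 1 - 1 - k = L - 1 - k by omega, ← mul_assoc]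
      exact mul_le_mul ih (g_le_gt k he L) h1.le h0

end TopAux

end Crest.Agent.R20
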